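import Vale.Agent.P116.Ms.Spec
import Vale.Agent.P116.H906.Res2

/-!
# Block EN4: push forward of the cutoff by the conformal map (helper906)
-/

open Set Filter Topology Metric Bornology MeasureTheory
open scoped ComplexConjugate

namespace Vale.Agent.P116.Ms

open H906 PBC Slow

theorem fkdb_eq (ψ : ℂ → ℂ) (w : ℂ) : FK.db ψ w = Pomp.db ψ w := rfl

/-- `∫ ∂̄ψ · w̄ = -2 ∫ ψ` -/
theorem integral_db_conj {ψ : ℂ → ℂ} (h : ContDiff ℝ 1 ψ) (hs : HasCompactSupport ψ) :
    ∫ w, FK.db ψ w * conj w = -2 * ∫ w, ψ w := by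
  have hcD : Continuous (fderiv ℝ ψ) := h.continuous_fderiv (by simp)
  have hsD : HasCompactSupport (fderiv ℝ ψ) := hs.fderiv (𝕜 := ℝ)
  have hpart : ∀ v : ℂ, ∫ w, fderiv ℝ ψ w v * conj w = - ∫ w, ψ w * conj v := by
    intro v
    have hconj : ∀ w : ℂ, HasFDerivAt (fun w : ℂ => conj w)
        ((Complex.conjCLE : ℂ ≃L[ℝ] ℂ) : ℂ →L[ℝ] ℂ) w := fun w =>
      ((Complex.conjCLE : ℂ ≃L[ℝ] ℂ) : ℂ →L[ℝ] ℂ).hasFDerivAt (x := w)
    have hfd : ∀ w : ℂ, fderiv ℝ (fun w : ℂ => conj w) w v = conj v := by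
      intro w; rw [(hconj w).fderiv]; simp
    have i1 : Integrable (fun w : ℂ => fderiv ℝ ψ w v * conj w) := by
      refine Continuous.integrable_of_hasCompactSupport ?_ ?_
      · exact (hcD.clm_apply continuous_const).mul Complex.continuous_conj
      · refine HasCompactSupport.mul_right (f := fun w => fderiv ℝ ψ w v) ?_
        exact hsD.comp_left (g := fun D : ℂ →L[ℝ] ℂ => D v) (by simp)
    have i2 : Integrable (fun w : ℂ => ψ w * fderiv ℝ (fun w : ℂ => conj w) w v) := by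
      simp only [hfd]
      refine Continuous.integrable_of_hasCompactSupport ?_ hs.mul_right
      exact h.continuous.mul continuous_const
    have i3 : Integrable (fun w : ℂ => ψ w * conj w) := by
      refine Continuous.integrable_of_hasCompactSupport ?_ hs.mul_right
      exact h.continuous.mul Complex.continuous_conj
    have := integral_mul_fderiv_eq_neg_fderiv_mul_of_integrable (μ := (volume : Measure ℂ))
      i1 i2 i3 (fun x _ => h.differentiable (by simp) x)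
      (fun x _ => (hconj x).differentiableAt)
    simp only [hfd] at this
    rw [this, neg_neg]
  have e1 : ∀ w, FK.db ψ w * conj w =
      fderiv ℝ ψ w 1 * conj w + Complex.I * (fderiv ℝ ψ w Complex.I * conj w) := by
    intro w; unfold FK.db; ring
  have hint : ∀ v : ℂ, Integrable (fun w : ℂ => fderiv ℝ ψ w v * conj w) := by
    intro v
    refine Continuous.integrable_of_hasCompactSupport ?_ ?_
    · exact (hcD.clm_apply continuous_const).mul Complex.continuous_conj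
    · refine HasCompactSupport.mul_right (f := fun w => fderiv ℝ ψ w v) ?_
      exact hsD.comp_left (g := fun D : ℂ →L[ℝ] ℂ => D v) (by simp)
  simp only [e1]
  rw [integral_add (hint 1) ((hint Complex.I).const_mul _), integral_const_mul, hpart, hpart]
  rw [integral_mul_const, integral_mul_const]
  simp only [map_one, Complex.conj_I]
  ring_nf
  rw [Complex.I_sq]
  ring

section

variable {n : ℕ} {c : Fin n → ℂ} {r : Fin n → ℝ} {L : Fin n → Set ℂ} {h : ℂ → ℂ} {B : ℝ}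

theorem EP.ev (hP : EP c r L h B) : ∃ R₁ : ℝ, ∀ z : ℂ, R₁ ≤ ‖z‖ → ‖h z - z‖ < 1 := by
  have h1 : ∀ᶠ z in cobounded ℂ, ‖h z - z‖ < 1 := by
    have := hP.norm (ball_mem_nhds (0:ℂ) one_pos)
    filter_upwards [this] with z hz
    simpa using hz
  obtain ⟨R, -, hR⟩ := Filter.hasBasis_cobounded_norm.eventually_iff.1 h1
  exact ⟨R, fun z hz => hR hz⟩

/-- cluster points at a hole -/
theorem EP.near (hP : EP c r L h B) {𝒰 : Ultrafilter ℂ}
    (hΩ : (⋃ j, closedBall (c j) (r j))ᶜ ∈ (𝒰 : Filter ℂ)) {z : ℂ} (hz : (𝒰 : Filter ℂ) ≤ 𝓝 z)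
    {k : Fin n} (hk : z ∈ closedBall (c k) (r k)) {ε : ℝ} (hε : 0 < ε) :
    ∀ᶠ w in (𝒰 : Filter ℂ), infDist (h w) (L k) < ε := by
  obtain ⟨δ, hδ, hb⟩ := hP.bdry k ε hε
  have h1 : ∀ᶠ w in 𝓝 z, infDist w (closedBall (c k) (r k)) < δ := by
    have h2 : infDist z (closedBall (c k) (r k)) < δ := by
      rw [infDist_zero_of_mem hk]; exact hδ
    exact (continuous_infDist_pt _).continuousAt.eventually_lt continuousAt_const h2
  filter_upwards [hz h1, hΩ] with w hw1 hw2
  exact hb w hw2 hw1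

/-- cluster points -/
theorem EP.lim (hP : EP c r L h B) {w₀ : ℂ} {𝒰 : Ultrafilter ℂ}
    (hΩ : (⋃ j, closedBall (c j) (r j))ᶜ ∈ (𝒰 : Filter ℂ))
    (hlim : Tendsto h (𝒰 : Filter ℂ) (𝓝 w₀)) :
    ∃ z, (𝒰 : Filter ℂ) ≤ 𝓝 z ∧ (z ∉ ⋃ j, closedBall (c j) (r j) → w₀ ∉ ⋃ j, L j) ∧
      ∀ k, z ∈ closedBall (c k) (r k) → w₀ ∈ L k := by
  obtain ⟨R₁, hR₁⟩ := hP.ev
  have hbd : closedBall (0:ℂ) (max R₁ (‖w₀‖ + 2)) ∈ (𝒰 : Filter ℂ) := by
    by_contra hcon
    rw [Ultrafilter.mem_coe, ← Ultrafilter.compl_mem_iff_notMem] at hcon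
    have h2 : ∀ᶠ z in (𝒰 : Filter ℂ), dist (h z) w₀ < 1 := hlim (ball_mem_nhds w₀ one_pos)
    obtain ⟨z, hz1, hz2⟩ := (Filter.Eventually.and h2 (show ∀ᶠ z in (𝒰 : Filter ℂ), z ∈
      (closedBall (0:ℂ) (max R₁ (‖w₀‖ + 2)))ᶜ from hcon)).exists
    rw [mem_compl_iff, mem_closedBall, dist_zero_right, not_le] at hz2
    have h3 := hR₁ z ((le_max_left _ _).trans hz2.le)
    have h4 : ‖w₀‖ + 2 < ‖z‖ := (le_max_right _ _).trans_lt hz2
    rw [dist_eq_norm] at hz1
    have h5 : ‖z‖ ≤ ‖h z - z‖ + ‖h z - w₀‖ + ‖w₀‖ := by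
      have : z = -(h z - z) + (h z - w₀) + w₀ := by ring
      calc ‖z‖ = ‖-(h z - z) + (h z - w₀) + w₀‖ := by rw [← this]
        _ ≤ ‖-(h z - z)‖ + ‖h z - w₀‖ + ‖w₀‖ := norm_add₃_le
        _ = _ := by rw [norm_neg]
    linarith
  obtain ⟨z, -, hz⟩ := (isCompact_closedBall (0:ℂ) (max R₁ (‖w₀‖ + 2))).ultrafilter_le_nhds 𝒰
    (le_principal_iff.2 hbd)
  have hO : IsOpen (⋃ j, closedBall (c j) (r j))ᶜ :=
    (isClosed_iUnion_of_finite fun j => isClosed_closedBall).isOpen_compl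
  refine ⟨z, hz, fun hzO => ?_, fun k hk => ?_⟩
  · have h1 : Tendsto h (𝒰 : Filter ℂ) (𝓝 (h z)) :=
      ((hP.diff.differentiableAt (hO.mem_nhds hzO)).continuousAt.tendsto).mono_left hz
    have h2 : w₀ = h z := tendsto_nhds_unique hlim h1
    have h3 : h z ∈ (⋃ j, L j)ᶜ := by
      rw [← hP.image]; exact mem_image_of_mem _ hzO
    rw [h2]; exact h3
  · have h1 : Tendsto (fun w => infDist (h w) (L k)) (𝒰 : Filter ℂ) (𝓝 (infDist w₀ (L k))) :=
      ((continuous_infDist_pt _).tendsto _).comp hlim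
    have h2 : infDist w₀ (L k) ≤ 0 := by
      refine le_of_forall_pos_le_add fun ε hε => ?_
      rw [zero_add]
      refine le_of_tendsto h1 ?_
      filter_upwards [hP.near hΩ hz hk hε] with w hw using hw.le
    have h3 := (hP.Lc k).isClosed.mem_iff_infDist_zero (x := w₀) (hP.Lne k)
    exact h3.2 (le_antisymm h2 infDist_nonneg)

open Classical in
/-- the pushed forward cutoff -/
noncomputable def pfE (c : Fin n → ℂ) (r : Fin n → ℝ) (L : Fin n → Set ℂ) (h : ℂ → ℂ) (j : Fin n)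
    (E : ℂ → ℝ) (w : ℂ) : ℝ :=
  if w ∈ ⋃ k, L k then (if w ∈ L j then 1 else 0)
  else E (Function.invFunOn h (⋃ j, closedBall (c j) (r j))ᶜ w)

theorem EP.pf_h (hP : EP c r L h B) (j : Fin n) (E : ℂ → ℝ) {z : ℂ}
    (hz : z ∉ ⋃ j, closedBall (c j) (r j)) : pfE c r L h j E (h z) = E z := by
  have h1 : h z ∈ (⋃ j, L j)ᶜ := by
    rw [← hP.image]; exact mem_image_of_mem _ hz
  unfold pfE
  rw [if_neg h1]
  have h2 := Function.invFunOn_mem (f := h) (s := (⋃ j, closedBall (c j) (r j))ᶜ)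
    (b := h z) ⟨z, hz, rfl⟩
  have h3 := Function.invFunOn_eq (f := h) (s := (⋃ j, closedBall (c j) (r j))ᶜ)
    (b := h z) ⟨z, hz, rfl⟩
  rw [hP.inj h2 hz h3]

theorem pfE_nn (j : Fin n) {E : ℂ → ℝ} (hE : ∀ z, 0 ≤ E z) (w : ℂ) :
    0 ≤ pfE c r L h j E w := by
  unfold pfE
  split_ifs
  · exact zero_le_one
  · exact le_rfl
  · exact hE _

theorem pfE_L (j : Fin n) (E : ℂ → ℝ) {w : ℂ} (hw : w ∈ L j) :
    pfE c r L h j E w = 1 := by
  unfold pfE
  rw [if_pos (mem_iUnion.2 ⟨j, hw⟩), if_pos hw]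

theorem EP.pf_near (hP : EP c r L h B) (j : Fin n) {E : ℂ → ℝ} {δ : ℝ} (hδ : 0 < δ)
    (h1 : ∀ z, infDist z (closedBall (c j) (r j)) < δ → E z = 1)
    (h0 : ∀ k, k ≠ j → ∀ z, infDist z (closedBall (c k) (r k)) < δ → E z = 0) {k : Fin n}
    {w₀ : ℂ} (hw₀ : w₀ ∈ L k) :
    ∀ᶠ w in 𝓝 w₀, pfE c r L h j E w = if k = j then 1 else 0 := by
  classical
  by_contra hcon
  have hfr : ∃ᶠ w in 𝓝 w₀, ¬ pfE c r L h j E w = if k = j then 1 else 0 :=
    Filter.not_eventually.1 hcon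
  obtain ⟨𝒱, h𝒱'⟩ := (Filter.exists_ultrafilter_iff (f := 𝓝 w₀ ⊓
    𝓟 {w | ¬ pfE c r L h j E w = if k = j then 1 else 0})).2 (Filter.frequently_iff_neBot.1 hfr)
  obtain ⟨h𝒱, hV⟩ := le_inf_iff.1 h𝒱'
  rw [le_principal_iff] at hV
  -- the other holes are far
  have hfar : ∀ᶠ w in 𝓝 w₀, ∀ i, i ≠ k → w ∉ L i := by
    refine eventually_all.2 fun i => ?_
    by_cases hik : i = k
    · exact Eventually.of_forall fun w hne => absurd hik hne
    · have hnot : w₀ ∉ L i := fun hmem => disjoint_left.1 (hP.Ldisj i k hik) hmem hw₀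
      filter_upwards [(hP.Lc i).isClosed.isOpen_compl.mem_nhds hnot] with w hw _ using hw
  have hΩ' : (⋃ i, L i)ᶜ ∈ (𝒱 : Filter ℂ) := by
    filter_upwards [hV, h𝒱 hfar] with w hw1 hw2 hw3
    apply hw1
    obtain ⟨i, hi⟩ := mem_iUnion.1 hw3
    have hik : i = k := by
      by_contra hne
      exact hw2 i hne hi
    subst hik
    unfold pfE
    rw [if_pos hw3]
    by_cases hij : i = j
    · subst hij; rw [if_pos hi, if_pos rfl]
    · rw [if_neg hij, if_neg]
      intro hmem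
      exact disjoint_left.1 (hP.Ldisj i j hij) hi hmem
  -- pull back
  set g := Function.invFunOn h (⋃ j, closedBall (c j) (r j))ᶜ with hg
  have hgm : ∀ w ∈ (⋃ i, L i)ᶜ, g w ∈ (⋃ j, closedBall (c j) (r j))ᶜ ∧ h (g w) = w := by
    intro w hw
    rw [← hP.image] at hw
    exact ⟨Function.invFunOn_mem hw, Function.invFunOn_eq hw⟩
  have hU1 : (⋃ j, closedBall (c j) (r j))ᶜ ∈ ((𝒱.map g : Ultrafilter ℂ) : Filter ℂ) := by
    rw [Ultrafilter.coe_map, Filter.mem_map]
    filter_upwards [hΩ'] with w hw using (hgm w hw).1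
  have hU2 : Tendsto h ((𝒱.map g : Ultrafilter ℂ) : Filter ℂ) (𝓝 w₀) := by
    rw [Ultrafilter.coe_map, Filter.tendsto_map'_iff]
    refine Tendsto.congr' ?_ (tendsto_id.mono_left h𝒱)
    filter_upwards [hΩ'] with w hw using (hgm w hw).2.symm
  obtain ⟨z, hz, hz1, hz2⟩ := hP.lim hU1 hU2
  have hzin : z ∈ ⋃ j, closedBall (c j) (r j) := by
    by_contra hzn
    exact hz1 hzn (mem_iUnion.2 ⟨k, hw₀⟩)
  obtain ⟨i, hi⟩ := mem_iUnion.1 hzin
  have hik : i = k := by
    by_contra hne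
    exact disjoint_left.1 (hP.Ldisj i k hne) (hz2 i hi) hw₀
  subst hik
  have hnear : ∀ᶠ u in 𝓝 z, infDist u (closedBall (c i) (r i)) < δ := by
    have h2 : infDist z (closedBall (c i) (r i)) < δ := by
      rw [infDist_zero_of_mem hi]; exact hδ
    exact (continuous_infDist_pt _).continuousAt.eventually_lt continuousAt_const h2
  have hev : ∀ᶠ w in (𝒱 : Filter ℂ), infDist (g w) (closedBall (c i) (r i)) < δ := by
    have := hz hnear
    rwa [Ultrafilter.coe_map, Filter.mem_map] at this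
  obtain ⟨w, hw1, hw2, hw3⟩ := (hev.and ((show ∀ᶠ w in (𝒱 : Filter ℂ), w ∈ (⋃ i, L i)ᶜ from
    hΩ').and (show ∀ᶠ w in (𝒱 : Filter ℂ), ¬ pfE c r L h j E w = if i = j then 1 else 0 from
    hV))).exists
  apply hw3
  unfold pfE
  rw [if_neg hw2]
  by_cases hij : i = j
  · subst hij; rw [if_pos rfl, h1 _ hw1]
  · rw [if_neg hij, h0 i hij _ hw1]

theorem EP.pf_far (hP : EP c r L h B) (j : Fin n) {E : ℂ → ℝ} (hs : HasCompactSupport E) :
    HasCompactSupport (pfE c r L h j E) := by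
  classical
  have hev : ∀ᶠ w in cobounded ℂ, pfE c r L h j E w = 0 := by
    by_contra hcon
    have hfr : ∃ᶠ w in cobounded ℂ, ¬ pfE c r L h j E w = 0 := Filter.not_eventually.1 hcon
    obtain ⟨𝒱, hV⟩ := (Filter.exists_ultrafilter_iff (f := cobounded ℂ ⊓
      𝓟 {w | ¬ pfE c r L h j E w = 0})).2 (Filter.frequently_iff_neBot.1 hfr)
    obtain ⟨hV1, hV2⟩ := le_inf_iff.1 hV
    rw [le_principal_iff] at hV2
    have hLc : IsCompact (⋃ i, L i) := isCompact_iUnion hP.Lc
    have hΩ' : (⋃ i, L i)ᶜ ∈ (𝒱 : Filter ℂ) := 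
      hV1 (Bornology.IsBounded.compl hLc.isBounded)
    set g := Function.invFunOn h (⋃ j, closedBall (c j) (r j))ᶜ with hg
    have hgm : ∀ w ∈ (⋃ i, L i)ᶜ, g w ∈ (⋃ j, closedBall (c j) (r j))ᶜ ∧ h (g w) = w := by
      intro w hw
      rw [← hP.image] at hw
      exact ⟨Function.invFunOn_mem hw, Function.invFunOn_eq hw⟩
    have hU1 : (⋃ j, closedBall (c j) (r j))ᶜ ∈ ((𝒱.map g : Ultrafilter ℂ) : Filter ℂ) := by
      rw [Ultrafilter.coe_map, Filter.mem_map]
      filter_upwards [hΩ'] with w hw using (hgm w hw).1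
    have hU2 : tsupport E ∈ ((𝒱.map g : Ultrafilter ℂ) : Filter ℂ) := by
      rw [Ultrafilter.coe_map, Filter.mem_map]
      filter_upwards [hΩ', hV2] with w hw hw2
      refine subset_tsupport _ ?_
      intro h0
      apply hw2
      unfold pfE
      rw [if_neg hw]
      exact h0
    obtain ⟨z, -, hz⟩ := IsCompact.ultrafilter_le_nhds hs (𝒱.map g) (le_principal_iff.2 hU2)
    have hcob : Tendsto (fun w => ‖w‖) (𝒱 : Filter ℂ) atTop :=
      tendsto_norm_cobounded_atTop.mono_left hV1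
    have hcob2 : Tendsto (fun u => ‖h u‖) ((𝒱.map g : Ultrafilter ℂ) : Filter ℂ) atTop := by
      rw [Ultrafilter.coe_map, Filter.tendsto_map'_iff]
      refine Tendsto.congr' ?_ hcob
      filter_upwards [hΩ'] with w hw
      show ‖w‖ = ‖h (g w)‖
      rw [(hgm w hw).2]
    have hO : IsOpen (⋃ j, closedBall (c j) (r j))ᶜ :=
      (isClosed_iUnion_of_finite fun j => isClosed_closedBall).isOpen_compl
    by_cases hzO : z ∈ (⋃ j, closedBall (c j) (r j))
    · obtain ⟨k, hk⟩ := mem_iUnion.1 hzO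
      obtain ⟨R, hR⟩ := (hP.Lc k).isBounded.subset_closedBall 0
      have h1 := hP.near hU1 hz hk one_pos
      obtain ⟨u, hu1, hu2⟩ := (h1.and (hcob2.eventually_gt_atTop (R + 1))).exists
      obtain ⟨y, hy, hy2⟩ := (infDist_lt_iff (hP.Lne k)).1 hu1
      have h3 := hR hy
      rw [mem_closedBall, dist_zero_right] at h3
      rw [dist_eq_norm] at hy2
      have h4 : ‖h u‖ ≤ ‖h u - y‖ + ‖y‖ := by
        have := norm_add_le (h u - y) y
        rwa [sub_add_cancel] at this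
      linarith
    · have h1 : Tendsto (fun u => ‖h u‖) ((𝒱.map g : Ultrafilter ℂ) : Filter ℂ) (𝓝 ‖h z‖) :=
        (((hP.diff.differentiableAt (hO.mem_nhds hzO)).continuousAt.norm.tendsto)).mono_left hz
      exact not_tendsto_atTop_of_tendsto_nhds h1 hcob2
  obtain ⟨R, -, hR⟩ := Filter.hasBasis_cobounded_norm.eventually_iff.1 hev
  refine HasCompactSupport.intro (isCompact_closedBall (0:ℂ) R) fun w hw => ?_
  refine hR ?_
  rw [mem_closedBall, dist_zero_right, not_le] at hw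
  exact hw.le

theorem EP.pf_contDiff (hP : EP c r L h B) (j : Fin n) {E : ℂ → ℝ}
    (hE : ContDiff ℝ 1 (fun z => ((E z : ℝ) : ℂ))) {δ : ℝ} (hδ : 0 < δ)
    (h1 : ∀ z, infDist z (closedBall (c j) (r j)) < δ → E z = 1)
    (h0 : ∀ k, k ≠ j → ∀ z, infDist z (closedBall (c k) (r k)) < δ → E z = 0) :
    ContDiff ℝ 1 (fun w => ((pfE c r L h j E w : ℝ) : ℂ)) := by
  classical
  have hO : IsOpen (⋃ j, closedBall (c j) (r j))ᶜ :=
    (isClosed_iUnion_of_finite fun j => isClosed_closedBall).isOpen_compl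
  have hLc : IsCompact (⋃ i, L i) := isCompact_iUnion hP.Lc
  rw [contDiff_iff_contDiffAt]
  intro w
  by_cases hw : w ∈ ⋃ i, L i
  · obtain ⟨k, hk⟩ := mem_iUnion.1 hw
    refine contDiffAt_const (c := (((if k = j then 1 else 0 : ℝ)) : ℂ)) |>.congr_of_eventuallyEq ?_
    filter_upwards [hP.pf_near j hδ h1 h0 hk] with u hu
    rw [hu]
  · have hw' : w ∈ h '' (⋃ j, closedBall (c j) (r j))ᶜ := by rw [hP.image]; exact hw
    have h2 : (fun w => ((pfE c r L h j E w : ℝ) : ℂ)) =ᶠ[𝓝 w] fun w =>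
        ((E (Function.invFunOn h (⋃ j, closedBall (c j) (r j))ᶜ w) : ℝ) : ℂ) := by
      filter_upwards [hLc.isClosed.isOpen_compl.mem_nhds hw] with u hu
      unfold pfE
      rw [if_neg hu]
    refine ContDiffAt.congr_of_eventuallyEq ?_ h2
    have h4 : AnalyticAt ℂ (Function.invFunOn h (⋃ j, closedBall (c j) (r j))ᶜ) w := by
      refine (inv_diff hO hP.diff hP.inj).analyticAt ?_
      rw [hP.image]
      exact hLc.isClosed.isOpen_compl.mem_nhds hw
    exact hE.contDiffAt.comp w ((h4.contDiffAt (n := 1)).restrict_scalars ℝ)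

end

theorem fkdb_const {ψ : ℂ → ℂ} {z a : ℂ} (h : ∀ᶠ w in 𝓝 z, ψ w = a) : FK.db ψ z = 0 := by
  have h1 : fderiv ℝ ψ z = 0 := by
    have : ψ =ᶠ[𝓝 z] fun _ => a := h
    rw [this.fderiv_eq]
    simp
  unfold FK.db
  rw [h1]; simp

/-- **EN4** -/
theorem en4 : EN4 := by
  intro n c r L h B hP j E hE hs hnn δ hδ h1 h0
  classical
  have hO : IsOpen (⋃ j, closedBall (c j) (r j))ᶜ :=
    (isClosed_iUnion_of_finite fun j => isClosed_closedBall).isOpen_compl
  have hLc : IsCompact (⋃ i, L i) := isCompact_iUnion hP.Lc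
  set E' : ℂ → ℝ := pfE c r L h j E with hE'
  have hC : ContDiff ℝ 1 (fun w => ((E' w : ℝ) : ℂ)) := hP.pf_contDiff j hE hδ h1 h0
  have hS : HasCompactSupport E' := hP.pf_far j hs
  have hSc : HasCompactSupport (fun w => ((E' w : ℝ) : ℂ)) :=
    hS.comp_left (g := fun x : ℝ => (x : ℂ)) (by simp)
  -- the integral
  have hdb0 : ∀ z, z ∉ (⋃ j, closedBall (c j) (r j))ᶜ →
      FK.db (fun z => ((E z : ℝ) : ℂ)) z * (conj (h z) * deriv h z) = 0 := by
    intro z hz
    rw [mem_compl_iff, not_not] at hz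
    obtain ⟨k, hk⟩ := mem_iUnion.1 hz
    have hnear : ∀ᶠ u in 𝓝 z, infDist u (closedBall (c k) (r k)) < δ := by
      have h2 : infDist z (closedBall (c k) (r k)) < δ := by
        rw [infDist_zero_of_mem hk]; exact hδ
      exact (continuous_infDist_pt _).continuousAt.eventually_lt continuousAt_const h2
    have : FK.db (fun z => ((E z : ℝ) : ℂ)) z = 0 := by
      refine fkdb_const (a := ((if k = j then 1 else 0 : ℝ) : ℂ)) ?_
      filter_upwards [hnear] with u hu
      by_cases hkj : k = j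
      · subst hkj; rw [if_pos rfl, h1 u hu]
      · rw [if_neg hkj, h0 k hkj u hu]
    rw [this, zero_mul]
  have hdb1 : ∀ w, w ∉ (⋃ i, L i)ᶜ → FK.db (fun w => ((E' w : ℝ) : ℂ)) w * conj w = 0 := by
    intro w hw
    rw [mem_compl_iff, not_not] at hw
    obtain ⟨k, hk⟩ := mem_iUnion.1 hw
    have : FK.db (fun w => ((E' w : ℝ) : ℂ)) w = 0 := by
      refine fkdb_const (a := ((if k = j then 1 else 0 : ℝ) : ℂ)) ?_
      filter_upwards [hP.pf_near j hδ h1 h0 hk] with u hu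
      rw [hE', hu]
    rw [this, zero_mul]
  have key : ∫ z, FK.db (fun z => ((E z : ℝ) : ℂ)) z * (conj (h z) * deriv h z) =
      -2 * ∫ w, ((E' w : ℝ) : ℂ) := by
    rw [← setIntegral_eq_integral_of_forall_compl_eq_zero hdb0, ← integral_db_conj hC hSc,
      ← setIntegral_eq_integral_of_forall_compl_eq_zero hdb1, ← hP.image]
    rw [integral_image_eq_integral_abs_det_fderiv_smul volume hO.measurableSet
      (f' := fun u => (ContinuousLinearMap.toSpanSingleton ℂ (deriv h u)).restrictScalars ℝ)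
      (fun u hu => ((hP.diff.differentiableAt (hO.mem_nhds hu)).hasDerivAt.hasFDerivAt.restrictScalars
        ℝ).hasFDerivWithinAt) hP.inj]
    refine setIntegral_congr_fun hO.measurableSet fun u hu => ?_
    have hd : DifferentiableAt ℂ h u := hP.diff.differentiableAt (hO.mem_nhds hu)
    simp only [abs_det_toSpanSingleton']
    have h3 : FK.db (fun z => ((E z : ℝ) : ℂ)) u =
        conj (deriv h u) * FK.db (fun w => ((E' w : ℝ) : ℂ)) (h u) := by
      have h4 := db_comp (χ := fun w => ((E' w : ℝ) : ℂ)) (ψ := h) (u := u)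
        (hC.differentiable (by simp) _) hd
      have h5 : FK.db (fun z => ((E z : ℝ) : ℂ)) u =
          Pomp.db (fun u => ((E' (h u) : ℝ) : ℂ)) u := by
        have h6 : (fun z => ((E z : ℝ) : ℂ)) =ᶠ[𝓝 u] fun u => ((E' (h u) : ℝ) : ℂ) := by
          filter_upwards [hO.mem_nhds hu] with x hx
          rw [hE', hP.pf_h j E hx]
        unfold FK.db Pomp.db
        rw [h6.fderiv_eq]
      rw [h5, h4]
      rfl
    show FK.db (fun z => ((E z : ℝ) : ℂ)) u * (conj (h u) * deriv h u) = _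
    rw [h3, Complex.real_smul, ← Complex.normSq_eq_norm_sq, ← Complex.mul_conj]
    ring
  have hre : (-2 * ∫ w, ((E' w : ℝ) : ℂ)).re = -2 * ∫ w, E' w := by
    rw [integral_complex_ofReal]
    simp
  rw [key, hre]
  have hEint : Integrable E' := by
    refine Continuous.integrable_of_hasCompactSupport ?_ hS
    have := Complex.continuous_re.comp hC.continuous
    exact this
  have hge : (volume (L j)).toReal ≤ ∫ w, E' w := by
    have h2 : ∫ w in L j, E' w ≤ ∫ w, E' w :=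
      setIntegral_le_integral hEint (Eventually.of_forall fun w => pfE_nn j hnn w)
    have h3 : ∫ w in L j, E' w = (volume (L j)).toReal := by
      rw [setIntegral_congr_fun (hP.Lc j).measurableSet (g := fun _ => (1:ℝ))
        (fun w hw => pfE_L j E hw)]
      simp [Measure.real]
    linarith
  linarith

end Vale.Agent.P116.Ms
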