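import Vale.Agent.P116.Ms.Spec
import Vale.Agent.P116.Slow.Stokes

/-!
# Blocks EN1 and EN2: the d-bar derivative has mean zero, radial cutoffs
-/

open Set Filter Topology Metric Bornology MeasureTheory
open scoped ComplexConjugate Real

namespace Vale.Agent.P116.Ms

open FK Slow

lemma continuous_db {v : ℂ → ℂ} (h : ContDiff ℝ 1 v) : Continuous (db v) := by
  have := h.continuous_fderiv (by simp)
  unfold db
  fun_prop

lemma db_zero_of_notMem {v : ℂ → ℂ} {z : ℂ} (hz : z ∉ tsupport v) : db v z = 0 := by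
  have h1 : v =ᶠ[𝓝 z] fun _ => 0 := notMem_tsupport_iff_eventuallyEq.1 hz
  rw [db_congr h1, db_const]

/-- block EN1 -/
theorem en1 : EN1 := by
  intro v h hs
  have hc := continuous_db h
  have h0 : ∀ z ∉ tsupport v, db v z = 0 := fun z hz => db_zero_of_notMem hz
  have h1 := ct_mul_tendsto hc hs.isCompact h0
  have h2 : Tendsto (fun z => z * CT (db v) z) (cobounded ℂ) (𝓝 0) := by
    obtain ⟨M, hM⟩ := hs.isCompact.isBounded.subset_closedBall 0
    refine tendsto_const_nhds.congr' ?_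
    filter_upwards [tendsto_norm_cobounded_atTop.eventually (eventually_gt_atTop M)] with z hz
    have hzA : z ∉ tsupport v := by
      intro h
      have := hM h
      rw [mem_closedBall_zero_iff] at this
      linarith
    rw [pompeiu_at h hs, image_eq_zero_of_notMem_tsupport hzA]
    simp
  have h3 := tendsto_nhds_unique h1 h2
  exact neg_eq_zero.1 h3

/-- the derivative of a radial function -/
lemma db_radial {F : ℝ → ℝ} (hF : Differentiable ℝ F) (c z : ℂ) :
    db (fun z => ((F (‖z - c‖ ^ 2) : ℝ) : ℂ)) z =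
      2 * ((deriv F (‖z - c‖ ^ 2) : ℝ) : ℂ) * (z - c) := by
  have h1 : HasFDerivAt (fun z : ℂ => ‖z - c‖ ^ 2) (2 • (innerSL ℝ (z - c))) z := by
    have h := (hasStrictFDerivAt_norm_sq (z - c)).hasFDerivAt.comp z
      ((hasFDerivAt_id z).sub_const c)
    exact h
  have h2 := ((hF (‖z - c‖ ^ 2)).hasDerivAt.hasFDerivAt.comp z h1)
  have h3 := (Complex.ofRealCLM.hasFDerivAt (x := F (‖z - c‖ ^ 2))).comp z h2
  have h4 : fderiv ℝ (fun z => ((F (‖z - c‖ ^ 2) : ℝ) : ℂ)) z = _ := h3.fderiv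
  rw [db, h4]
  apply Complex.ext <;> simp [Complex.inner] <;> ring

lemma en2_aux {F : ℝ → ℝ} (hF : ContDiff ℝ 1 F) (hanti : Antitone F) {R : ℝ} (hR : 0 < R)
    (h0 : ∀ x, R ^ 2 ≤ x → F x = 0) (h1 : F 0 = 1) (c : ℂ) :
    ∫ z, ‖db (fun z => ((F (‖z - c‖ ^ 2) : ℝ) : ℂ)) z‖ ≤ 2 * π * R := by
  have hd := hF.differentiable (by simp)
  have hdc : Continuous (deriv F) := hF.continuous_deriv (by simp)
  have hdn : ∀ x, deriv F x ≤ 0 := fun x => hanti.deriv_nonpos
  -- the radial profile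
  set g : ℝ → ℝ := fun t => F (t ^ 2) with hg
  have hgd : ∀ t, HasDerivAt g (deriv F (t ^ 2) * (2 * t)) t := by
    intro t
    have h := (hd (t ^ 2)).hasDerivAt.comp t (hasDerivAt_pow 2 t)
    simp only [Nat.cast_ofNat, Nat.add_one_sub_one, pow_one] at h
    exact h
  have hgc : ContDiff ℝ 1 g := hF.comp (contDiff_id.pow 2)
  have hgs : HasCompactSupport g := by
    apply HasCompactSupport.intro (isCompact_Icc (a := -R) (b := R))
    intro x hx
    apply h0
    by_contra hcon
    push Not at hcon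
    exact hx ⟨(abs_lt_of_sq_lt_sq hcon hR.le |> abs_lt.1).1.le,
      (abs_lt_of_sq_lt_sq hcon hR.le |> abs_lt.1).2.le⟩
  have hI : ∫ t in Ioi (0:ℝ), deriv g t = -1 := by
    rw [hgs.integral_Ioi_deriv_eq hgc 0]
    simp [hg, h1]
  have e1 : ∀ z : ℂ, ‖db (fun z => ((F (‖z - c‖ ^ 2) : ℝ) : ℂ)) z‖ =
      -(deriv g ‖z - c‖) := by
    intro z
    rw [db_radial hd, (hgd _).deriv, norm_mul, norm_mul, Complex.norm_real, Real.norm_eq_abs,
      abs_of_nonpos (hdn _)]
    simp
    ring
  simp_rw [e1]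
  rw [integral_sub_right_eq_self (fun z : ℂ => -(deriv g ‖z‖)) c]
  rw [← Complex.integral_comp_polarCoord_symm, polarCoord_target]
  have e2 : ∀ p ∈ Ioi (0 : ℝ) ×ˢ Ioo (-π) π,
      p.1 • (-(deriv g ‖Complex.polarCoord.symm p‖)) = p.1 * (-(deriv g p.1)) := by
    rintro ⟨t, θ⟩ ⟨ht, -⟩
    rw [polar_eq, norm_mul, norm_uu, Complex.norm_real, Real.norm_eq_abs,
      abs_of_pos (mem_Ioi.1 ht)]
    simp
  rw [setIntegral_congr_fun (measurableSet_Ioi.prod measurableSet_Ioo) e2]
  have e3 : ∫ p in Ioi (0 : ℝ) ×ˢ Ioo (-π) π, p.1 * (-(deriv g p.1)) =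
      (2 * π) * ∫ t in Ioi (0:ℝ), t * (-(deriv g t)) := by
    have := setIntegral_prod_mul (μ := (volume : Measure ℝ)) (ν := (volume : Measure ℝ))
      (fun t : ℝ => t * (-(deriv g t))) (fun _ : ℝ => (1:ℝ)) (Ioi 0) (Ioo (-π) π)
    simp only [mul_one] at this
    rw [Measure.volume_eq_prod, this]
    simp
    rw [max_eq_left (by positivity)]
    ring
  rw [e3]
  have hgc' : Continuous (deriv g) := hgc.continuous_deriv (by simp)
  have hgs' : HasCompactSupport (deriv g) := hgs.deriv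
  have hi1 : Integrable (deriv g) := hgc'.integrable_of_hasCompactSupport hgs'
  have hi2 : Integrable fun t => t * (-(deriv g t)) :=
    (continuous_id.mul hgc'.neg).integrable_of_hasCompactSupport
      (hgs'.neg.mul_left)
  have e4 : ∫ t in Ioi (0:ℝ), t * (-(deriv g t)) ≤ ∫ t in Ioi (0:ℝ), R * (-(deriv g t)) := by
    apply setIntegral_mono_on hi2.integrableOn (hi1.neg.const_mul R).integrableOn
      measurableSet_Ioi
    intro t ht
    have ht0 : 0 < t := ht
    have hn : 0 ≤ -(deriv g t) := by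
      rw [(hgd t).deriv, neg_nonneg]
      exact mul_nonpos_of_nonpos_of_nonneg (hdn _) (by positivity)
    rcases le_or_gt t R with h | h
    · exact mul_le_mul_of_nonneg_right h hn
    · have hz : deriv g t = 0 := by
        have : g =ᶠ[𝓝 t] fun _ => 0 := by
          filter_upwards [lt_mem_nhds h] with s hs
          exact h0 _ (pow_le_pow_left₀ hR.le hs.le 2)
        rw [this.deriv_eq]
        simp
      simp [Pi.neg_apply, hz]
  have e5 : ∫ t in Ioi (0:ℝ), R * (-(deriv g t)) = R := by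
    rw [integral_const_mul, integral_neg, hI]
    ring
  rw [e5] at e4
  exact mul_le_mul_of_nonneg_left e4 (by positivity)

/-- block EN2 -/
theorem en2 : EN2 := by
  intro c r b hr hrb
  set a₁ : ℝ := (2 * r + b) / 3 with ha₁
  set b₁ : ℝ := (r + 2 * b) / 3 with hb₁
  have i1 : r < a₁ := by rw [ha₁]; linarith
  have i2 : a₁ < b₁ := by rw [ha₁, hb₁]; linarith
  have i3 : b₁ < b := by rw [hb₁]; linarith
  have i0 : 0 < a₁ := hr.trans i1
  have j0 : 0 < b₁ := i0.trans i2
  have hden : 0 < b₁ ^ 2 - a₁ ^ 2 := by nlinarith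
  set F : ℝ → ℝ := fun x => Real.smoothTransition ((b₁ ^ 2 - x) / (b₁ ^ 2 - a₁ ^ 2)) with hF
  have hFc : ContDiff ℝ 2 F :=
    Real.smoothTransition.contDiff.comp ((contDiff_const.sub contDiff_id).div_const _)
  have hanti : Antitone F := by
    intro x y hxy
    apply Real.smoothTransition.monotone
    gcongr
  have hz : ∀ x, b₁ ^ 2 ≤ x → F x = 0 := by
    intro x hx
    apply Real.smoothTransition.zero_of_nonpos
    apply div_nonpos_of_nonpos_of_nonneg (by linarith) hden.le
  have ho : ∀ x, x ≤ a₁ ^ 2 → F x = 1 := by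
    intro x hx
    apply Real.smoothTransition.one_of_one_le
    rw [le_div_iff₀ hden]
    linarith
  have hsm : ContDiff ℝ 2 fun z : ℂ => ((F (‖z - c‖ ^ 2) : ℝ) : ℂ) := by
    have h1 : ContDiff ℝ 2 fun z : ℂ => ‖z - c‖ ^ 2 :=
      (contDiff_norm_sq ℝ).comp (contDiff_id.sub contDiff_const)
    exact Complex.ofRealCLM.contDiff.comp (hFc.comp h1)
  refine ⟨fun z => F (‖z - c‖ ^ 2), a₁, b₁, ⟨hr, i1, i2, i3, hsm, ?_, ?_, ?_, ?_, ?_⟩⟩
  · intro z hz
    rw [mem_closedBall, dist_eq_norm] at hz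
    exact ho _ (pow_le_pow_left₀ (norm_nonneg _) hz 2)
  · intro z hz'
    rw [mem_ball, dist_eq_norm, not_lt] at hz'
    exact hz _ (pow_le_pow_left₀ j0.le hz' 2)
  · intro z
    exact Real.smoothTransition.nonneg _
  · intro z
    exact Real.smoothTransition.le_one _
  · refine (en2_aux (hFc.of_le (by norm_num)) hanti j0 hz (ho 0 (by positivity)) c).trans ?_
    have := Real.pi_pos
    gcongr

end Vale.Agent.P116.Ms
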