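import Vale.Agent.P116.Ms.Spec

/-!
# EN5: the energy inequality for a map between a circle domain and a circle domain with one
modified hole
-/

open Set Filter Topology Metric Bornology MeasureTheory

namespace Vale.Agent.P116.Ms

open FK

namespace EN5aux

lemma fderiv_hol {f : ℂ → ℂ} {z : ℂ} (hf : DifferentiableAt ℂ f z) (v : ℂ) :
    fderiv ℝ f z v = deriv f z * v := by
  have h := hf.hasDerivAt.complexToReal_fderiv.fderiv
  rw [h]
  simp

lemma db_hol {f : ℂ → ℂ} {z : ℂ} (hf : DifferentiableAt ℂ f z) : db f z = 0 := by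
  rw [db, fderiv_hol hf, fderiv_hol hf]
  ring_nf
  rw [Complex.I_sq]
  ring

lemma db_conj {f : ℂ → ℂ} {z : ℂ} (hf : DifferentiableAt ℂ f z) :
    db (fun z => starRingEnd ℂ (f z)) z = 2 * starRingEnd ℂ (deriv f z) := by
  have h1 : HasFDerivAt (fun z => starRingEnd ℂ (f z))
      ((Complex.conjCLE : ℂ →L[ℝ] ℂ).comp (fderiv ℝ f z)) z := by
    have h2 := hf.restrictScalars ℝ
    exact (Complex.conjCLE : ℂ →L[ℝ] ℂ).hasFDerivAt.comp z h2.hasFDerivAt
  rw [db, h1.fderiv]
  simp only [ContinuousLinearMap.comp_apply, ContinuousLinearEquiv.coe_coe,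
    Complex.conjCLE_apply, fderiv_hol hf, map_mul, Complex.conj_I, mul_one]
  ring_nf
  rw [Complex.I_sq]
  ring

lemma db_mul {f g : ℂ → ℂ} {z : ℂ} (hf : DifferentiableAt ℝ f z) (hg : DifferentiableAt ℝ g z) :
    db (fun z => f z * g z) z = db f z * g z + f z * db g z := by
  have h := fderiv_fun_mul hf hg
  simp only [db, h]
  simp only [add_apply, smul_apply, smul_eq_mul]
  ring

lemma db_sub {f g : ℂ → ℂ} {z : ℂ} (hf : DifferentiableAt ℝ f z) (hg : DifferentiableAt ℝ g z) :
    db (fun z => f z - g z) z = db f z - db g z := by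
  have h := fderiv_fun_sub hf hg
  simp only [db, h]
  simp only [sub_apply]
  ring

lemma db_sum {ι : Type*} {s : Finset ι} {f : ι → ℂ → ℂ} {z : ℂ}
    (hf : ∀ i ∈ s, DifferentiableAt ℝ (f i) z) :
    db (fun z => ∑ i ∈ s, f i z) z = ∑ i ∈ s, db (f i) z := by
  have h := fderiv_fun_sum hf
  simp only [db, h]
  simp only [sum_apply, Finset.mul_sum, Finset.sum_add_distrib]

lemma db_congr {f g : ℂ → ℂ} {z : ℂ} (h : f =ᶠ[𝓝 z] g) : db f z = db g z := by
  rw [db, db, h.fderiv_eq]

lemma db_eventually {f : ℂ → ℂ} {z a : ℂ} (h : ∀ᶠ y in 𝓝 z, f y = a) :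
    ∀ᶠ y in 𝓝 z, db f y = 0 := by
  filter_upwards [eventually_eventually_nhds.2 h] with y hy
  rw [db_congr (g := fun _ => a) hy, db]
  simp

lemma db_continuous {f : ℂ → ℂ} (hf : ContDiff ℝ 1 f) : Continuous (db f) := by
  have h := hf.continuous_fderiv (by simp)
  unfold db
  fun_prop

lemma db_supp {f : ℂ → ℂ} (hf : HasCompactSupport f) : HasCompactSupport (db f) := by
  have h := hf.fderiv ℝ
  refine h.mono ?_
  intro z hz
  rw [Function.mem_support] at hz ⊢
  intro h0
  apply hz
  simp [db, h0]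

lemma cont_ext {Ω : Set ℂ} (hΩ : IsOpen Ω) {φ F : ℂ → ℂ} (hφ : Continuous φ)
    (hF : ContinuousOn F Ω) (hz : ∀ z, z ∉ Ω → ∀ᶠ y in 𝓝 z, φ y = 0) :
    Continuous (fun z => φ z * F z) := by
  rw [continuous_iff_continuousAt]
  intro z
  by_cases h : z ∈ Ω
  · exact hφ.continuousAt.mul (hF.continuousAt (hΩ.mem_nhds h))
  · have h1 : (fun z => φ z * F z) =ᶠ[𝓝 z] fun _ => 0 := by
      filter_upwards [hz z h] with y hy
      rw [hy, zero_mul]
    exact (continuousAt_const (y := (0:ℂ))).congr h1.symm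

lemma contDiff_ext {Ω : Set ℂ} {φ F : ℂ → ℂ} (hφ : ContDiff ℝ 1 φ)
    (hF : ∀ z ∈ Ω, ContDiffAt ℝ 1 F z) (hz : ∀ z, z ∉ Ω → ∀ᶠ y in 𝓝 z, φ y = 0) :
    ContDiff ℝ 1 (fun z => φ z * F z) := by
  rw [contDiff_iff_contDiffAt]
  intro z
  by_cases h : z ∈ Ω
  · exact hφ.contDiffAt.mul (hF z h)
  · have h1 : (fun z => φ z * F z) =ᶠ[𝓝 z] fun _ => 0 := by
      filter_upwards [hz z h] with y hy
      rw [hy, zero_mul]
    exact (contDiffAt_const (c := (0:ℂ))).congr_of_eventuallyEq h1

lemma supp_mul {φ F : ℂ → ℂ} (h : HasCompactSupport φ) :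
    HasCompactSupport (fun z => φ z * F z) := by
  refine h.mono ?_
  intro z hz
  rw [Function.mem_support] at hz ⊢
  exact left_ne_zero_of_mul hz

/-- integrability of products with a function vanishing near the holes -/
lemma int_ext {Ω : Set ℂ} (hΩ : IsOpen Ω) {φ F : ℂ → ℂ} (hφ : Continuous φ)
    (hs : HasCompactSupport φ)
    (hF : ContinuousOn F Ω) (hz : ∀ z, z ∉ Ω → ∀ᶠ y in 𝓝 z, φ y = 0) :
    Integrable (fun z => φ z * F z) :=
  (cont_ext hΩ hφ hF hz).integrable_of_hasCompactSupport (supp_mul hs)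

lemma deriv_sub_id {h : ℂ → ℂ} {z : ℂ} (hh : DifferentiableAt ℂ h z) :
    deriv (fun z => h z - z) z = deriv h z - 1 :=
  (hh.hasDerivAt.sub (hasDerivAt_id z)).deriv

/-- the energy density times `2` is `db` of the product of the conjugate of `w` and of `w'` -/
lemma energy_id (h1 : EN1) {Ω : Set ℂ} (hΩ : IsOpen Ω) {h : ℂ → ℂ}
    (hh : DifferentiableOn ℂ h Ω) {ψ : ℂ → ℂ} (hψ : ContDiff ℝ 1 ψ) (hs : HasCompactSupport ψ)
    (hz : ∀ z, z ∉ Ω → ∀ᶠ y in 𝓝 z, ψ y = 0) :
    ∫ z, db ψ z * (starRingEnd ℂ (h z - z) * (deriv h z - 1)) =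
      -(2 * ∫ z, ψ z * (starRingEnd ℂ (deriv h z - 1) * (deriv h z - 1))) := by
  have hA : ∀ z ∈ Ω, AnalyticAt ℂ h z := fun z hz' => hh.analyticAt (hΩ.mem_nhds hz')
  have hD : ∀ z ∈ Ω, AnalyticAt ℂ (deriv h) z := fun z hz' => (hA z hz').deriv
  have hw : ∀ z ∈ Ω, AnalyticAt ℂ (fun z => h z - z) z := fun z hz' =>
    (hA z hz').sub analyticAt_id
  have hw' : ∀ z ∈ Ω, AnalyticAt ℂ (fun z => deriv h z - 1) z := fun z hz' =>
    (hD z hz').sub analyticAt_const
  have hcw : ∀ z ∈ Ω, ContDiffAt ℝ 1 (fun z => starRingEnd ℂ (h z - z)) z := fun z hz' =>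
    (Complex.conjCLE : ℂ →L[ℝ] ℂ).contDiff.contDiffAt.comp z
      ((hw z hz').contDiffAt.restrict_scalars ℝ)
  have hG : ∀ z ∈ Ω, ContDiffAt ℝ 1 (fun z => starRingEnd ℂ (h z - z) * (deriv h z - 1)) z :=
    fun z hz' => (hcw z hz').mul ((hw' z hz').contDiffAt.restrict_scalars ℝ)
  have hGc : ContinuousOn (fun z => starRingEnd ℂ (h z - z) * (deriv h z - 1)) Ω := fun z hz' =>
    (hG z hz').continuousAt.continuousWithinAt
  have hHc : ContinuousOn (fun z => starRingEnd ℂ (deriv h z - 1) * (deriv h z - 1)) Ω := fun z hz' =>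
    ((Complex.continuous_conj.continuousAt.comp (hw' z hz').continuousAt).mul
      (hw' z hz').continuousAt).continuousWithinAt
  have hv := h1 (contDiff_ext hψ hG hz) (supp_mul (F := fun z => starRingEnd ℂ (h z - z) *
    (deriv h z - 1)) hs)
  have e : ∀ z, db (fun z => ψ z * (starRingEnd ℂ (h z - z) * (deriv h z - 1))) z =
      db ψ z * (starRingEnd ℂ (h z - z) * (deriv h z - 1)) +
        2 * (ψ z * (starRingEnd ℂ (deriv h z - 1) * (deriv h z - 1))) := by
    intro z
    by_cases hz' : z ∈ Ω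
    · have d1 : DifferentiableAt ℝ ψ z := hψ.differentiable (by simp) z
      have d2 : DifferentiableAt ℝ (fun z => starRingEnd ℂ (h z - z) * (deriv h z - 1)) z :=
        (hG z hz').differentiableAt (by simp)
      have d3 : DifferentiableAt ℝ (fun z => starRingEnd ℂ (h z - z)) z :=
        (hcw z hz').differentiableAt (by simp)
      have d4 : DifferentiableAt ℝ (fun z => deriv h z - 1) z :=
        (hw' z hz').differentiableAt.restrictScalars ℝ
      rw [db_mul d1 d2, db_mul d3 d4, db_conj (hw z hz').differentiableAt,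
        db_hol (hw' z hz').differentiableAt]
      rw [deriv_sub_id (hA z hz').differentiableAt]
      ring
    · have e1 : ∀ᶠ y in 𝓝 z, ψ y * (starRingEnd ℂ (h y - y) * (deriv h y - 1)) = 0 := by
        filter_upwards [hz z hz'] with y hy
        rw [hy, zero_mul]
      rw [(db_eventually e1).self_of_nhds, (db_eventually (hz z hz')).self_of_nhds,
        (hz z hz').self_of_nhds]
      simp
  have i1 : Integrable (fun z => db ψ z * (starRingEnd ℂ (h z - z) * (deriv h z - 1))) :=
    int_ext hΩ (db_continuous hψ) (db_supp hs) hGc fun z hz' => db_eventually (hz z hz')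
  have i2 : Integrable (fun z => ψ z * (starRingEnd ℂ (deriv h z - 1) * (deriv h z - 1))) :=
    int_ext hΩ hψ.continuous hs hHc hz
  rw [integral_congr_ae (Eventually.of_forall e), integral_add i1 (i2.const_mul 2),
    integral_const_mul] at hv
  exact eq_neg_of_add_eq_zero_left hv

lemma Cut.supp {c : ℂ} {r a' b' b : ℝ} {E : ℂ → ℝ} (hE : Cut c r a' b' b E) :
    HasCompactSupport (fun z => ((E z : ℝ) : ℂ)) := by
  refine HasCompactSupport.intro (isCompact_closedBall c b') fun z hz => ?_
  rw [hE.zero z fun h => hz (ball_subset_closedBall h)]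
  simp

lemma Cut.supp' {c : ℂ} {r a' b' b : ℝ} {E : ℂ → ℝ} (hE : Cut c r a' b' b E) :
    HasCompactSupport E := by
  refine HasCompactSupport.intro (isCompact_closedBall c b') fun z hz => ?_
  exact hE.zero z fun h => hz (ball_subset_closedBall h)

lemma Cut.cd {c : ℂ} {r a' b' b : ℝ} {E : ℂ → ℝ} (hE : Cut c r a' b' b E) :
    ContDiff ℝ 1 (fun z => ((E z : ℝ) : ℂ)) := hE.smooth.of_le (by norm_num)

/-- the term at infinity -/
lemma far_term {B : ℝ} (hB : 0 < B) {h : ℂ → ℂ} (hh : DifferentiableOn ℂ h {z | B < ‖z‖})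
    {ρ κ : ℝ} (hρ : 2 * B + 2 ≤ ρ) (hκ : 0 ≤ κ) (hw : ∀ z, ρ / 2 ≤ ‖z‖ → ‖h z - z‖ ≤ κ)
    {a' b' : ℝ} {χ : ℂ → ℝ} (hχ : Cut 0 ρ a' b' (2 * ρ) χ) :
    ‖∫ z, db (fun z => ((χ z : ℝ) : ℂ)) z * (starRingEnd ℂ (h z - z) * (deriv h z - 1))‖ ≤
      8 * Real.pi * κ ^ 2 := by
  have hρ0 : 0 < ρ := by linarith
  have ho : IsOpen {z : ℂ | B < ‖z‖} := isOpen_lt continuous_const continuous_norm
  have hd : ∀ z, ρ ≤ ‖z‖ → ‖deriv h z - 1‖ ≤ κ / (ρ / 2) := by
    intro z hz
    have e : deriv h z - 1 = deriv (fun z => h z - z) z := by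
      have hz' : B < ‖z‖ := by linarith
      exact (deriv_sub_id (hh.differentiableAt (ho.mem_nhds hz'))).symm
    rw [e]
    have hfar : ∀ y ∈ closedBall z (ρ / 2), ρ / 2 ≤ ‖y‖ := by
      intro y hy
      rw [mem_closedBall, dist_eq_norm] at hy
      have := norm_sub_norm_le z y
      rw [norm_sub_rev] at this
      linarith
    refine Complex.norm_deriv_le_of_forall_mem_sphere_norm_le (by positivity) ?_ ?_
    · refine DifferentiableOn.diffContOnCl_ball (U := {z : ℂ | B < ‖z‖})
        (hh.sub differentiableOn_id) fun y hy => ?_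
      have := hfar y hy
      rw [mem_ofPred_eq]
      linarith
    · intro y hy
      exact hw y (hfar y (sphere_subset_closedBall hy))
  have hb : ∀ z, ‖db (fun z => ((χ z : ℝ) : ℂ)) z * (starRingEnd ℂ (h z - z) * (deriv h z - 1))‖ ≤
      ‖db (fun z => ((χ z : ℝ) : ℂ)) z‖ * (κ * (κ / (ρ / 2))) := by
    intro z
    by_cases hz : ‖z‖ < ρ
    · have e : ∀ᶠ y in 𝓝 z, ((χ y : ℝ) : ℂ) = 1 := by
        have : ball (0:ℂ) ρ ∈ 𝓝 z := isOpen_ball.mem_nhds (by simpa using hz)
        filter_upwards [this] with y hy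
        rw [hχ.one y (closedBall_subset_closedBall hχ.h1.le (ball_subset_closedBall hy))]
        simp
      rw [(db_eventually e).self_of_nhds]
      simp
    · rw [not_lt] at hz
      rw [norm_mul, norm_mul, RCLike.norm_conj]
      have h1 := hw z (by linarith)
      have h2 := hd z hz
      gcongr
  have hi : Integrable (fun z => ‖db (fun z => ((χ z : ℝ) : ℂ)) z‖ * (κ * (κ / (ρ / 2)))) :=
    (((db_continuous (Cut.cd hχ)).integrable_of_hasCompactSupport
      (db_supp (Cut.supp hχ))).norm).mul_const _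
  refine (norm_integral_le_of_norm_le hi (Eventually.of_forall hb)).trans ?_
  rw [integral_mul_const]
  calc (∫ z, ‖db (fun z => ((χ z : ℝ) : ℂ)) z‖) * (κ * (κ / (ρ / 2)))
      ≤ (2 * Real.pi * (2 * ρ)) * (κ * (κ / (ρ / 2))) := by
        gcongr
        exact hχ.int
    _ = 8 * Real.pi * κ ^ 2 := by
        field_simp
        ring

lemma infDist_lt_iff_ball {c z : ℂ} {r δ : ℝ} (hr : 0 ≤ r) (hδ : 0 < δ) :
    infDist z (closedBall c r) < δ ↔ z ∈ ball c (δ + r) := by
  rw [← mem_thickening_iff_infDist_lt (nonempty_closedBall.2 hr), thickening_closedBall hδ hr]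

/-- the term of the hole `j` -/
lemma term_j (h1 : EN1) (h3 : EN3) (h4 : EN4) {n : ℕ} {c : Fin n → ℂ} {r : Fin n → ℝ}
    {L : Fin n → Set ℂ} {h : ℂ → ℂ} {B : ℝ} (H : EP c r L h B) (j : Fin n) {t : ℝ} (_ht : 0 < t)
    (hsep : ∀ k, k ≠ j → Disjoint (closedBall (c j) (r j + t)) (closedBall (c k) (r k + t)))
    {a' b' : ℝ} {E : ℂ → ℝ} (hE : Cut (c j) (r j) a' b' (r j + t) E) {w₀ : ℂ} {M : ℝ}
    (hM : ∀ z, r j < ‖z - c j‖ → ‖z - c j‖ < r j + t → ‖h z - w₀‖ ≤ M) :
    (∫ z, db (fun z => ((E z : ℝ) : ℂ)) z * (starRingEnd ℂ (h z - z) * (deriv h z - 1))).re ≤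
      -2 * (volume (L j)).toReal + 4 * Real.pi * (r j + t) * M - 2 * Real.pi * r j ^ 2 := by
  have hr := H.rpos j
  have hE1 := hE.h1
  have hE2 := hE.h2
  have hE3 := hE.h3
  set Ω : Set ℂ := (⋃ j, closedBall (c j) (r j))ᶜ with hΩ
  have ho : IsOpen Ω := by
    rw [hΩ, isOpen_compl_iff]
    exact isClosed_iUnion_of_finite fun j => isClosed_closedBall
  have hA : ∀ z ∈ Ω, AnalyticAt ℂ h z := fun z hz' => H.diff.analyticAt (ho.mem_nhds hz')
  have hD : ∀ z ∈ Ω, AnalyticAt ℂ (deriv h) z := fun z hz' => (hA z hz').deriv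
  have hcon : ContinuousOn h Ω := fun z hz => (hA z hz).continuousAt.continuousWithinAt
  have hcon' : ContinuousOn (deriv h) Ω := fun z hz => (hD z hz).continuousAt.continuousWithinAt
  have hcj : ContinuousOn (fun z => starRingEnd ℂ (h z)) Ω :=
    Complex.continuous_conj.comp_continuousOn hcon
  -- values of the cutoff near the holes
  have hone : ∀ z, infDist z (closedBall (c j) (r j)) < a' - r j → E z = 1 := by
    intro z hz
    rw [infDist_lt_iff_ball hr.le (by linarith)] at hz
    refine hE.one z (closedBall_subset_closedBall ?_ (ball_subset_closedBall hz))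
    linarith
  have hzero : ∀ k, k ≠ j → ∀ z, infDist z (closedBall (c k) (r k)) < a' - r j → E z = 0 := by
    intro k hk z hz
    rw [infDist_lt_iff_ball (H.rpos k).le (by linarith)] at hz
    have hz1 : z ∈ closedBall (c k) (r k + t) :=
      closedBall_subset_closedBall (by linarith) (ball_subset_closedBall hz)
    refine hE.zero z fun hz2 => ?_
    exact (disjoint_left.1 (hsep k hk)) (closedBall_subset_closedBall (by linarith)
      (ball_subset_closedBall hz2)) hz1
  have hloc : ∀ z, z ∉ Ω → ∀ᶠ y in 𝓝 z, db (fun z => ((E z : ℝ) : ℂ)) y = 0 := by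
    intro z hz
    rw [hΩ, mem_compl_iff, not_not, mem_iUnion] at hz
    obtain ⟨k, hk⟩ := hz
    have hk0 : infDist z (closedBall (c k) (r k)) < a' - r j := by
      rw [infDist_zero_of_mem hk]
      linarith
    have hk1 : ∀ᶠ y in 𝓝 z, infDist y (closedBall (c k) (r k)) < a' - r j :=
      (continuous_infDist_pt _).continuousAt.eventually_lt continuousAt_const hk0
    by_cases hkj : k = j
    · subst hkj
      refine db_eventually (a := 1) ?_
      filter_upwards [hk1] with y hy
      rw [hone y hy]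
      simp
    · refine db_eventually (a := 0) ?_
      filter_upwards [hk1] with y hy
      rw [hzero k hkj y hy]
      simp
  have hdc := db_continuous (Cut.cd hE)
  have hds := db_supp (Cut.supp hE)
  have i1 : Integrable (fun z => db (fun z => ((E z : ℝ) : ℂ)) z * (starRingEnd ℂ (h z) * deriv h z)) :=
    int_ext ho hdc hds (hcj.mul hcon') hloc
  have i2 : Integrable (fun z => db (fun z => ((E z : ℝ) : ℂ)) z *
      (starRingEnd ℂ (h z) + starRingEnd ℂ z * deriv h z)) :=
    int_ext ho hdc hds (hcj.add (Complex.continuous_conj.continuousOn.mul hcon')) hloc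
  have i3 : Integrable (fun z => db (fun z => ((E z : ℝ) : ℂ)) z * starRingEnd ℂ z) :=
    int_ext ho hdc hds Complex.continuous_conj.continuousOn hloc
  have e : ∀ z, db (fun z => ((E z : ℝ) : ℂ)) z * (starRingEnd ℂ (h z - z) * (deriv h z - 1)) =
      db (fun z => ((E z : ℝ) : ℂ)) z * (starRingEnd ℂ (h z) * deriv h z) -
      db (fun z => ((E z : ℝ) : ℂ)) z * (starRingEnd ℂ (h z) + starRingEnd ℂ z * deriv h z) +
      db (fun z => ((E z : ℝ) : ℂ)) z * starRingEnd ℂ z := by
    intro z
    rw [map_sub]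
    ring
  have e' := (integral_congr_ae (μ := volume) (Eventually.of_forall e)).trans
    ((integral_add (i1.sub i2) i3).trans (congrArg (· + _) (integral_sub i1 i2)))
  rw [e', Complex.add_re, Complex.sub_re]
  -- the first term
  have t1 := h4 H j (Cut.cd hE) (Cut.supp' hE) hE.nn (δ := a' - r j) (by linarith) hone hzero
  -- the mixed term
  have hΩ' : {z : ℂ | r j < ‖z - c j‖ ∧ ‖z - c j‖ < r j + t} ⊆ Ω := by
    rintro z ⟨hz1, hz2⟩
    rw [hΩ, mem_compl_iff, mem_iUnion, not_exists]
    intro k hk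
    by_cases hkj : k = j
    · subst hkj
      rw [mem_closedBall, dist_eq_norm] at hk
      linarith
    · refine (disjoint_left.1 (hsep k hkj)) (a := z) ?_ (closedBall_subset_closedBall
        (by linarith) hk)
      rw [mem_closedBall, dist_eq_norm]
      exact hz2.le
  have t2 := h3 hE (H.diff.mono hΩ') hM
  have t2' := (abs_le.1 (Complex.abs_re_le_norm (∫ z, db (fun z => ((E z : ℝ) : ℂ)) z *
      (starRingEnd ℂ (h z) + starRingEnd ℂ z * deriv h z)))).1
  -- the last term
  have t3 : (∫ z, db (fun z => ((E z : ℝ) : ℂ)) z * starRingEnd ℂ z).re ≤ -(2 * Real.pi * r j ^ 2) := by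
    have hv := h1 (v := fun z => ((E z : ℝ) : ℂ) * starRingEnd ℂ z)
      ((Cut.cd hE).mul (Complex.conjCLE : ℂ →L[ℝ] ℂ).contDiff) (supp_mul (Cut.supp hE))
    have e : ∀ z, db (fun z => ((E z : ℝ) : ℂ) * starRingEnd ℂ z) z =
        db (fun z => ((E z : ℝ) : ℂ)) z * starRingEnd ℂ z + 2 * ((E z : ℝ) : ℂ) := by
      intro z
      have dc : DifferentiableAt ℝ (fun z => starRingEnd ℂ z) z :=
        (Complex.conjCLE : ℂ →L[ℝ] ℂ).differentiableAt
      rw [db_mul ((Cut.cd hE).differentiable (by simp) z) dc,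
        db_conj (f := fun z => z) (z := z) differentiableAt_id]
      simp
      ring
    have iE : Integrable (fun z => ((E z : ℝ) : ℂ)) :=
      (Cut.cd hE).continuous.integrable_of_hasCompactSupport (Cut.supp hE)
    rw [integral_congr_ae (Eventually.of_forall e), integral_add i3 (iE.const_mul 2),
      integral_const_mul] at hv
    have hv0 : ∫ z, ((E z : ℝ) : ℂ) = ((∫ z, E z : ℝ) : ℂ) := integral_ofReal
    rw [hv0] at hv
    have hv' := eq_neg_of_add_eq_zero_left hv
    rw [hv']
    have hint : Real.pi * r j ^ 2 ≤ ∫ z, E z := by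
      have hEc : Continuous E := by
        have := Complex.continuous_re.comp (Cut.cd hE).continuous
        exact this
      have iE' : Integrable E := hEc.integrable_of_hasCompactSupport (Cut.supp' hE)
      have hvol : (volume (closedBall (c j) (r j))).toReal = Real.pi * r j ^ 2 := by
        rw [Complex.volume_closedBall]
        simp [hr.le, mul_comm]
      rw [← hvol]
      calc (volume (closedBall (c j) (r j))).toReal
          = ∫ z in closedBall (c j) (r j), (1:ℝ) := by
            simp [Measure.real]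
        _ = ∫ z in closedBall (c j) (r j), E z := by
            refine setIntegral_congr_fun measurableSet_closedBall fun z hz => ?_
            exact (hE.one z (closedBall_subset_closedBall hE1.le hz)).symm
        _ ≤ ∫ z, E z := setIntegral_le_integral iE' (Eventually.of_forall hE.nn)
    simp only [Complex.neg_re, Complex.mul_re, Complex.re_ofNat, Complex.ofReal_re,
      Complex.im_ofNat, Complex.ofReal_im, zero_mul, sub_zero]
    linarith
  linarith

/-- collars around the holes on which the map is close to the image holes -/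
lemma exists_collar {n : ℕ} {c : Fin n → ℂ} {r : Fin n → ℝ}
    {L : Fin n → Set ℂ} {h : ℂ → ℂ} {B : ℝ} (H : EP c r L h B) {w : Fin n → ℂ} {M : Fin n → ℝ}
    (hLM : ∀ j, L j ⊆ closedBall (w j) (M j)) {κ : ℝ} (hκ : 0 < κ) :
    ∃ t, 0 < t ∧ t ≤ κ ∧ t < 1 ∧
      (∀ j k, k ≠ j → Disjoint (closedBall (c j) (r j + t)) (closedBall (c k) (r k + t))) ∧
      (∀ j z, r j < ‖z - c j‖ → ‖z - c j‖ < r j + t → ‖h z - w j‖ ≤ M j + κ) := by
  have e1 : ∀ᶠ t in 𝓝[>] (0:ℝ), t ∈ Ioo (0:ℝ) (min κ 1) := Ioo_mem_nhdsGT (by positivity)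
  have e2 : ∀ᶠ t in 𝓝[>] (0:ℝ), ∀ j k, k ≠ j →
      Disjoint (closedBall (c j) (r j + t)) (closedBall (c k) (r k + t)) := by
    rw [eventually_all]
    intro j
    rw [eventually_all]
    intro k
    by_cases hk : k = j
    · exact Eventually.of_forall fun t h => absurd hk h
    have hd := H.disj j k (Ne.symm hk)
    rw [disjoint_closedBall_closedBall_iff (H.rpos j).le (H.rpos k).le] at hd
    have hc : Continuous fun t : ℝ => (r j + t) + (r k + t) := by fun_prop
    have h0 : ∀ᶠ t in 𝓝 (0:ℝ), (r j + t) + (r k + t) < dist (c j) (c k) :=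
      hc.continuousAt.eventually_lt continuousAt_const (by simpa using hd)
    filter_upwards [e1, mem_nhdsWithin_of_mem_nhds h0] with t ht1 ht _
    rw [disjoint_closedBall_closedBall_iff (by linarith [H.rpos j, ht1.1])
      (by linarith [H.rpos k, ht1.1])]
    exact ht
  choose δ hδ hδ' using fun j => H.bdry j κ hκ
  have e3 : ∀ᶠ t in 𝓝[>] (0:ℝ), ∀ j, t < δ j := by
    rw [eventually_all]
    intro j
    exact mem_nhdsWithin_of_mem_nhds (Iio_mem_nhds (hδ j))
  obtain ⟨t, ⟨ht0, ht1⟩, hsep, ht3⟩ := (e1.and (e2.and e3)).exists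
  refine ⟨t, ht0, (ht1.trans_le (min_le_left _ _)).le, ht1.trans_le (min_le_right _ _), hsep, ?_⟩
  intro j z hz1 hz2
  have hzc : z ∈ closedBall (c j) (r j + t) := by
    rw [mem_closedBall, dist_eq_norm]
    exact hz2.le
  have hzn : z ∉ ⋃ j, closedBall (c j) (r j) := by
    rw [mem_iUnion, not_exists]
    intro k hk
    by_cases hkj : k = j
    · subst hkj
      rw [mem_closedBall, dist_eq_norm] at hk
      linarith
    · exact (disjoint_left.1 (hsep j k hkj)) hzc (closedBall_subset_closedBall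
        (by linarith) hk)
  have h1 : infDist z (closedBall (c j) (r j)) < δ j := by
    rw [infDist_lt_iff_ball (H.rpos j).le (hδ j), mem_ball, dist_eq_norm]
    linarith [ht3 j]
  obtain ⟨y, hy, hy'⟩ := (infDist_lt_iff (H.Lne j)).1 (hδ' j z hzn h1)
  have h2 := hLM j hy
  rw [mem_closedBall] at h2
  have h3 := dist_triangle (h z) y (w j)
  rw [← dist_eq_norm]
  linarith

end EN5aux

open EN5aux in
/-- EN5 -/
theorem en5 (h1 : EN1) (h2 : EN2) (h3 : EN3) (h4 : EN4) : EN5 := by
  intro n c r L h B H i₀ c' r' hL w₀ D hD hLi W hW hWb hWB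
  classical
  set w : Fin n → ℂ := fun j => if j = i₀ then w₀ else c' j with hw
  set M : Fin n → ℝ := fun j => if j = i₀ then D else r' j with hM
  have hM0 : ∀ j, 0 < M j := by
    intro j
    by_cases hj : j = i₀
    · simp [hM, hj, hD]
    · simp [hM, hj, (hL j hj).1]
  have hLM : ∀ j, L j ⊆ closedBall (w j) (M j) := by
    intro j
    by_cases hj : j = i₀
    · subst hj
      simpa [hM, hw] using hLi
    · simp [hM, hw, hj, (hL j hj).2]
  set C : ℝ := ∑ j, 4 * Real.pi * (r j + M j + 1) with hC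
  have hC0 : 0 ≤ C := Finset.sum_nonneg fun j _ => by
    have := H.rpos j
    have := hM0 j
    positivity
  have key : ∀ η > 0, 2 * ∫ z in W, ‖deriv h z - 1‖ ^ 2 ≤ 4 * Real.pi * r i₀ * D + 2 * η := by
    intro η hη
    set κ : ℝ := min 1 (η / (C + 1)) with hκ
    have hκ0 : 0 < κ := by positivity
    have hκ1 : κ ≤ 1 := min_le_left _ _
    have hκC : κ * C ≤ η := by
      calc κ * C ≤ η / (C + 1) * (C + 1) :=
            mul_le_mul (min_le_right _ _) (by linarith) hC0 (by positivity)
        _ = η := by field_simp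
    set κ₂ : ℝ := min 1 (η / (8 * Real.pi)) with hκ₂
    have hπ := Real.pi_pos
    have hκ₂0 : 0 < κ₂ := by positivity
    have hκ₂C : 8 * Real.pi * κ₂ ^ 2 ≤ η := by
      calc 8 * Real.pi * κ₂ ^ 2 ≤ 8 * Real.pi * (η / (8 * Real.pi)) := by
            gcongr
            have a1 : κ₂ ≤ 1 := min_le_left _ _
            have a2 : κ₂ ≤ η / (8 * Real.pi) := min_le_right _ _
            nlinarith
        _ = η := by field_simp
    obtain ⟨t, ht0, htκ, ht1, hsep, hcol⟩ := exists_collar H hLM hκ0
    choose E a' b' hE using fun j => h2 (c j) (H.rpos j) (show r j < r j + t by linarith)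
    obtain ⟨R₁, hR₁⟩ := hWb.subset_closedBall 0
    obtain ⟨R₂, hR₂⟩ : ∃ R₂, ∀ z : ℂ, R₂ ≤ ‖z‖ → ‖h z - z‖ ≤ κ₂ := by
      have := H.norm.eventually (closedBall_mem_nhds (0:ℂ) hκ₂0)
      rw [← comap_norm_atTop, eventually_comap, eventually_atTop] at this
      obtain ⟨R, hR⟩ := this
      refine ⟨R, fun z hz => ?_⟩
      have := hR ‖z‖ hz z rfl
      simpa using this
    set ρ : ℝ := max (max R₁ (2 * R₂)) (2 * B + 2) with hρ
    have hρ1 : R₁ ≤ ρ := (le_max_left _ _).trans (le_max_left _ _)
    have hρ2 : 2 * R₂ ≤ ρ := (le_max_right _ _).trans (le_max_left _ _)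
    have hρ3 : 2 * B + 2 ≤ ρ := le_max_right _ _
    have hB := H.pos
    have hρ0 : 0 < ρ := by linarith
    obtain ⟨χ, a₀, b₀, hχ⟩ := h2 0 hρ0 (show ρ < 2 * ρ by linarith)
    set Ω : Set ℂ := (⋃ j, closedBall (c j) (r j))ᶜ with hΩ
    have ho : IsOpen Ω := by
      rw [hΩ, isOpen_compl_iff]
      exact isClosed_iUnion_of_finite fun j => isClosed_closedBall
    -- supports
    have f1 : ∀ j z, z ∉ closedBall (c j) (r j + t) → E j z = 0 := by
      intro j z hz
      refine (hE j).zero z fun hz' => hz ?_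
      exact closedBall_subset_closedBall (hE j).h3.le (ball_subset_closedBall hz')
    have f2 : ∀ j, closedBall (c j) (r j + t) ⊆ closedBall 0 (B + t) := by
      intro j
      have := cthickening_subset_of_subset t (H.sub j)
      rw [cthickening_closedBall ht0.le (H.rpos j).le, cthickening_closedBall ht0.le hB.le,
        add_comm t, add_comm t] at this
      exact this
    have f3 : ∀ z ∈ closedBall (0:ℂ) ρ, χ z = 1 := fun z hz =>
      hχ.one z (closedBall_subset_closedBall hχ.h1.le hz)
    have f4 : ∀ j k z, k ≠ j → z ∈ closedBall (c j) (r j + t) → E k z = 0 :=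
      fun j k z hkj hz => f1 k z fun hz' => (disjoint_left.1 (hsep j k hkj)) hz hz'
    have f5 : ∀ j z, z ∈ closedBall (c j) (r j + t) → ‖z‖ < B + 1 := by
      intro j z hz
      have := f2 j hz
      rw [mem_closedBall, dist_zero_right] at this
      linarith
    set Ψ : ℂ → ℝ := fun z => χ z - ∑ j, E j z with hΨ
    have Ψnn : ∀ z, 0 ≤ Ψ z := by
      intro z
      by_cases hz : ∃ j, z ∈ closedBall (c j) (r j + t)
      · obtain ⟨j, hj⟩ := hz
        have e : ∑ k, E k z = E j z := by
          refine Finset.sum_eq_single j (fun k _ hk => f4 j k z hk hj) (fun hj' => ?_)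
          exact absurd (Finset.mem_univ j) hj'
        have e' : χ z = 1 := f3 z (by
          rw [mem_closedBall, dist_zero_right]
          linarith [f5 j z hj])
        simp only [hΨ, e, e']
        linarith [(hE j).le z]
      · push Not at hz
        have e : ∑ k, E k z = 0 := Finset.sum_eq_zero fun k _ => f1 k z (hz k)
        simp only [hΨ, e]
        linarith [hχ.nn z]
    have ΨW : ∀ z ∈ W, Ψ z = 1 := by
      intro z hz
      have e : ∑ k, E k z = 0 := Finset.sum_eq_zero fun k _ => f1 k z fun hk => by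
        have := f5 k z hk
        have := hWB z hz
        linarith
      have e' : χ z = 1 := f3 z (closedBall_subset_closedBall hρ1 (hR₁ hz))
      simp [hΨ, e, e']
    have hloc1 : ∀ z, z ∉ Ω → ∀ᶠ y in 𝓝 z, χ y = 1 ∧ Ψ y = 0 := by
      intro z hz
      rw [hΩ, mem_compl_iff, not_not, mem_iUnion] at hz
      obtain ⟨k, hk⟩ := hz
      have hk1 : ball (c k) (a' k) ∈ 𝓝 z := by
        refine isOpen_ball.mem_nhds ?_
        rw [mem_ball]
        rw [mem_closedBall] at hk
        linarith [(hE k).h1]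
      filter_upwards [hk1] with y hy
      have hy1 : y ∈ closedBall (c k) (a' k) := ball_subset_closedBall hy
      have hy2 : y ∈ closedBall (c k) (r k + t) :=
        closedBall_subset_closedBall (by linarith [(hE k).h2, (hE k).h3]) hy1
      have e : ∑ j, E j y = 1 := by
        rw [Finset.sum_eq_single k (fun j _ hj => f4 k j y hj hy2)
          (fun hj' => absurd (Finset.mem_univ k) hj')]
        exact (hE k).one y hy1
      have e' : χ y = 1 := f3 y (by
        rw [mem_closedBall, dist_zero_right]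
        linarith [f5 k y hy2])
      exact ⟨e', by simp [hΨ, e, e']⟩
    -- smoothness
    set ψ : ℂ → ℂ := fun z => ((χ z : ℝ) : ℂ) - ∑ j, ((E j z : ℝ) : ℂ) with hψ
    have hψΨ : ∀ z, ψ z = ((Ψ z : ℝ) : ℂ) := by
      intro z
      simp [hψ, hΨ]
    have hψc : ContDiff ℝ 1 ψ := (Cut.cd hχ).sub (ContDiff.sum fun j _ => Cut.cd (hE j))
    have hψs : HasCompactSupport ψ := by
      refine HasCompactSupport.intro (isCompact_closedBall 0 (2 * ρ)) fun z hz => ?_
      rw [hψΨ, hΨ]
      have e1 : χ z = 0 := hχ.zero z fun hz' => hz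
        (closedBall_subset_closedBall hχ.h3.le (ball_subset_closedBall hz'))
      have e : ∑ k, E k z = 0 := Finset.sum_eq_zero fun k _ => f1 k z fun hk => by
        have := f5 k z hk
        apply hz
        rw [mem_closedBall, dist_zero_right]
        linarith
      simp [e1, e]
    have hψz : ∀ z, z ∉ Ω → ∀ᶠ y in 𝓝 z, ψ y = 0 := by
      intro z hz
      filter_upwards [hloc1 z hz] with y hy
      rw [hψΨ, hy.2]
      simp
    have hid := energy_id h1 ho H.diff hψc hψs hψz
    have hdb : ∀ z, db ψ z * (starRingEnd ℂ (h z - z) * (deriv h z - 1)) =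
        db (fun z => ((χ z : ℝ) : ℂ)) z * (starRingEnd ℂ (h z - z) * (deriv h z - 1)) -
        ∑ j, db (fun z => ((E j z : ℝ) : ℂ)) z * (starRingEnd ℂ (h z - z) * (deriv h z - 1)) := by
      intro z
      have d1 : DifferentiableAt ℝ (fun z => ((χ z : ℝ) : ℂ)) z :=
        (Cut.cd hχ).differentiable (by simp) z
      have d2 : ∀ j ∈ Finset.univ, DifferentiableAt ℝ (fun z => ((E j z : ℝ) : ℂ)) z := fun j _ =>
        (Cut.cd (hE j)).differentiable (by simp) z
      rw [hψ, db_sub d1 (DifferentiableAt.fun_sum d2), db_sum d2, sub_mul, Finset.sum_mul]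
    -- continuity of the density
    have hA : ∀ z ∈ Ω, AnalyticAt ℂ h z := fun z hz' => H.diff.analyticAt (ho.mem_nhds hz')
    have hGc : ContinuousOn (fun z => starRingEnd ℂ (h z - z) * (deriv h z - 1)) Ω :=
      fun z hz' => ((Complex.continuous_conj.continuousAt.comp
        ((hA z hz').continuousAt.sub continuousAt_id)).mul
        ((hA z hz').deriv.continuousAt.sub continuousAt_const)).continuousWithinAt
    have hHc : ContinuousOn (fun z => starRingEnd ℂ (deriv h z - 1) * (deriv h z - 1)) Ω :=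
      fun z hz' => ((Complex.continuous_conj.continuousAt.comp
        ((hA z hz').deriv.continuousAt.sub continuousAt_const)).mul
        ((hA z hz').deriv.continuousAt.sub continuousAt_const)).continuousWithinAt
    have i0 : Integrable (fun z => db (fun z => ((χ z : ℝ) : ℂ)) z *
        (starRingEnd ℂ (h z - z) * (deriv h z - 1))) := by
      refine int_ext ho (db_continuous (Cut.cd hχ)) (db_supp (Cut.supp hχ)) hGc fun z hz =>
        db_eventually (a := 1) ?_
      filter_upwards [hloc1 z hz] with y hy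
      rw [hy.1]
      simp
    have ij : ∀ j ∈ Finset.univ, Integrable (fun z => db (fun z => ((E j z : ℝ) : ℂ)) z *
        (starRingEnd ℂ (h z - z) * (deriv h z - 1))) := by
      intro j _
      refine int_ext ho (db_continuous (Cut.cd (hE j))) (db_supp (Cut.supp (hE j))) hGc ?_
      intro z hz
      rw [hΩ, mem_compl_iff, not_not, mem_iUnion] at hz
      obtain ⟨k, hk⟩ := hz
      have hk1 : ball (c k) (a' k) ∈ 𝓝 z := by
        refine isOpen_ball.mem_nhds ?_
        rw [mem_ball]
        rw [mem_closedBall] at hk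
        linarith [(hE k).h1]
      by_cases hkj : k = j
      · subst hkj
        refine db_eventually (a := 1) ?_
        filter_upwards [hk1] with y hy
        rw [(hE k).one y (ball_subset_closedBall hy)]
        simp
      · refine db_eventually (a := 0) ?_
        filter_upwards [hk1] with y hy
        rw [f4 k j y (Ne.symm hkj) (closedBall_subset_closedBall
          (by linarith [(hE k).h2, (hE k).h3]) (ball_subset_closedBall hy))]
        simp
    have i5 : Integrable (fun z => ψ z *
        (starRingEnd ℂ (deriv h z - 1) * (deriv h z - 1))) :=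
      int_ext ho hψc.continuous hψs hHc hψz
    have e5 : ∀ z, ψ z * (starRingEnd ℂ (deriv h z - 1) * (deriv h z - 1)) =
        ((Ψ z * ‖deriv h z - 1‖ ^ 2 : ℝ) : ℂ) := by
      intro z
      rw [hψΨ, mul_comm (starRingEnd ℂ _), Complex.mul_conj, Complex.normSq_eq_norm_sq]
      push_cast
      ring
    have i6 : Integrable (fun z => Ψ z * ‖deriv h z - 1‖ ^ 2) := by
      have := i5.re
      refine this.congr (Eventually.of_forall fun z => ?_)
      simp only [e5]
      exact Complex.ofReal_re _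
    have e6 : ∫ z, ψ z * (starRingEnd ℂ (deriv h z - 1) * (deriv h z - 1)) =
        ((∫ z, Ψ z * ‖deriv h z - 1‖ ^ 2 : ℝ) : ℂ) := by
      rw [integral_congr_ae (Eventually.of_forall e5)]
      exact integral_ofReal
    have e7 : ∫ z, db ψ z * (starRingEnd ℂ (h z - z) * (deriv h z - 1)) =
        (∫ z, db (fun z => ((χ z : ℝ) : ℂ)) z * (starRingEnd ℂ (h z - z) * (deriv h z - 1))) -
        ∑ j, ∫ z, db (fun z => ((E j z : ℝ) : ℂ)) z *
          (starRingEnd ℂ (h z - z) * (deriv h z - 1)) := by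
      rw [integral_congr_ae (Eventually.of_forall hdb)]
      exact (integral_sub i0 (integrable_finsetSum _ ij)).trans
        (congrArg (_ - ·) (integral_finsetSum _ ij))
    rw [e6, e7] at hid
    have hid' := congrArg Complex.re hid
    rw [Complex.sub_re, Complex.re_sum, Complex.neg_re] at hid'
    have e8 : (2 * ((∫ z, Ψ z * ‖deriv h z - 1‖ ^ 2 : ℝ) : ℂ)).re =
        2 * ∫ z, Ψ z * ‖deriv h z - 1‖ ^ 2 := by
      simp
    rw [e8] at hid'
    -- the far term
    have hfar : DifferentiableOn ℂ h {z | B < ‖z‖} := by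
      refine H.diff.mono fun z hz => ?_
      rw [mem_compl_iff, mem_iUnion, not_exists]
      intro k hk
      have := H.sub k hk
      rw [mem_closedBall, dist_zero_right] at this
      rw [mem_ofPred_eq] at hz
      linarith
    have g1 := far_term hB hfar hρ3 hκ₂0.le (fun z hz => hR₂ z (by linarith)) hχ
    have g1' := (abs_le.1 (Complex.abs_re_le_norm (∫ z, db (fun z => ((χ z : ℝ) : ℂ)) z *
      (starRingEnd ℂ (h z - z) * (deriv h z - 1))))).1
    -- the terms of the holes
    have g2 : ∀ j, (∫ z, db (fun z => ((E j z : ℝ) : ℂ)) z *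
        (starRingEnd ℂ (h z - z) * (deriv h z - 1))).re ≤
        (if j = i₀ then 4 * Real.pi * r i₀ * D else 0) + κ * (4 * Real.pi * (r j + M j + 1)) := by
      intro j
      have hrj := H.rpos j
      have hMj := hM0 j
      have g := term_j h1 h3 h4 H j ht0 (hsep j) (hE j) (hcol j)
      have hprod : (r j + t) * (M j + κ) ≤ r j * M j + κ * (r j + M j + 1) := by
        nlinarith [mul_nonneg hκ0.le (sub_nonneg.2 htκ), mul_nonneg hMj.le (sub_nonneg.2 htκ),
          mul_nonneg hκ0.le (sub_nonneg.2 hκ1), mul_nonneg hκ0.le (sub_nonneg.2 ht1.le)]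
      have hprod' := mul_le_mul_of_nonneg_left hprod (show 0 ≤ 4 * Real.pi by positivity)
      by_cases hj : j = i₀
      · subst hj
        have hMe : M j = D := by simp [hM]
        have hv : 0 ≤ (volume (L j)).toReal := ENNReal.toReal_nonneg
        have hrr : 0 ≤ 2 * Real.pi * r j ^ 2 := by positivity
        rw [if_pos rfl]
        rw [hMe] at g hprod' ⊢
        nlinarith
      · have hMe : M j = r' j := by simp [hM, hj]
        have hr'0 := (hL j hj).1
        have hv : (volume (L j)).toReal = Real.pi * r' j ^ 2 := by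
          rw [(hL j hj).2, Complex.volume_closedBall]
          simp [hr'0.le, mul_comm]
        rw [if_neg hj]
        rw [hMe] at g hprod' ⊢
        rw [hv] at g
        have hsq : 0 ≤ 2 * Real.pi * (r j - r' j) ^ 2 := by positivity
        nlinarith
    have g3 : ∑ j, (∫ z, db (fun z => ((E j z : ℝ) : ℂ)) z *
        (starRingEnd ℂ (h z - z) * (deriv h z - 1))).re ≤ 4 * Real.pi * r i₀ * D + κ * C := by
      refine (Finset.sum_le_sum fun j _ => g2 j).trans ?_
      rw [Finset.sum_add_distrib, Finset.sum_ite_eq' Finset.univ i₀, if_pos (Finset.mem_univ _),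
        hC, Finset.mul_sum]
    -- comparison with the integral over `W`
    have g4 : ∫ z in W, ‖deriv h z - 1‖ ^ 2 ≤ ∫ z, Ψ z * ‖deriv h z - 1‖ ^ 2 := by
      calc ∫ z in W, ‖deriv h z - 1‖ ^ 2 = ∫ z in W, Ψ z * ‖deriv h z - 1‖ ^ 2 := by
            refine setIntegral_congr_fun hW fun z hz => ?_
            simp only [ΨW z hz, one_mul]
        _ ≤ _ := setIntegral_le_integral i6 (Eventually.of_forall fun z => by
            have := Ψnn z
            positivity)
    linarith
  refine le_of_forall_pos_le_add fun η hη => ?_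
  have := key η hη
  linarith

end Vale.Agent.P116.Ms
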