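import Vale.Agent.P116.Ms.EN1

/-!
# Block EN3: the mixed terms
-/

open Set Filter Topology Metric Bornology MeasureTheory
open scoped ComplexConjugate Real

namespace Vale.Agent.P116.Ms

open FK Slow

/-- twice the other Wirtinger derivative -/
noncomputable def dz (v : ℂ → ℂ) (w : ℂ) : ℂ := fderiv ℝ v w 1 - Complex.I * fderiv ℝ v w Complex.I

lemma continuous_dz {v : ℂ → ℂ} (h : ContDiff ℝ 1 v) : Continuous (dz v) := by
  have := h.continuous_fderiv (by simp)
  unfold dz
  fun_prop

lemma dz_congr {f g : ℂ → ℂ} {z : ℂ} (h : f =ᶠ[𝓝 z] g) : dz f z = dz g z := by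
  rw [dz, dz, h.fderiv_eq]

lemma dz_const (a : ℂ) (z : ℂ) : dz (fun _ => a) z = 0 := by
  simp [dz]

lemma dz_eq_conj {v : ℂ → ℂ} (h : Differentiable ℝ v) (z : ℂ) :
    dz v z = conj (db (fun w => conj (v w)) z) := by
  have h1 : HasFDerivAt (fun w => conj (v w)) (Complex.conjCLE.toContinuousLinearMap.comp
      (fderiv ℝ v z)) z :=
    Complex.conjCLE.toContinuousLinearMap.hasFDerivAt.comp z (h z).hasFDerivAt
  rw [dz, db, h1.fderiv]
  simp [sub_eq_add_neg]

lemma int_dz {v : ℂ → ℂ} (h : ContDiff ℝ 1 v) (hs : HasCompactSupport v) :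
    ∫ z, dz v z = 0 := by
  have hd := h.differentiable (by simp)
  simp_rw [dz_eq_conj hd]
  rw [integral_conj]
  have h1 : ContDiff ℝ 1 fun w => conj (v w) := Complex.conjCLE.contDiff.comp h
  have h2 : HasCompactSupport fun w => conj (v w) := hs.comp_left (g := conj) (by simp)
  rw [en1 h1 h2]
  simp

lemma sym2 {e : ℂ → ℂ} (he : ContDiff ℝ 2 e) (z : ℂ) :
    dz (db e) z = db (dz e) z := by
  have hd1 : Differentiable ℝ (fderiv ℝ e) :=
    (he.fderiv_right (m := 1) (by norm_num)).differentiable (by simp)
  have hS := (hd1 z).hasFDerivAt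
  have hsym : fderiv ℝ (fderiv ℝ e) z 1 Complex.I = fderiv ℝ (fderiv ℝ e) z Complex.I 1 := by
    have := (he.contDiffAt (x := z)).isSymmSndFDerivAt (by simp)
    exact this 1 Complex.I
  have k1 : HasFDerivAt (fun w => fderiv ℝ e w 1)
      ((ContinuousLinearMap.apply ℝ ℂ (1:ℂ)).comp (fderiv ℝ (fderiv ℝ e) z)) z :=
    (ContinuousLinearMap.apply ℝ ℂ (1:ℂ)).hasFDerivAt.comp z hS
  have k2 : HasFDerivAt (fun w => fderiv ℝ e w Complex.I)
      ((ContinuousLinearMap.apply ℝ ℂ (Complex.I:ℂ)).comp (fderiv ℝ (fderiv ℝ e) z)) z :=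
    (ContinuousLinearMap.apply ℝ ℂ (Complex.I:ℂ)).hasFDerivAt.comp z hS
  have k3 : HasFDerivAt (db e) _ z := k1.add (k2.const_mul Complex.I)
  have k4 : HasFDerivAt (dz e) _ z := k1.sub (k2.const_mul Complex.I)
  rw [dz, db, k3.fderiv, k4.fderiv]
  simp
  linear_combination 2 * Complex.I * hsym


section

variable {c : ℂ} {r a' b' b : ℝ} {E : ℂ → ℝ}

/-- the open annulus -/
def anA (c : ℂ) (r b : ℝ) : Set ℂ := {z | r < ‖z - c‖ ∧ ‖z - c‖ < b}

/-- the closed annulus -/
def anK (c : ℂ) (a' b' : ℝ) : Set ℂ := {z | a' ≤ ‖z - c‖ ∧ ‖z - c‖ ≤ b'}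

lemma isOpen_anA : IsOpen (anA c r b) := by
  have h : Continuous fun z : ℂ => ‖z - c‖ := by fun_prop
  exact (isOpen_lt continuous_const h).inter (isOpen_lt h continuous_const)

lemma isClosed_anK : IsClosed (anK c a' b') := by
  have h : Continuous fun z : ℂ => ‖z - c‖ := by fun_prop
  exact (isClosed_le continuous_const h).inter (isClosed_le h continuous_const)

lemma isCompact_anK : IsCompact (anK c a' b') := by
  refine (isCompact_closedBall c b').of_isClosed_subset isClosed_anK fun z hz => ?_
  rw [mem_closedBall, dist_eq_norm]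
  exact hz.2

lemma Cut.const (H : Cut c r a' b' b E) {z : ℂ} (hz : z ∉ anK c a' b') :
    ∃ a : ℂ, (fun z => ((E z : ℝ) : ℂ)) =ᶠ[𝓝 z] fun _ => a := by
  rw [anK, mem_ofPred_eq, not_and_or, not_le, not_le] at hz
  have h : Continuous fun z : ℂ => ‖z - c‖ := by fun_prop
  rcases hz with hz | hz
  · refine ⟨1, ?_⟩
    filter_upwards [(isOpen_lt h continuous_const).mem_nhds hz] with w hw
    rw [H.one w (by rw [mem_closedBall, dist_eq_norm]; exact le_of_lt hw)]
    simp
  · refine ⟨0, ?_⟩
    filter_upwards [(isOpen_lt continuous_const h).mem_nhds hz] with w hw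
    rw [H.zero w (by rw [mem_ball, dist_eq_norm, not_lt]; exact le_of_lt hw)]
    simp

/-- a product of a C¹ function supported in the closed annulus with a function which is C¹ in the
open annulus -/
lemma contDiff_mul_of {g k : ℂ → ℂ} {U K : Set ℂ} (hU : IsOpen U) (hK : IsClosed K) (hKU : K ⊆ U)
    (hg : ContDiff ℝ 1 g) (hg0 : ∀ z ∉ K, g z = 0) (hk : ContDiffOn ℝ 1 k U) :
    ContDiff ℝ 1 fun z => g z * k z := by
  rw [contDiff_iff_contDiffAt]
  intro z
  by_cases hz : z ∈ K
  · exact hg.contDiffAt.mul (hk.contDiffAt (hU.mem_nhds (hKU hz)))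
  · have h1 : (fun z => g z * k z) =ᶠ[𝓝 z] fun _ => 0 := by
      filter_upwards [hK.isOpen_compl.mem_nhds hz] with w hw
      rw [hg0 w hw, zero_mul]
    exact contDiffAt_const.congr_of_eventuallyEq h1

lemma compSupp_of {g k : ℂ → ℂ} {K : Set ℂ} (hK : IsCompact K) (hg0 : ∀ z ∉ K, g z = 0) :
    HasCompactSupport fun z => g z * k z :=
  HasCompactSupport.intro hK fun z hz => by rw [hg0 z hz, zero_mul]

/-- block EN3 -/
theorem en3 : EN3 := by
  intro c r a' b' b E H h hh w₀ M hM
  set e : ℂ → ℂ := fun z => ((E z : ℝ) : ℂ) with he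
  have hsm : ContDiff ℝ 2 e := H.smooth
  have hU := isOpen_anA (c := c) (r := r) (b := b)
  have hK := isCompact_anK (c := c) (a' := a') (b' := b')
  have hKU : anK c a' b' ⊆ anA c r b := fun z hz => ⟨H.h1.trans_le hz.1, hz.2.trans_lt H.h3⟩
  have hfe : ContDiff ℝ 1 (fderiv ℝ e) := hsm.fderiv_right (by norm_num)
  have hD : ContDiff ℝ 1 (db e) := by unfold db; fun_prop
  have hd : ContDiff ℝ 1 (dz e) := by unfold dz; fun_prop
  have hD0 : ∀ z ∉ anK c a' b', db e z = 0 := by
    intro z hz
    obtain ⟨a, ha⟩ := H.const hz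
    rw [db_congr ha, db_const]
  have hd0 : ∀ z ∉ anK c a' b', dz e z = 0 := by
    intro z hz
    obtain ⟨a, ha⟩ := H.const hz
    rw [dz_congr ha, dz_const]
  have hdD : ∀ z, dz e z = conj (db e z) := by
    intro z
    rw [dz_eq_conj (hsm.differentiable (by norm_num))]
    congr 2
    funext w
    simp [he]
  have hh1 : ContDiffOn ℝ 1 h (anA c r b) :=
    ((hh.contDiffOn (n := 1) hU).restrict_scalars ℝ)
  have hz1 : ContDiff ℝ 1 fun z : ℂ => conj z := Complex.conjCLE.contDiff
  have hk1 : ContDiffOn ℝ 1 (fun z => conj z * h z) (anA c r b) := hz1.contDiffOn.mul hh1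
  have v1c := contDiff_mul_of hU hK.isClosed hKU hD hD0 hk1
  have v2c := contDiff_mul_of hU hK.isClosed hKU hd hd0 hk1
  have v1s := compSupp_of (k := fun z => conj z * h z) hK hD0
  have v2s := compSupp_of (k := fun z => conj z * h z) hK hd0
  have I1 := int_dz v1c v1s
  have I2 := en1 v2c v2s
  -- the pointwise identity
  have key : ∀ z, dz (fun z => db e z * (conj z * h z)) z -
      db (fun z => dz e z * (conj z * h z)) z =
      2 * (db e z * (conj z * deriv h z) - dz e z * h z) := by
    intro z
    by_cases hz : z ∈ anK c a' b'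
    · have hzA := hU.mem_nhds (hKU hz)
      have k1 : HasFDerivAt (db e) (fderiv ℝ (db e) z) z :=
        (hD.differentiable (by simp) z).hasFDerivAt
      have k2 : HasFDerivAt (dz e) (fderiv ℝ (dz e) z) z :=
        (hd.differentiable (by simp) z).hasFDerivAt
      have k3 : HasFDerivAt (fun z : ℂ => conj z) (Complex.conjCLE.toContinuousLinearMap) z :=
        Complex.conjCLE.toContinuousLinearMap.hasFDerivAt
      have k4 : HasFDerivAt h (((1 : ℂ →L[ℂ] ℂ).smulRight (deriv h z)).restrictScalars ℝ) z :=
        ((hh.differentiableAt hzA).hasDerivAt.hasFDerivAt).restrictScalars ℝ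
      have k5 := k1.mul (k3.mul k4)
      have k6 := k2.mul (k3.mul k4)
      have k5' : fderiv ℝ (fun z => db e z * (conj z * h z)) z = _ := k5.fderiv
      have k6' : fderiv ℝ (fun z => dz e z * (conj z * h z)) z = _ := k6.fderiv
      have hs := sym2 hsm z
      have m0 : dz (db e) z = fderiv ℝ (db e) z 1 - Complex.I * fderiv ℝ (db e) z Complex.I := rfl
      have m0' : db (dz e) z = fderiv ℝ (dz e) z 1 + Complex.I * fderiv ℝ (dz e) z Complex.I := rfl
      rw [m0, m0'] at hs
      have m1 : dz (fun z => db e z * (conj z * h z)) z =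
        fderiv ℝ (fun z => db e z * (conj z * h z)) z 1 -
          Complex.I * fderiv ℝ (fun z => db e z * (conj z * h z)) z Complex.I := rfl
      have m2 : db (fun z => dz e z * (conj z * h z)) z =
        fderiv ℝ (fun z => dz e z * (conj z * h z)) z 1 +
          Complex.I * fderiv ℝ (fun z => dz e z * (conj z * h z)) z Complex.I := rfl
      rw [m1, m2, k5', k6']
      simp
      linear_combination (conj z * h z) * hs + (-(db e z * conj z * deriv h z) + db e z * h z -
        conj z * deriv h z * dz e z + h z * dz e z) * Complex.I_sq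
    · have h1 : (fun z => db e z * (conj z * h z)) =ᶠ[𝓝 z] fun _ => 0 := by
        filter_upwards [hK.isClosed.isOpen_compl.mem_nhds hz] with w hw
        rw [hD0 w hw, zero_mul]
      have h2 : (fun z => dz e z * (conj z * h z)) =ᶠ[𝓝 z] fun _ => 0 := by
        filter_upwards [hK.isClosed.isOpen_compl.mem_nhds hz] with w hw
        rw [hd0 w hw, zero_mul]
      rw [dz_congr h1, dz_const, db_congr h2, db_const, hD0 z hz, hd0 z hz]
      ring
  have hint1 : Integrable (dz fun z => db e z * (conj z * h z)) := by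
    refine (continuous_dz v1c).integrable_of_hasCompactSupport
      (HasCompactSupport.intro hK fun z hz => ?_)
    have h1 : (fun z => db e z * (conj z * h z)) =ᶠ[𝓝 z] fun _ => 0 := by
      filter_upwards [hK.isClosed.isOpen_compl.mem_nhds hz] with w hw
      rw [hD0 w hw, zero_mul]
    rw [dz_congr h1, dz_const]
  have hint2 : Integrable (db fun z => dz e z * (conj z * h z)) := by
    refine (continuous_db v2c).integrable_of_hasCompactSupport
      (HasCompactSupport.intro hK fun z hz => ?_)
    have h1 : (fun z => dz e z * (conj z * h z)) =ᶠ[𝓝 z] fun _ => 0 := by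
      filter_upwards [hK.isClosed.isOpen_compl.mem_nhds hz] with w hw
      rw [hd0 w hw, zero_mul]
    rw [db_congr h1, db_const]
  have I3 : ∫ z, (db e z * (conj z * deriv h z) - dz e z * h z) = 0 := by
    have h1 : ∫ z, (dz (fun z => db e z * (conj z * h z)) z -
      db (fun z => dz e z * (conj z * h z)) z) = 0 := by
      rw [integral_sub hint1 hint2, I1, I2, sub_zero]
    simp_rw [key] at h1
    rw [integral_const_mul] at h1
    exact (mul_eq_zero.1 h1).resolve_left two_ne_zero
  have hint3 : Integrable fun z => db e z * (conj z * deriv h z) - dz e z * h z := by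
    have := (hint1.sub hint2).const_mul (1/2)
    refine this.congr (Eventually.of_forall fun z => ?_)
    simp only [Pi.sub_apply]
    rw [key]
    ring
  have hint4 : Integrable fun z => dz e z * h z :=
    (contDiff_mul_of hU hK.isClosed hKU hd hd0 hh1).continuous.integrable_of_hasCompactSupport
      (compSupp_of hK hd0)
  have hint5 : Integrable fun z => db e z * (conj z * deriv h z) := by
    refine (hint3.add hint4).congr (Eventually.of_forall fun z => ?_)
    simp
  have I4 : ∫ z, db e z * (conj z * deriv h z) = ∫ z, dz e z * h z := by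
    rw [integral_sub hint5 hint4] at I3
    exact sub_eq_zero.1 I3
  have hch : ContDiffOn ℝ 1 (fun z => conj (h z)) (anA c r b) :=
    Complex.conjCLE.contDiff.comp_contDiffOn hh1
  have hint6 : Integrable fun z => db e z * conj (h z) :=
    (contDiff_mul_of hU hK.isClosed hKU hD hD0 hch).continuous.integrable_of_hasCompactSupport
      (compSupp_of hK hD0)
  have I5 : ∫ z, dz e z * h z = conj (∫ z, db e z * conj (h z)) := by
    rw [← integral_conj]
    refine integral_congr_ae (Eventually.of_forall fun z => ?_)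
    simp [hdD]
  have hM0 : 0 ≤ M := by
    have hlt : r < b := H.h1.trans (H.h2.trans H.h3)
    refine (norm_nonneg _).trans (hM (c + ((r + b) / 2 : ℝ)) ?_ ?_)
    · rw [add_sub_cancel_left, Complex.norm_real, Real.norm_eq_abs,
        abs_of_pos (by have := H.rpos; linarith)]
      linarith
    · rw [add_sub_cancel_left, Complex.norm_real, Real.norm_eq_abs,
        abs_of_pos (by have := H.rpos; linarith)]
      linarith
  have hDi : Integrable (db e) :=
    hD.continuous.integrable_of_hasCompactSupport (HasCompactSupport.intro hK hD0)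
  have I6 : ∫ z, db e z = 0 := by
    -- `e - ` its value near infinity is compactly supported
    have hes : HasCompactSupport e := by
      apply HasCompactSupport.intro (isCompact_closedBall c b')
      intro z hz
      have : z ∉ ball c b' := fun h => hz (ball_subset_closedBall h)
      simp [he, H.zero z this]
    exact en1 (hsm.of_le (by norm_num)) hes
  have I7 : ∫ z, db e z * conj (h z) = ∫ z, db e z * conj (h z - w₀) := by
    have h1 : ∫ z, db e z * conj (h z - w₀) =
        ∫ z, (db e z * conj (h z) - db e z * conj w₀) := by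
      refine integral_congr_ae (Eventually.of_forall fun z => ?_)
      simp only [map_sub]
      ring
    rw [h1, integral_sub hint6 (hDi.mul_const _), integral_mul_const, I6]
    simp
  have I8 : ‖∫ z, db e z * conj (h z)‖ ≤ 2 * π * b * M := by
    rw [I7]
    refine (norm_integral_le_integral_norm _).trans ?_
    have h1 : ∫ z, ‖db e z * conj (h z - w₀)‖ ≤ ∫ z, ‖db e z‖ * M := by
      refine integral_mono_of_nonneg (Eventually.of_forall fun z => norm_nonneg _)
        (hDi.norm.mul_const M) (Eventually.of_forall fun z => ?_)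
      simp only [norm_mul, RCLike.norm_conj]
      by_cases hz : z ∈ anK c a' b'
      · exact mul_le_mul_of_nonneg_left (hM z (hKU hz).1 (hKU hz).2) (norm_nonneg _)
      · rw [hD0 z hz]
        simp
    refine h1.trans ?_
    rw [integral_mul_const]
    exact mul_le_mul_of_nonneg_right H.int hM0
  have I9 : ∫ z, db e z * (conj (h z) + conj z * deriv h z) =
      (∫ z, db e z * conj (h z)) + conj (∫ z, db e z * conj (h z)) := by
    rw [← I5, ← I4, ← integral_add hint6 hint5]
    refine integral_congr_ae (Eventually.of_forall fun z => ?_)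
    simp only
    ring
  rw [I9]
  refine (norm_add_le _ _).trans ?_
  rw [RCLike.norm_conj]
  linarith

end

end Vale.Agent.P116.Ms
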