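import Vale.Agent.P116.Ms.AbsU

/-!
Exchangeability: good trees outside a set of branches of small measure.
-/

open Set Filter Topology Metric MeasureTheory
open scoped Classical ENNReal

namespace Vale.Agent.P116.Slow.Sys

section

variable {T : Type*} {X : T → Type*} [∀ Q, PseudoMetricSpace (X Q)] {s : Sys T X}

/-- the nodes of level `n` -/
noncomputable def LV (s : Sys T X) (n : ℕ) : Finset T := (s.finite_level_eq n).toFinset

lemma mem_LV {n : ℕ} {Q : T} : Q ∈ s.LV n ↔ s.lv Q = n := by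
  simp [LV]

lemma Rc_Rc {J m : ℕ} (hJ : J ≤ m) (a : ∀ Q, X Q) {Q : T} (hQ : s.lv Q ≤ J) :
    s.Rc J (s.Rc m a) Q = s.Rc m a Q := by
  obtain ⟨d, hd⟩ : ∃ d, d = J - s.lv Q := ⟨_, rfl⟩
  induction d generalizing Q with
  | zero => exact s.Rc_ge _ (by omega)
  | succ d ih =>
    rw [s.Rc_lt _ (by omega : s.lv Q < J), s.Rc_lt a (by omega : s.lv Q < m)]
    refine s.congr Q _ _ fun R hR => ?_
    have h2 := s.lv_ch Q R hR
    exact ih (by omega) (by omega)

lemma Rc_dist' {n : ℕ} (a a' : ∀ Q, X Q) {Q : T} (hQ : s.lv Q ≤ n) :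
    dist (s.Rc n a Q) (s.Rc n a' Q) ≤
      ∑ R ∈ (s.LV n).filter (fun R => s.Bel Q R), dist (a R) (a' R) := by
  obtain ⟨d, hd⟩ : ∃ d, d = n - s.lv Q := ⟨_, rfl⟩
  induction d generalizing Q with
  | zero =>
    rw [s.Rc_ge _ (by omega), s.Rc_ge _ (by omega)]
    refine Finset.single_le_sum (f := fun R => dist (a R) (a' R)) (fun R _ => dist_nonneg) ?_
    exact Finset.mem_filter.2 ⟨mem_LV.2 (by omega), s.bel_refl Q⟩
  | succ d ih =>
    rw [s.Rc_lt _ (by omega), s.Rc_lt _ (by omega)]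
    refine (s.lip _ _ _).trans ?_
    have h1 : ∀ R ∈ s.ch Q, dist (s.Rc n a R) (s.Rc n a' R) ≤
        ∑ R' ∈ (s.LV n).filter (fun R' => s.Bel R R'), dist (a R') (a' R') := fun R hR => by
      have h2 := s.lv_ch Q R hR
      exact ih (by omega) (by omega)
    refine (Finset.sum_le_sum h1).trans ?_
    rw [← Finset.sum_biUnion]
    · refine Finset.sum_le_sum_of_subset_of_nonneg ?_ fun _ _ _ => dist_nonneg
      intro R' hR'
      obtain ⟨R, hR, hR''⟩ := Finset.mem_biUnion.1 hR'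
      obtain ⟨h3, h4⟩ := Finset.mem_filter.1 hR''
      exact Finset.mem_filter.2 ⟨h3, s.bel_trans (s.bel_ch hR) h4⟩
    · intro R₁ h₁ R₂ h₂ hne
      rw [Function.onFun, Finset.disjoint_left]
      intro R' h3 h4
      have h5 := (Finset.mem_filter.1 h3).2
      have h6 := (Finset.mem_filter.1 h4).2
      have h7 : s.lv R₁ = s.lv R₂ := by rw [s.lv_ch _ _ h₁, s.lv_ch _ _ h₂]
      rcases s.bel_total h5 h6 with h8 | h8
      · exact hne (s.bel_eq_of_lv h8 h7)
      · exact hne (s.bel_eq_of_lv h8 h7.symm).symm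

lemma Rc_dist {n : ℕ} (a a' : ∀ Q, X Q) {Q : T} (hQ : s.lv Q ≤ n) :
    dist (s.Rc n a Q) (s.Rc n a' Q) ≤ ∑ R ∈ s.LV n, dist (a R) (a' R) :=
  (s.Rc_dist' a a' hQ).trans
    (Finset.sum_le_sum_of_subset_of_nonneg (Finset.filter_subset _ _) fun _ _ _ => dist_nonneg)

lemma MG_ge {m : ℕ} {A : Finset T} {ξ : ∀ Q, X Q} {Q : T} (h : m ≤ s.lv Q) :
    s.MG m A ξ Q = if Q ∈ A then s.o Q else ξ Q := s.Rc_ge _ h

lemma MG_congr {m : ℕ} {A A' : Finset T} {ξ ξ' : ∀ Q, X Q} {Q : T} (hQ : s.lv Q ≤ m)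
    (h : ∀ Q', s.Bel Q Q' → s.lv Q' = m →
      (if Q' ∈ A then s.o Q' else ξ Q') = (if Q' ∈ A' then s.o Q' else ξ' Q')) :
    s.MG m A ξ Q = s.MG m A' ξ' Q := s.Rc_congr hQ h

lemma MG_single (b : ℕ → T) (m : ℕ) (ξ : ∀ Q, X Q) : s.MG m {b m} ξ = s.mg b m ξ := by
  have : (fun Q => if Q ∈ ({b m} : Finset T) then s.o Q else ξ Q) =
      Function.update ξ (b m) (s.o (b m)) := by
    funext Q
    by_cases h : Q = b m
    · subst h
      rw [Function.update_self, if_pos (Finset.mem_singleton_self _)]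
    · rw [Function.update_of_ne h, if_neg (by simpa using h)]
  rw [MG, mg, this]

lemma MG_off {m : ℕ} {A : Finset T} {ξ : ∀ Q, X Q} (hξ : s.Coh ξ) {Q : T}
    (h : ∀ u ∈ A, ¬ s.Bel Q u) : s.MG m A ξ Q = ξ Q := by
  by_cases hl : s.lv Q ≤ m
  · rw [← s.Rc_coh (n := m) hξ Q, MG]
    refine s.Rc_congr hl fun Q' h1 _ => ?_
    rw [if_neg]
    exact fun h2 => h Q' h2 h1
  · push Not at hl
    rw [MG_ge hl.le, if_neg]
    exact fun h2 => h Q h2 (s.bel_refl Q)

lemma MG_insert_off {m : ℕ} {A : Finset T} {ξ : ∀ Q, X Q} {Q u : T} (hQ : s.lv Q ≤ m)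
    (h : ¬ s.Bel Q u) : s.MG m (insert u A) ξ Q = s.MG m A ξ Q := by
  refine MG_congr hQ fun Q' h1 _ => ?_
  have h2 : Q' ≠ u := by
    rintro rfl
    exact h h1
  simp only [Finset.mem_insert, h2, false_or]

lemma MG_Rc {J m : ℕ} (hJ : J ≤ m) (A : Finset T) (ξ : ∀ Q, X Q) {Q : T} (hQ : s.lv Q ≤ J) :
    s.MG m A ξ Q = s.Rc J (s.MG m A ξ) Q := (s.Rc_Rc hJ _ hQ).symm

lemma mg_Rc {J m : ℕ} (hJ : J ≤ m) (b : ℕ → T) (ξ : ∀ Q, X Q) {Q : T} (hQ : s.lv Q ≤ J) :
    s.mg b m ξ Q = s.Rc J (s.mg b m ξ) Q := (s.Rc_Rc hJ _ hQ).symm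

lemma Br.agree {b c : ℕ → T} (hb : s.Br b) (hc : s.Br c) {j k : ℕ} (hjk : j ≤ k)
    (h : b k = c k) : b j = c j := by
  have h1 : s.Bel (b j) (c k) := h ▸ hb.bel hjk
  have h2 := hc.eq_of_bel h1
  rwa [hb.lv] at h2

lemma tend_of_level {ι : Type*} {l : Filter ι} {a : ι → ∀ Q, X Q} {b : ∀ Q, X Q} {J : ℕ}
    (h : ∀ R, s.lv R = J → Tendsto (fun m => a m R) l (𝓝 (b R))) {Q : T} (hQ : s.lv Q ≤ J) :
    Tendsto (fun m => s.Rc J (a m) Q) l (𝓝 (s.Rc J b Q)) := by
  rw [tendsto_iff_dist_tendsto_zero]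
  have h1 : Tendsto (fun m => ∑ R ∈ s.LV J, dist (a m R) (b R)) l (𝓝 0) := by
    have h2 : Tendsto (fun m => ∑ R ∈ s.LV J, dist (a m R) (b R)) l
        (𝓝 (∑ _R ∈ s.LV J, (0:ℝ))) :=
      tendsto_finsetSum _ fun R hR => tendsto_iff_dist_tendsto_zero.1 (h R (mem_LV.1 hR))
    simpa using h2
  exact squeeze_zero (fun i => dist_nonneg) (fun i => s.Rc_dist _ _ hQ) h1

/-- the nodes of level `m` of a finite set of branches -/
noncomputable def nB (B : Finset (ℕ → T)) (m : ℕ) : Finset T := B.image fun c => c m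

omit [∀ Q, PseudoMetricSpace (X Q)] in
lemma mem_nB {B : Finset (ℕ → T)} {m : ℕ} {Q : T} : Q ∈ nB B m ↔ ∃ c ∈ B, c m = Q := by
  simp [nB]

lemma sep_ev {B : Finset (ℕ → T)} (hB : ∀ c ∈ B, s.Br c) {b : ℕ → T} (hb : s.Br b) :
    ∀ᶠ J in atTop, ∀ c ∈ B, c ≠ b → c J ≠ b J := by
  rw [Filter.eventually_all_finset]
  intro c hc
  by_cases hcb : c = b
  · exact Filter.Eventually.of_forall fun J h => absurd hcb h
  · obtain ⟨j, hj⟩ := Function.ne_iff.1 hcb
    filter_upwards [eventually_ge_atTop j] with J hJ _ h2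
    exact hj ((hB c hc).agree hb hJ h2)

/-- `ζ` is the limit of the trees merged along the branches of `B` -/
structure LimB (s : Sys T X) (𝒰 : Ultrafilter ℕ) (B : Finset (ℕ → T)) (ξ ζ : ∀ Q, X Q) : Prop where
  br : ∀ c ∈ B, s.Br c
  cohξ : s.Coh ξ
  cohζ : s.Coh ζ
  lim : ∀ Q, Tendsto (fun m => s.MG m (nB B m) ξ Q) (𝒰 : Filter ℕ) (𝓝 (ζ Q))

end

section

variable {T : Type*} {X : T → Type*} [∀ Q, MetricSpace (X Q)] {s : Sys T X} {𝒰 : Ultrafilter ℕ}
  {B : Finset (ℕ → T)} {ξ ζ : ∀ Q, X Q}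

lemma LimB.off (h : s.LimB 𝒰 B ξ ζ) {Q : T} (hQ : Q ∉ nB B (s.lv Q)) : ζ Q = ξ Q := by
  refine tendsto_nhds_unique (h.lim Q) ?_
  have h1 : (fun m => s.MG m (nB B m) ξ Q) = fun _ => ξ Q := by
    ext m
    refine MG_off h.cohξ fun u hu h2 => hQ ?_
    obtain ⟨c, hc, rfl⟩ := mem_nB.1 hu
    exact mem_nB.2 ⟨c, hc, ((h.br c hc).eq_of_bel h2).symm⟩
  rw [h1]
  exact tendsto_const_nhds

/-- the new node `R = b J`: only `b` itself is merged -/
lemma LimB.node {b : ℕ → T} (h : s.LimB 𝒰 B ξ ζ) (hb : s.Br b) {J m : ℕ} (hJ : J ≤ m)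
    (hsep : ∀ c ∈ B, c ≠ b → c J ≠ b J) :
    s.MG m (insert (b m) (nB B m)) ξ (b J) = s.mg b m ζ (b J) := by
  rw [← MG_single]
  refine MG_congr (by rw [hb.lv]; exact hJ) fun Q' h1 h2 => ?_
  by_cases h3 : Q' = b m
  · subst h3
    rw [if_pos (Finset.mem_insert_self _ _), if_pos (Finset.mem_singleton_self _)]
  · have h4 : Q' ∉ nB B m := by
      intro h5
      obtain ⟨c, hc, rfl⟩ := mem_nB.1 h5
      have hcb : c ≠ b := by
        rintro rfl
        exact h3 rfl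
      have h6 := (h.br c hc).eq_of_bel h1
      rw [hb.lv] at h6
      exact hsep c hc hcb h6.symm
    rw [if_neg (by simpa [h3] using h4), if_neg (by simpa using h3), h.off (by rwa [h2])]

lemma LimB.slow (h : s.LimB 𝒰 B ξ ζ) (h𝒰 : (𝒰 : Filter ℕ) ≤ atTop) {b : ℕ → T} (hb : b ∈ B)
    (Q : T) : Tendsto (fun m => s.mg b m ζ Q) (𝒰 : Filter ℕ) (𝓝 (ζ Q)) := by
  have hbr := h.br b hb
  obtain ⟨J, hsep, hJQ⟩ := ((sep_ev h.br hbr).and (eventually_ge_atTop (s.lv Q))).exists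
  have h1 : Tendsto (fun m => s.Rc J (s.mg b m ζ) Q) (𝒰 : Filter ℕ) (𝓝 (s.Rc J ζ Q)) := by
    refine tend_of_level (fun R hR => ?_) hJQ
    by_cases hRb : R = b J
    · subst hRb
      refine (h.lim (b J)).congr' ?_
      filter_upwards [h𝒰 (eventually_ge_atTop J)] with m hm
      rw [← h.node hbr hm hsep, Finset.insert_eq_of_mem (mem_nB.2 ⟨b, hb, rfl⟩)]
    · have h2 : (fun m => s.mg b m ζ R) = fun _ => ζ R := by
        ext m
        refine s.mg_off h.cohζ fun h3 => hRb ?_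
        have := hbr.eq_of_bel h3
        rwa [hR] at this
      rw [h2]
      exact tendsto_const_nhds
  rw [s.Rc_coh h.cohζ] at h1
  refine h1.congr' ?_
  filter_upwards [h𝒰 (eventually_ge_atTop J)] with m hm
  exact (mg_Rc hm b ζ hJQ).symm

/-- uniform comparison for the branches separated from `B` at level `J` -/
lemma LimB.unif (h : s.LimB 𝒰 B ξ ζ) {b : ℕ → T} (hb : s.Br b) {J m : ℕ} (hJ : J ≤ m)
    (hsep : b J ∉ nB B J) {Q : T} (hQ : s.lv Q ≤ J) :
    dist (s.mg b m ζ Q) (s.MG m (insert (b m) (nB B m)) ξ Q) ≤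
      ∑ R ∈ s.LV J, dist (ζ R) (s.MG m (nB B m) ξ R) := by
  rw [mg_Rc hJ b ζ hQ, MG_Rc hJ _ ξ hQ]
  refine (s.Rc_dist _ _ hQ).trans (Finset.sum_le_sum fun R hR => ?_)
  have hR := mem_LV.1 hR
  by_cases hRb : R = b J
  · subst hRb
    rw [h.node hb hJ fun c hc _ h2 => hsep (mem_nB.2 ⟨c, hc, h2⟩), dist_self]
    exact dist_nonneg
  · have h3 : ¬ s.Bel R (b m) := by
      intro h3
      have := hb.eq_of_bel h3
      rw [hR] at this
      exact hRb this
    rw [s.mg_off h.cohζ h3, MG_insert_off (by rw [hR]; exact hJ) h3]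

end

section

variable {T : Type*} {X : T → Type*} [∀ Q, MetricSpace (X Q)] [∀ Q, CompactSpace (X Q)]
  {s : Sys T X} {P : Set (ℕ → T)} {V : Set (∀ Q, X Q)}

lemma exists_limB (hV : s.NiceU P V) {𝒰 : Ultrafilter ℕ} (h𝒰 : (𝒰 : Filter ℕ) ≤ atTop)
    {ξ : ∀ Q, X Q} (hξ : ξ ∈ V) (B : Finset (ℕ → T)) (hB : ∀ c ∈ B, s.Br c ∧ c ∈ P) :
    ∃ ζ ∈ V, s.LimB 𝒰 B ξ ζ := by
  induction B using Finset.induction_on with
  | empty =>
    refine ⟨ξ, hξ, by simp, hV.coh ξ hξ, hV.coh ξ hξ, fun Q => ?_⟩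
    have h1 : (fun m => s.MG m (nB ∅ m) ξ Q) = fun _ => ξ Q := by
      ext m
      exact MG_off (hV.coh ξ hξ) (by simp [nB])
    rw [h1]
    exact tendsto_const_nhds
  | insert b B hbB ih =>
    obtain ⟨η, hηV, hη⟩ := ih fun c hc => hB c (Finset.mem_insert_of_mem hc)
    obtain ⟨hbr, hbP⟩ := hB b (Finset.mem_insert_self _ _)
    obtain ⟨ζ, hζ⟩ := s.exists_lim b 𝒰 η
    have hζV : ζ ∈ V := hV.tb b hbP 𝒰 h𝒰 η hηV ζ hζ
    refine ⟨ζ, hζV, fun c hc => (hB c hc).1, hV.coh ξ hξ, hV.coh ζ hζV, fun Q => ?_⟩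
    obtain ⟨J, hsep, hJQ⟩ := ((sep_ev hη.br hbr).and (eventually_ge_atTop (s.lv Q))).exists
    have hne : ∀ m, nB (insert b B) m = insert (b m) (nB B m) := fun m => by
      simp [nB, Finset.image_insert]
    have h1 : Tendsto (fun m => s.Rc J (s.MG m (nB (insert b B) m) ξ) Q) (𝒰 : Filter ℕ)
        (𝓝 (s.Rc J ζ Q)) := by
      refine tend_of_level (fun R hR => ?_) hJQ
      by_cases hRb : R = b J
      · subst hRb
        refine (hζ (b J)).congr' ?_
        filter_upwards [h𝒰 (eventually_ge_atTop J)] with m hm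
        rw [hne, hη.node hbr hm hsep]
      · have h3 : ∀ m, ¬ s.Bel R (b m) := by
          intro m h3
          have := hbr.eq_of_bel h3
          rw [hR] at this
          exact hRb this
        have h4 : ζ R = η R := hbr.lim_off (hV.coh η hηV) hζ (by rwa [hR])
        rw [h4]
        refine (hη.lim R).congr' ?_
        filter_upwards [h𝒰 (eventually_ge_atTop J)] with m hm
        rw [hne, MG_insert_off (by rw [hR]; exact hm) (h3 m)]
    rw [s.Rc_coh (hV.coh ζ hζV)] at h1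
    refine h1.congr' ?_
    filter_upwards [h𝒰 (eventually_ge_atTop J)] with m hm
    exact (MG_Rc hm _ ξ hJQ).symm

end

/-! ### the counting lemma -/

section

variable {T : Type*} {X : T → Type*} [∀ Q, PseudoMetricSpace (X Q)] {s : Sys T X}

lemma card_infl {Q : T} {ε : ℝ} (hε : 0 < ε) {N : ℕ}
    (hN : ∀ (m : ℕ) (ξ : ∀ Q, X Q) (A : Finset T), s.lv Q ≤ m →
      (∀ u ∈ A, s.lv u = m ∧ s.Bel Q u) →
      (∀ u ∈ A, ε ≤ dist (s.MG m A ξ Q) (s.MG m (A.erase u) ξ Q)) → A.card ≤ N)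
    {m : ℕ} (hm : s.lv Q ≤ m) (ξ : ∀ Q, X Q) (A : Finset T) (hA : ∀ u ∈ A, s.lv u = m) :
    (A.filter fun u => ε ≤ dist (s.MG m A ξ Q) (s.MG m (A.erase u) ξ Q)).card ≤ N := by
  set A' := A.filter fun u => ε ≤ dist (s.MG m A ξ Q) (s.MG m (A.erase u) ξ Q) with hA'
  let ξ' : ∀ Q, X Q := fun R => if R ∈ A \ A' then s.o R else ξ R
  have hsub : A' ⊆ A := Finset.filter_subset _ _
  have key : ∀ C D : Finset T, (∀ R, R ∈ D ↔ R ∈ C ∨ R ∈ A \ A') → s.MG m C ξ' = s.MG m D ξ := by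
    intro C D hCD
    have : (fun Q => if Q ∈ C then s.o Q else ξ' Q) = fun Q => if Q ∈ D then s.o Q else ξ Q := by
      funext R
      by_cases h1 : R ∈ C
      · rw [if_pos h1, if_pos ((hCD R).2 (Or.inl h1))]
      · by_cases h2 : R ∈ A \ A'
        · rw [if_neg h1, if_pos ((hCD R).2 (Or.inr h2))]
          exact if_pos h2
        · rw [if_neg h1, if_neg (fun h3 => ((hCD R).1 h3).elim h1 h2)]
          exact if_neg h2
    rw [MG, MG, this]
  have e1 : s.MG m A' ξ' = s.MG m A ξ := key _ _ fun R => by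
    simp only [Finset.mem_sdiff]
    constructor
    · intro h
      by_cases h2 : R ∈ A'
      · exact Or.inl h2
      · exact Or.inr ⟨h, h2⟩
    · rintro (h | h)
      · exact hsub h
      · exact h.1
  have e2 : ∀ u ∈ A', s.MG m (A'.erase u) ξ' = s.MG m (A.erase u) ξ := fun u hu =>
    key _ _ fun R => by
      simp only [Finset.mem_sdiff, Finset.mem_erase]
      constructor
      · rintro ⟨h1, h⟩
        by_cases h2 : R ∈ A'
        · exact Or.inl ⟨h1, h2⟩
        · exact Or.inr ⟨h, h2⟩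
      · rintro (h | h)
        · exact ⟨h.1, hsub h.2⟩
        · refine ⟨?_, h.1⟩
          rintro rfl
          exact h.2 hu
  refine hN m ξ' A' hm (fun u hu => ⟨hA u (hsub hu), ?_⟩) fun u hu => ?_
  · by_contra h
    have h1 := (Finset.mem_filter.1 hu).2
    have h2 : s.MG m A ξ Q = s.MG m (A.erase u) ξ Q := by
      conv_lhs => rw [← Finset.insert_erase (hsub hu)]
      exact MG_insert_off hm h
    rw [h2, dist_self] at h1
    exact absurd h1 (not_le.2 hε)
  · rw [e1, e2 u hu]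
    exact (Finset.mem_filter.1 hu).2

/-- the nodes of level `m` of a tuple of points -/
noncomputable def nX {β : Type*} {n : ℕ} (br : β → ℕ → T) (x : Fin n → β) (m : ℕ) : Finset T :=
  Finset.univ.image fun i => br (x i) m

lemma card_infl_tuple {β : Type*} {br : β → ℕ → T} (hbr : ∀ x, s.Br (br x)) {Q : T} {ε : ℝ}
    (hε : 0 < ε) {N : ℕ}
    (hN : ∀ (m : ℕ) (ξ : ∀ Q, X Q) (A : Finset T), s.lv Q ≤ m →
      (∀ u ∈ A, s.lv u = m ∧ s.Bel Q u) →
      (∀ u ∈ A, ε ≤ dist (s.MG m A ξ Q) (s.MG m (A.erase u) ξ Q)) → A.card ≤ N)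
    {m : ℕ} (hm : s.lv Q ≤ m) (ξ : ∀ Q, X Q) {n : ℕ} (x : Fin (n + 1) → β) :
    (Finset.univ.filter fun i : Fin (n + 1) => ε ≤
      dist (s.MG m (insert (br (x i) m) (nX br (fun j => x (i.succAbove j)) m)) ξ Q)
        (s.MG m (nX br (fun j => x (i.succAbove j)) m) ξ Q)).card ≤ N := by
  have hA : ∀ u ∈ nX br x m, s.lv u = m := by
    intro u hu
    obtain ⟨i, -, rfl⟩ := Finset.mem_image.1 hu
    exact (hbr _).lv m
  refine le_trans ?_ (card_infl hε hN hm ξ (nX br x m) hA)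
  have hins : ∀ i, insert (br (x i) m) (nX br (fun j => x (i.succAbove j)) m) = nX br x m := by
    intro i
    ext u
    simp only [nX, Finset.mem_insert, Finset.mem_image, Finset.mem_univ, true_and]
    constructor
    · rintro (h | ⟨j, hj⟩)
      · exact ⟨i, h.symm⟩
      · exact ⟨_, hj⟩
    · rintro ⟨k, hk⟩
      by_cases hki : k = i
      · left
        rw [← hk, hki]
      · right
        obtain ⟨j, hj⟩ := Fin.exists_succAbove_eq hki
        exact ⟨j, by rw [hj]; exact hk⟩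
  have hnot : ∀ i ∈ (Finset.univ.filter fun i : Fin (n + 1) => ε ≤
      dist (s.MG m (insert (br (x i) m) (nX br (fun j => x (i.succAbove j)) m)) ξ Q)
        (s.MG m (nX br (fun j => x (i.succAbove j)) m) ξ Q)),
      br (x i) m ∉ nX br (fun j => x (i.succAbove j)) m := by
    intro i hi h
    have h1 := (Finset.mem_filter.1 hi).2
    rw [Finset.insert_eq_of_mem h, dist_self] at h1
    exact absurd h1 (not_le.2 hε)
  refine Finset.card_le_card_of_injOn (fun i => br (x i) m) (fun i hi => ?_) ?_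
  · have hi' : i ∈ (Finset.univ.filter fun i : Fin (n + 1) => ε ≤
      dist (s.MG m (insert (br (x i) m) (nX br (fun j => x (i.succAbove j)) m)) ξ Q)
        (s.MG m (nX br (fun j => x (i.succAbove j)) m) ξ Q)) := hi
    have h1 := (Finset.mem_filter.1 hi').2
    have h2 := hnot i hi'
    have h3 : (nX br x m).erase (br (x i) m) = nX br (fun j => x (i.succAbove j)) m := by
      rw [← hins i, Finset.erase_insert h2]
    refine Finset.mem_coe.2 (Finset.mem_filter.2 ⟨?_, ?_⟩)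
    · exact Finset.mem_image.2 ⟨i, Finset.mem_univ _, rfl⟩
    · rw [h3]
      rw [hins] at h1
      exact h1
  · intro i hi i' hi' h
    by_contra hne
    obtain ⟨j, hj⟩ := Fin.exists_succAbove_eq (Ne.symm hne)
    refine hnot i hi ?_
    refine Finset.mem_image.2 ⟨j, Finset.mem_univ _, ?_⟩
    change br (x (i.succAbove j)) m = br (x i) m
    rw [hj]
    exact h.symm

end

/-! ### exchangeability -/

section

variable {T : Type*} {X : T → Type*} [∀ Q, PseudoMetricSpace (X Q)] {s : Sys T X}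
  {β : Type*} [MeasurableSpace β] {μ : Measure β} [IsFiniteMeasure μ] {br : β → ℕ → T}

lemma countable_T (s : Sys T X) : Countable T := by
  have h : (univ : Set T) = ⋃ n, {Q : T | s.lv Q = n} := by
    ext Q
    simp
  rw [← Set.countable_univ_iff, h]
  exact Set.countable_iUnion fun n => (s.finite_level_eq n).countable

/-- `y` is influential for the tree merged along `z` -/
def InF (s : Sys T X) (br : β → ℕ → T) (ξ : ∀ Q, X Q) (Q : T) (ε : ℝ) (m : ℕ) {n : ℕ}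
    (p : β × (Fin n → β)) : Prop :=
  ε ≤ dist (s.MG m (insert (br p.1 m) (nX br p.2 m)) ξ Q) (s.MG m (nX br p.2 m) ξ Q)

lemma measurable_InF (hm : ∀ k Q, MeasurableSet {x | br x k = Q}) (s : Sys T X)
    (ξ : ∀ Q, X Q) (Q : T) (ε : ℝ) (m n : ℕ) :
    MeasurableSet {p : β × (Fin n → β) | s.InF br ξ Q ε m p} := by
  have : Countable T := s.countable_T
  let _ : MeasurableSpace T := ⊤
  have h1 : Measurable fun x : β => br x m := measurable_to_countable' fun Q => hm m Q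
  have h2 : Measurable fun p : β × (Fin n → β) => (br p.1 m, fun j => br (p.2 j) m) := by
    refine Measurable.prodMk (h1.comp measurable_fst) (measurable_pi_lambda _ fun j => ?_)
    exact h1.comp ((measurable_pi_apply j).comp measurable_snd)
  have h3 : {p : β × (Fin n → β) | s.InF br ξ Q ε m p} =
      (fun p : β × (Fin n → β) => (br p.1 m, fun j => br (p.2 j) m)) ⁻¹'
        {q : T × (Fin n → T) | ε ≤ dist (s.MG m (insert q.1 (Finset.univ.image q.2)) ξ Q)
          (s.MG m (Finset.univ.image q.2) ξ Q)} := rfl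
  rw [h3]
  exact h2 (Set.to_countable _).measurableSet

lemma lint_InF (hbr : ∀ x, s.Br (br x)) (hm : ∀ k Q, MeasurableSet {x | br x k = Q}) {Q : T}
    {ε : ℝ} (hε : 0 < ε) {N : ℕ}
    (hN : ∀ (m : ℕ) (ξ : ∀ Q, X Q) (A : Finset T), s.lv Q ≤ m →
      (∀ u ∈ A, s.lv u = m ∧ s.Bel Q u) →
      (∀ u ∈ A, ε ≤ dist (s.MG m A ξ Q) (s.MG m (A.erase u) ξ Q)) → A.card ≤ N)
    {m : ℕ} (hmQ : s.lv Q ≤ m) (ξ : ∀ Q, X Q) (n : ℕ) :
    ((n + 1 : ℕ) : ℝ≥0∞) *
      ∫⁻ z : Fin n → β, μ {y | s.InF br ξ Q ε m (y, z)} ∂(Measure.pi fun _ => μ) ≤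
      N * μ univ ^ (n + 1) := by
  set S : Set (β × (Fin n → β)) := {p | s.InF br ξ Q ε m p} with hS
  have hSm : MeasurableSet S := measurable_InF hm s ξ Q ε m n
  have hprod : (μ.prod (Measure.pi fun _ : Fin n => μ)) S =
      ∫⁻ z : Fin n → β, μ {y | s.InF br ξ Q ε m (y, z)} ∂(Measure.pi fun _ => μ) :=
    Measure.prod_apply_symm hSm
  have hB : ∀ i : Fin (n + 1), (Measure.pi fun _ : Fin (n + 1) => μ)
      {x | (x i, fun j => x (i.succAbove j)) ∈ S} =
      ∫⁻ z : Fin n → β, μ {y | s.InF br ξ Q ε m (y, z)} ∂(Measure.pi fun _ => μ) := by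
    intro i
    have h1 := measurePreserving_piFinSuccAbove (fun _ : Fin (n + 1) => μ) i
    rw [← hprod, ← h1.measure_preimage hSm.nullMeasurableSet]
    rfl
  have hBm : ∀ i : Fin (n + 1), MeasurableSet
      {x : Fin (n + 1) → β | (x i, fun j => x (i.succAbove j)) ∈ S} := by
    intro i
    refine hSm.preimage (Measurable.prodMk (measurable_pi_apply i)
      (measurable_pi_lambda _ fun j => measurable_pi_apply _))
  calc ((n + 1 : ℕ) : ℝ≥0∞) *
      ∫⁻ z : Fin n → β, μ {y | s.InF br ξ Q ε m (y, z)} ∂(Measure.pi fun _ => μ)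
      = ∑ i : Fin (n + 1), (Measure.pi fun _ : Fin (n + 1) => μ)
          {x | (x i, fun j => x (i.succAbove j)) ∈ S} := by
        rw [Finset.sum_congr rfl fun i _ => hB i, Finset.sum_const, Finset.card_univ,
          Fintype.card_fin, nsmul_eq_mul]
    _ = ∑ i : Fin (n + 1), ∫⁻ x, {x : Fin (n + 1) → β |
          (x i, fun j => x (i.succAbove j)) ∈ S}.indicator 1 x
            ∂(Measure.pi fun _ : Fin (n + 1) => μ) := by
        refine Finset.sum_congr rfl fun i _ => ?_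
        rw [lintegral_indicator_one (hBm i)]
    _ = ∫⁻ x, ∑ i : Fin (n + 1), {x : Fin (n + 1) → β |
          (x i, fun j => x (i.succAbove j)) ∈ S}.indicator 1 x
            ∂(Measure.pi fun _ : Fin (n + 1) => μ) := by
        rw [lintegral_finsetSum _ fun i _ => measurable_one.indicator (hBm i)]
    _ ≤ ∫⁻ _x, (N : ℝ≥0∞) ∂(Measure.pi fun _ : Fin (n + 1) => μ) := by
        refine lintegral_mono fun x => ?_
        have h1 : (∑ i : Fin (n + 1), {x : Fin (n + 1) → β |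
          (x i, fun j => x (i.succAbove j)) ∈ S}.indicator (1 : (Fin (n + 1) → β) → ℝ≥0∞) x) =
          ((Finset.univ.filter fun i : Fin (n + 1) => ε ≤
            dist (s.MG m (insert (br (x i) m) (nX br (fun j => x (i.succAbove j)) m)) ξ Q)
              (s.MG m (nX br (fun j => x (i.succAbove j)) m) ξ Q)).card : ℝ≥0∞) := by
          rw [Finset.card_filter, Nat.cast_sum]
          refine Finset.sum_congr rfl fun i _ => ?_
          by_cases h2 : ε ≤
            dist (s.MG m (insert (br (x i) m) (nX br (fun j => x (i.succAbove j)) m)) ξ Q)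
              (s.MG m (nX br (fun j => x (i.succAbove j)) m) ξ Q)
          · rw [if_pos h2, Set.indicator_of_mem (show x ∈ {x : Fin (n + 1) → β |
              (x i, fun j => x (i.succAbove j)) ∈ S} from h2)]
            simp
          · rw [if_neg h2, Set.indicator_of_notMem (show x ∉ {x : Fin (n + 1) → β |
              (x i, fun j => x (i.succAbove j)) ∈ S} from h2)]
            simp
        change (∑ i : Fin (n + 1), {x : Fin (n + 1) → β |
          (x i, fun j => x (i.succAbove j)) ∈ S}.indicator (1 : (Fin (n + 1) → β) → ℝ≥0∞) x) ≤ N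
        rw [h1]
        exact_mod_cast card_infl_tuple hbr hε hN hmQ ξ x
    _ = N * μ univ ^ (n + 1) := by
        rw [lintegral_const, Measure.pi_univ]
        simp

end

end Vale.Agent.P116.Slow.Sys

namespace Vale.Agent.P116.Ms

open Slow Slow.Sys

theorem ab1 : AB1 := by
  intro T X _ _ s β _ μ _ br hbr hmeas hCnt V hV F ε hε k₀
  obtain ⟨ξ, hξ⟩ := hV.nonempty
  by_cases hμ : μ = 0
  · exact ⟨ξ, hξ, k₀, fun Q _ => by simp [hμ]⟩
  have hμu : μ univ ≠ 0 := by simpa using hμ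
  have hμt : μ univ ≠ ∞ := measure_ne_top _ _
  choose N hN using fun Q => hCnt Q (ε / 2) (by positivity)
  set δ : ℝ≥0∞ := ENNReal.ofReal (ε / 2) with hδ
  have hδ0 : δ ≠ 0 := by
    rw [hδ, Ne, ENNReal.ofReal_eq_zero, not_le]
    positivity
  obtain ⟨n, hn⟩ := ENNReal.exists_nat_mul_gt hδ0
    (ENNReal.mul_ne_top (ENNReal.natCast_ne_top (∑ Q ∈ F, N Q)) hμt)
  -- the functions
  let f : ℕ → (Fin n → β) → ℝ≥0∞ := fun m z =>
    ∑ Q ∈ F, μ {y | s.InF br ξ Q (ε / 2) m (y, z)}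
  have hfm : ∀ m, Measurable (f m) := fun m => by
    refine Finset.measurable_sum _ fun Q _ => ?_
    exact measurable_measure_prodMk_right (measurable_InF hmeas s ξ Q (ε / 2) m n)
  have hint : ∀ m, (∀ Q ∈ F, s.lv Q ≤ m) → ((n + 1 : ℕ) : ℝ≥0∞) *
      ∫⁻ z, f m z ∂(Measure.pi fun _ => μ) ≤ (∑ Q ∈ F, N Q : ℕ) * μ univ ^ (n + 1) := by
    intro m hm
    have h1 : ∫⁻ z, f m z ∂(Measure.pi fun _ => μ) =
        ∑ Q ∈ F, ∫⁻ z : Fin n → β, μ {y | s.InF br ξ Q (ε / 2) m (y, z)}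
          ∂(Measure.pi fun _ => μ) :=
      lintegral_finsetSum _ fun Q _ =>
        measurable_measure_prodMk_right (measurable_InF hmeas s ξ Q (ε / 2) m n)
    rw [h1, Finset.mul_sum, Nat.cast_sum, Finset.sum_mul]
    exact Finset.sum_le_sum fun Q hQ =>
      lint_InF hbr hmeas (by positivity) (hN Q) (hm Q hQ) ξ n
  have hlvF : ∀ᶠ m in atTop, ∀ Q ∈ F, s.lv Q ≤ m :=
    (Filter.eventually_all_finset F).2 fun Q _ => eventually_ge_atTop _
  -- Fatou
  obtain ⟨z, hz⟩ : ∃ z : Fin n → β, ∃ᶠ m in atTop, f m z < δ := by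
    by_contra hcon
    push Not at hcon
    have h1 : ∀ z : Fin n → β, δ ≤ liminf (fun m => f m z) atTop := fun z => by
      refine le_liminf_of_le (by isBoundedDefault) ?_
      filter_upwards [hcon z] with m hm using hm
    have h2 : δ * μ univ ^ n ≤ ∫⁻ z, liminf (fun m => f m z) atTop ∂(Measure.pi fun _ => μ) := by
      refine le_trans (le_of_eq ?_) (lintegral_mono h1)
      rw [lintegral_const, Measure.pi_univ]
      simp
    have h3 := h2.trans (lintegral_liminf_le hfm)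
    have h4 : liminf (fun m => ∫⁻ z, f m z ∂(Measure.pi fun _ => μ)) atTop ≤
        (∑ Q ∈ F, N Q : ℕ) * μ univ ^ (n + 1) / ((n + 1 : ℕ) : ℝ≥0∞) := by
      refine liminf_le_of_frequently_le' (Filter.Eventually.frequently ?_)
      filter_upwards [hlvF] with m hm
      rw [ENNReal.le_div_iff_mul_le (Or.inl (by simp)) (Or.inl (ENNReal.natCast_ne_top _)),
        mul_comm]
      exact hint m hm
    have h5 := h3.trans h4
    rw [ENNReal.le_div_iff_mul_le (Or.inl (by simp)) (Or.inl (ENNReal.natCast_ne_top _))] at h5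
    have h6 : (δ * ((n + 1 : ℕ) : ℝ≥0∞)) * μ univ ^ n ≤
        ((∑ Q ∈ F, N Q : ℕ) * μ univ) * μ univ ^ n := by
      calc (δ * ((n + 1 : ℕ) : ℝ≥0∞)) * μ univ ^ n = δ * μ univ ^ n * ((n + 1 : ℕ) : ℝ≥0∞) := by
            ring
        _ ≤ _ := h5
        _ = _ := by ring
    have h7 : δ * ((n + 1 : ℕ) : ℝ≥0∞) ≤ (∑ Q ∈ F, N Q : ℕ) * μ univ :=
      (ENNReal.mul_le_mul_iff_left (pow_ne_zero n hμu) (ENNReal.pow_ne_top hμt)).1 h6
    have h8 : (n : ℝ≥0∞) * δ ≤ δ * ((n + 1 : ℕ) : ℝ≥0∞) := by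
      rw [mul_comm]
      gcongr
      exact Nat.le_succ n
    exact absurd (h8.trans h7) (not_le.2 hn)
  -- the ultrafilter
  have hNB : (atTop ⊓ 𝓟 {m | f m z < δ} : Filter ℕ).NeBot := Filter.frequently_mem_iff_neBot.1 hz
  set 𝒰 : Ultrafilter ℕ := Ultrafilter.of (atTop ⊓ 𝓟 {m | f m z < δ}) with h𝒰def
  have h𝒰1 : (𝒰 : Filter ℕ) ≤ atTop ⊓ 𝓟 {m | f m z < δ} := Ultrafilter.of_le _
  have h𝒰 : (𝒰 : Filter ℕ) ≤ atTop := h𝒰1.trans inf_le_left
  have h𝒰f : ∀ᶠ m in (𝒰 : Filter ℕ), f m z < δ := h𝒰1.trans inf_le_right (by simp)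
  set B : Finset (ℕ → T) := Finset.univ.image fun i => br (z i) with hBdef
  have hnB : ∀ m, nB B m = nX br z m := fun m => by
    rw [nB, hBdef, Finset.image_image]
    rfl
  obtain ⟨ζ, hζV, hζ⟩ := exists_limB hV h𝒰 hξ B fun c hc => by
    obtain ⟨i, -, rfl⟩ := Finset.mem_image.1 hc
    exact ⟨hbr _, mem_range_self _⟩
  -- the measure of the branches which are not separated
  have hmeas2 : ∀ c : ℕ → T, MeasurableSet {y | br y = c} := fun c => by
    have : {y | br y = c} = ⋂ k, {y | br y k = c k} := by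
      ext y
      simp [funext_iff]
    rw [this]
    exact MeasurableSet.iInter fun k => hmeas k _
  have hsm : ∀ c ∈ B, Tendsto (fun J => μ {y | br y J = c J ∧ br y ≠ c}) atTop (𝓝 0) := by
    intro c hc
    have h1 := tendsto_measure_iInter_atTop (μ := μ)
      (s := fun J => {y | br y J = c J ∧ br y ≠ c})
      (fun J => ((hmeas J _).inter (hmeas2 c).compl).nullMeasurableSet)
      (fun J J' hJJ' y hy => ⟨(hbr y).agree (hζ.br c hc) hJJ' hy.1, hy.2⟩)
      ⟨0, measure_ne_top _ _⟩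
    have h2 : (⋂ J, {y | br y J = c J ∧ br y ≠ c}) = ∅ := by
      ext y
      simp only [mem_iInter, mem_ofPred_eq, mem_empty_iff_false, iff_false, not_forall]
      by_cases h3 : br y = c
      · exact ⟨0, fun h4 => h4.2 h3⟩
      · obtain ⟨j, hj⟩ := Function.ne_iff.1 h3
        exact ⟨j, fun h4 => hj h4.1⟩
    rw [h2, measure_empty] at h1
    exact h1
  have hsum : ∀ᶠ J in atTop, ∑ c ∈ B, μ {y | br y J = c J ∧ br y ≠ c} < δ := by
    have h1 : Tendsto (fun J => ∑ c ∈ B, μ {y | br y J = c J ∧ br y ≠ c}) atTop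
        (𝓝 (∑ _c ∈ B, 0)) := tendsto_finsetSum _ hsm
    rw [Finset.sum_const_zero] at h1
    exact h1.eventually (gt_mem_nhds (pos_iff_ne_zero.2 hδ0))
  obtain ⟨J, hJ1, hJ2⟩ := (hsum.and hlvF).exists
  -- the level
  have hcl : ∀ᶠ m in (𝒰 : Filter ℕ), ∀ Q ∈ F,
      dist (ζ Q) (s.MG m (nB B m) ξ Q) +
        ∑ R ∈ s.LV J, dist (ζ R) (s.MG m (nB B m) ξ R) < ε / 2 := by
    rw [Filter.eventually_all_finset]
    intro Q hQ
    have h0 : ∀ R, Tendsto (fun m => dist (ζ R) (s.MG m (nB B m) ξ R)) (𝒰 : Filter ℕ) (𝓝 0) := by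
      intro R
      have h1 := (tendsto_const_nhds (x := ζ R)).dist (hζ.lim R)
      rwa [dist_self] at h1
    have h1 : Tendsto (fun m => dist (ζ Q) (s.MG m (nB B m) ξ Q) +
        ∑ R ∈ s.LV J, dist (ζ R) (s.MG m (nB B m) ξ R)) (𝒰 : Filter ℕ)
        (𝓝 (0 + ∑ _R ∈ s.LV J, 0)) := (h0 Q).add (tendsto_finsetSum _ fun R _ => h0 R)
    rw [Finset.sum_const_zero, add_zero] at h1
    exact h1.eventually (gt_mem_nhds (by positivity))
  have hsl : ∀ᶠ m in (𝒰 : Filter ℕ), ∀ Q ∈ F, ∀ c ∈ B, dist (ζ Q) (s.mg c m ζ Q) < ε := by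
    rw [Filter.eventually_all_finset]
    intro Q hQ
    rw [Filter.eventually_all_finset]
    intro c hc
    have h1 := (tendsto_const_nhds (x := ζ Q)).dist (hζ.slow h𝒰 hc Q)
    rw [dist_self] at h1
    exact h1.eventually (gt_mem_nhds hε)
  have hgJ : ∀ᶠ m in (𝒰 : Filter ℕ), J ≤ m := h𝒰 (eventually_ge_atTop J)
  have hgk : ∀ᶠ m in (𝒰 : Filter ℕ), k₀ ≤ m := h𝒰 (eventually_ge_atTop k₀)
  obtain ⟨m, hmf, hmJ, hmk, hmc, hms⟩ := (h𝒰f.and (hgJ.and (hgk.and (hcl.and hsl)))).exists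
  refine ⟨ζ, hζV, m, fun Q hQ => ?_⟩
  have hsub : badS s br ζ Q ε k₀ m ⊆
      {y | s.InF br ξ Q (ε / 2) m (y, z)} ∪ ⋃ c ∈ B, {y | br y J = c J ∧ br y ≠ c} := by
    intro y hy
    have hy1 : ε ≤ dist (ζ Q) (s.mg (br y) m ζ Q) := hy m hmk le_rfl
    by_cases hsep : br y J ∈ nB B J
    · right
      obtain ⟨c, hc, hcJ⟩ := mem_nB.1 hsep
      refine mem_iUnion₂.2 ⟨c, hc, hcJ.symm, fun h1 => ?_⟩
      rw [h1] at hy1
      exact absurd hy1 (not_le.2 (hms Q hQ c hc))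
    · left
      have h1 := hζ.unif (hbr y) hmJ hsep (hJ2 Q hQ)
      have h2 := hmc Q hQ
      have h3 := dist_triangle (ζ Q) (s.MG m (nB B m) ξ Q) (s.mg (br y) m ζ Q)
      have h4 := dist_triangle (s.MG m (nB B m) ξ Q)
        (s.MG m (insert (br y m) (nB B m)) ξ Q) (s.mg (br y) m ζ Q)
      rw [dist_comm (s.MG m (insert (br y m) (nB B m)) ξ Q) (s.mg (br y) m ζ Q)] at h4
      change ε / 2 ≤ dist (s.MG m (insert (br y m) (nX br z m)) ξ Q) (s.MG m (nX br z m) ξ Q)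
      rw [← hnB, dist_comm]
      linarith
  refine (measure_mono hsub).trans ((measure_union_le _ _).trans ?_)
  have h1 : μ {y | s.InF br ξ Q (ε / 2) m (y, z)} ≤ δ := by
    refine le_trans ?_ hmf.le
    exact Finset.single_le_sum (f := fun Q => μ {y | s.InF br ξ Q (ε / 2) m (y, z)})
      (fun _ _ => zero_le) hQ
  have h2 : μ (⋃ c ∈ B, {y | br y J = c J ∧ br y ≠ c}) ≤ δ :=
    (measure_biUnion_finset_le _ _).trans hJ1.le
  refine (add_le_add h1 h2).trans (le_of_eq ?_)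
  rw [hδ, ← ENNReal.ofReal_add (by positivity) (by positivity), add_halves]

end Vale.Agent.P116.Ms
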