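import Vale.Agent.P116.Ms.AbsU

/-!
Almost every branch is slow for one coherent tree: closure and Baire.
-/

open Set Filter Topology Metric MeasureTheory
open scoped Classical ENNReal

namespace Vale.Agent.P116.Ms

open Slow Slow.Sys

section

variable {T : Type} {X : T → Type} [∀ Q, MetricSpace (X Q)] [∀ Q, CompactSpace (X Q)]
  {s : Sys T X} {β : Type} [MeasurableSpace β] {μ : Measure β}
  {br : β → ℕ → T}

omit [∀ Q, CompactSpace (X Q)] in
lemma mg_eq_of {b b' : ℕ → T} {k : ℕ} (h : b k = b' k) (ζ : ∀ Q, X Q) :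
    s.mg b k ζ = s.mg b' k ζ := by
  unfold mg
  rw [h]

omit [∀ Q, CompactSpace (X Q)] [MeasurableSpace β] in
lemma badS_mono {ζ : ∀ Q, X Q} {Q : T} {ε ε' : ℝ} {k₀ k₀' k₁ k₁' : ℕ} (hε : ε' ≤ ε)
    (h0 : k₀ ≤ k₀') (h1 : k₁' ≤ k₁) : badS s br ζ Q ε k₀ k₁ ⊆ badS s br ζ Q ε' k₀' k₁' :=
  fun _ hx k hk hk' => hε.trans (hx k (h0.trans hk) (hk'.trans h1))

omit [∀ Q, CompactSpace (X Q)] in
lemma measurableSet_badS (hbr : ∀ x, s.Br (br x)) (hmeas : ∀ k Q, MeasurableSet {x | br x k = Q})
    (ζ : ∀ Q, X Q) (Q : T) (ε : ℝ) (k₀ k₁ : ℕ) : MeasurableSet (badS s br ζ Q ε k₀ k₁) := by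
  have h : badS s br ζ Q ε k₀ k₁ = ⋂ k ∈ Set.Icc k₀ k₁, ⋃ v ∈ {v : T | s.lv v = k ∧
      ε ≤ dist (ζ Q) (s.mg (fun _ => v) k ζ Q)}, {x | br x k = v} := by
    ext x
    simp only [badS, Set.mem_ofPred_eq, Set.mem_iInter, Set.mem_iUnion, Set.mem_Icc]
    constructor
    · intro hx k hk
      refine ⟨br x k, ⟨(hbr x).lv k, ?_⟩, rfl⟩
      rw [mg_eq_of (b := fun _ => br x k) (b' := br x) rfl]
      exact hx k hk.1 hk.2
    · intro hx k hk hk'
      obtain ⟨v, ⟨-, hv⟩, hxv⟩ := hx k ⟨hk, hk'⟩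
      rw [mg_eq_of (b' := fun _ => v) hxv]
      exact hv
  rw [h]
  refine MeasurableSet.biInter (Set.to_countable _) fun k _ => ?_
  refine MeasurableSet.biUnion ?_ fun v _ => hmeas k v
  exact ((s.finite_level_eq k).subset fun v hv => hv.1).countable

omit [∀ Q, CompactSpace (X Q)] [MeasurableSpace β] in
lemma eventually_badS (hbr : ∀ x, s.Br (br x)) (ζ₀ : ∀ Q, X Q) (Q : T) (ε : ℝ) (k₀ k₁ : ℕ) :
    ∀ᶠ ζ in 𝓝 ζ₀, badS s br ζ Q ε k₀ k₁ ⊆ badS s br ζ₀ Q ε k₀ k₁ := by
  have h1 : ∀ᶠ ζ in 𝓝 ζ₀, ∀ k ∈ Finset.Icc k₀ k₁, ∀ v ∈ (s.finite_level_eq k).toFinset,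
      dist (ζ₀ Q) (s.mg (fun _ => v) k ζ₀ Q) < ε → dist (ζ Q) (s.mg (fun _ => v) k ζ Q) < ε := by
    refine (Filter.eventually_all_finset _).2 fun k _ => (Filter.eventually_all_finset _).2
      fun v _ => ?_
    by_cases h : dist (ζ₀ Q) (s.mg (fun _ => v) k ζ₀ Q) < ε
    · have h2 : Continuous fun ζ : ∀ Q, X Q => dist (ζ Q) (s.mg (fun _ => v) k ζ Q) :=
        (continuous_apply Q).dist ((continuous_apply Q).comp (s.continuous_mg (fun _ => v) k))
      filter_upwards [h2.continuousAt.eventually (gt_mem_nhds h)] with ζ hζ _ using hζ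
    · exact Eventually.of_forall fun ζ h' => absurd h' h
  filter_upwards [h1] with ζ hζ x hx k hk hk'
  by_contra hcon
  rw [not_le] at hcon
  have h2 := hζ k (Finset.mem_Icc.2 ⟨hk, hk'⟩) (br x k)
    (by rw [Set.Finite.mem_toFinset]; exact (hbr x).lv k)
  rw [mg_eq_of (b := fun _ => br x k) (b' := br x) rfl,
    mg_eq_of (b := fun _ => br x k) (b' := br x) rfl] at h2
  exact absurd (hx k hk hk') (not_le.2 (h2 hcon))

/-- trees which are good up to `1 / (n + 1)` at all the nodes of level at most `n` -/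
def Wg (s : Sys T X) (br : β → ℕ → T) (μ : Measure β) (n : ℕ) : Set (∀ Q, X Q) :=
  {ζ | ∀ Q, s.lv Q ≤ n → ∃ k₁, μ (badS s br ζ Q (1 / ((n:ℝ) + 1)) n k₁) <
    ENNReal.ofReal (1 / ((n:ℝ) + 1))}

omit [∀ Q, CompactSpace (X Q)] in
lemma isOpen_Wg (hbr : ∀ x, s.Br (br x)) (n : ℕ) : IsOpen (Wg s br μ n) := by
  have h : Wg s br μ n = ⋂ Q ∈ {Q : T | s.lv Q ≤ n}, ⋃ k₁, {ζ | μ (badS s br ζ Q
      (1 / ((n:ℝ) + 1)) n k₁) < ENNReal.ofReal (1 / ((n:ℝ) + 1))} := by
    ext ζ
    simp [Wg]
  rw [h]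
  refine (s.finite_level_le n).isOpen_biInter fun Q _ => isOpen_iUnion fun k₁ => ?_
  rw [isOpen_iff_mem_nhds]
  intro ζ₀ h0
  filter_upwards [eventually_badS hbr ζ₀ Q (1 / ((n:ℝ) + 1)) n k₁] with ζ hζ
  exact (measure_mono hζ).trans_lt h0

omit [∀ Q, CompactSpace (X Q)] in
lemma Wg_anti {n n' : ℕ} (h : n ≤ n') : Wg s br μ n' ⊆ Wg s br μ n := by
  intro ζ hζ Q hQ
  obtain ⟨k₁, hk₁⟩ := hζ Q (hQ.trans h)
  have h1 : (n:ℝ) ≤ n' := by exact_mod_cast h
  have h2 : 1 / ((n':ℝ) + 1) ≤ 1 / ((n:ℝ) + 1) := by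
    apply one_div_le_one_div_of_le (by positivity)
    linarith
  refine ⟨k₁, (measure_mono (badS_mono h2 h le_rfl)).trans_lt (hk₁.trans_le ?_)⟩
  exact ENNReal.ofReal_le_ofReal h2

omit [∀ Q, CompactSpace (X Q)] [MeasurableSpace β] in
/-- effects depend only on the part below -/
lemma eff_congr {τ τ' : ∀ Q, X Q} {S : T} {x : β} {k : ℕ}
    (hk : s.lv S ≤ k) (h : ∀ S', s.Bel S S' → τ S' = τ' S') :
    dist (τ S) (s.mg (br x) k τ S) = dist (τ' S) (s.mg (br x) k τ' S) := by
  rw [h S (s.bel_refl S), s.mg_congr hk fun Q' h1 _ _ => h Q' h1]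

omit [∀ Q, CompactSpace (X Q)] in
/-- splicing -/
lemma sp_Wg (hbr : ∀ x, s.Br (br x)) (n : ℕ) (Q : T) : ∃ n' ≥ n, ∀ η ξ : ∀ Q, X Q, s.Coh η →
    s.Coh ξ → η ∈ Wg s br μ n' → ξ ∈ Wg s br μ n' → s.sp Q η ξ ∈ Wg s br μ n := by
  set l := max n (s.lv Q) with hl
  set C := (s.finite_level_eq l).toFinset with hC
  set n' := (C.card + 1) * (n + 1) + l with hn'
  have hnn' : n ≤ n' := by
    have : n ≤ l := le_max_left _ _
    omega
  have hln' : l ≤ n' := by omega
  refine ⟨n', hnn', fun η ξ hη hξ hηW hξW R hR => ?_⟩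
  have hcoh := s.sp_coh (Q := Q) hη hξ
  set τ : T → ∀ Q, X Q := fun S => if s.Bel Q S then η else ξ with hτ
  have hτW : ∀ S, τ S ∈ Wg s br μ n' := by
    intro S
    simp only [hτ]
    split_ifs
    · exact hηW
    · exact hξW
  have hex : ∀ S, ∃ k, s.lv S = l → μ (badS s br (τ S) S (1 / ((n':ℝ) + 1)) n' k) <
      ENNReal.ofReal (1 / ((n':ℝ) + 1)) := by
    intro S
    by_cases h : s.lv S = l
    · obtain ⟨k, hk⟩ := hτW S S (by omega)
      exact ⟨k, fun _ => hk⟩
    · exact ⟨0, fun h' => absurd h' h⟩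
  choose kS hkS using hex
  set k₁ := l + ∑ S ∈ C, kS S with hk₁
  have hk₁S : ∀ S ∈ C, kS S ≤ k₁ := by
    intro S hS
    have := Finset.single_le_sum (f := kS) (fun _ _ => Nat.zero_le _) hS
    omega
  have hεε : 1 / ((n':ℝ) + 1) ≤ 1 / ((n:ℝ) + 1) := by
    apply one_div_le_one_div_of_le (by positivity)
    have : (n:ℝ) ≤ n' := by exact_mod_cast hnn'
    linarith
  have hε0 : (0:ℝ) < 1 / ((n:ℝ) + 1) := by positivity
  have hsub : badS s br (s.sp Q η ξ) R (1 / ((n:ℝ) + 1)) n k₁ ⊆
      ⋃ S ∈ C, badS s br (τ S) S (1 / ((n':ℝ) + 1)) n' (kS S) := by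
    intro x hx
    have hnl : n ≤ l := le_max_left _ _
    have hSC : br x l ∈ C := by
      rw [hC, Set.Finite.mem_toFinset]
      exact (hbr x).lv l
    refine mem_iUnion₂.2 ⟨br x l, hSC, ?_⟩
    have hbelR : s.Bel R (br x l) := by
      by_contra hcon
      have h1 := hx l hnl (by omega)
      rw [s.mg_off hcoh hcon, dist_self] at h1
      linarith
    have hRe : R = br x (s.lv R) := (hbr x).eq_of_bel hbelR
    have hRl : s.lv R ≤ l := by omega
    intro k hk hk'
    have hlk : l ≤ k := hln'.trans hk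
    have h1 := hx k (hnn'.trans hk) (hk'.trans (hk₁S _ hSC))
    have h2 := (hbr x).eff_mono hcoh hRl hlk
    rw [← hRe] at h2
    have h3 : dist (s.sp Q η ξ (br x l)) (s.mg (br x) k (s.sp Q η ξ) (br x l)) =
        dist (τ (br x l) (br x l)) (s.mg (br x) k (τ (br x l)) (br x l)) := by
      refine eff_congr (by rw [(hbr x).lv]; exact hlk) fun S' hS' => ?_
      simp only [hτ]
      have hlS := s.bel_lv hS'
      rw [(hbr x).lv] at hlS
      have hQl : s.lv Q ≤ l := le_max_right _ _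
      split_ifs with hb
      · exact s.sp_bel _ _ (s.bel_trans hb hS')
      · refine s.sp_ge _ _ (hQl.trans hlS) fun h6 => hb ?_
        rcases s.bel_total h6 hS' with h7 | h7
        · exact h7
        · have h8 := s.bel_lv h7
          rw [(hbr x).lv] at h8
          rw [s.bel_eq_of_lv h7 (by rw [(hbr x).lv]; omega)]
          exact s.bel_refl _
    rw [← h3]
    linarith
  refine ⟨k₁, (measure_mono hsub).trans_lt ?_⟩
  refine (measure_biUnion_finset_le _ _).trans_lt ?_
  have h1 : ∑ S ∈ C, μ (badS s br (τ S) S (1 / ((n':ℝ) + 1)) n' (kS S)) ≤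
      ∑ _S ∈ C, ENNReal.ofReal (1 / ((n':ℝ) + 1)) := by
    refine Finset.sum_le_sum fun S hS => (hkS S ?_).le
    rw [hC, Set.Finite.mem_toFinset] at hS
    exact hS
  refine h1.trans_lt ?_
  rw [Finset.sum_const, nsmul_eq_mul, ← ENNReal.ofReal_natCast, ← ENNReal.ofReal_mul (by positivity)]
  rw [ENNReal.ofReal_lt_ofReal_iff hε0]
  rw [mul_one_div, div_lt_div_iff₀ (by positivity) (by positivity), one_mul]
  have : (n' : ℝ) = (C.card + 1) * (n + 1) + l := by rw [hn']; push_cast; ring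
  rw [this]
  have h3 : (0:ℝ) ≤ l := Nat.cast_nonneg _
  have h4 : (0:ℝ) ≤ n := Nat.cast_nonneg _
  nlinarith

omit [∀ Q, CompactSpace (X Q)] in
/-- the branches which leave `b` late have small measure -/
lemma exists_late [IsFiniteMeasure μ] (hbr : ∀ x, s.Br (br x))
    (hmeas : ∀ k Q, MeasurableSet {x | br x k = Q})
    {b : ℕ → T} (hb : s.Br b) {e : ℝ≥0∞} (he : 0 < e) :
    ∃ J, μ {x | br x (J + 1) = b (J + 1) ∧ br x ≠ b} < e := by
  set A : ℕ → Set β := fun J => {x | br x (J + 1) = b (J + 1) ∧ br x ≠ b} with hA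
  have hm0 : MeasurableSet {x | br x = b} := by
    have : {x | br x = b} = ⋂ k, {x | br x k = b k} := by
      ext x
      simp only [Set.mem_ofPred_eq, Set.mem_iInter]
      exact funext_iff
    rw [this]
    exact MeasurableSet.iInter fun k => hmeas k _
  have hm : ∀ J, MeasurableSet (A J) := fun J => (hmeas _ _).inter hm0.compl
  have hanti : Antitone A := by
    refine antitone_nat_of_succ_le fun J x hx => ⟨?_, hx.2⟩
    have h1 : s.Bel (br x (J + 1)) (b (J + 1 + 1)) := by
      rw [← hx.1]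
      exact (hbr x).bel (Nat.le_succ _)
    have h2 := hb.eq_of_bel h1
    rwa [(hbr x).lv] at h2
  have hinter : ⋂ J, A J = ∅ := by
    rw [Set.eq_empty_iff_forall_notMem]
    intro x hx
    rw [Set.mem_iInter] at hx
    refine (hx 0).2 (funext fun k => ?_)
    cases k with
    | zero => rw [(hbr x).1, hb.1]
    | succ k => exact (hx k).1
  have h1 := tendsto_measure_iInter_atTop (μ := μ) (fun J => (hm J).nullMeasurableSet) hanti
    ⟨0, measure_ne_top _ _⟩
  rw [hinter, measure_empty] at h1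
  exact (h1.eventually (gt_mem_nhds he)).exists

/-- the key closure property -/
theorem closure_Wg [IsFiniteMeasure μ] (hbr : ∀ x, s.Br (br x))
    (hmeas : ∀ k Q, MeasurableSet {x | br x k = Q}) {V : Set (∀ Q, X Q)}
    (hV : s.NiceU (range br) V) (hne : ∀ n, (V ∩ Wg s br μ n).Nonempty) :
    s.NiceU (range br) (⋂ n, closure (V ∩ Wg s br μ n)) := by
  have hsub : (⋂ n, closure (V ∩ Wg s br μ n)) ⊆ V := fun ξ hξ =>
    closure_minimal inter_subset_left hV.closed (mem_iInter.1 hξ 0)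
  refine ⟨isClosed_iInter fun n => isClosed_closure, ?_, fun ξ hξ => hV.coh ξ (hsub hξ), ?_, ?_⟩
  · refine IsCompact.nonempty_iInter_of_sequence_nonempty_isCompact_isClosed _
      (fun n => closure_mono (inter_subset_inter_right _ (Wg_anti (Nat.le_succ n))))
      (fun n => (hne n).closure) ?_ (fun n => isClosed_closure)
    exact isClosed_closure.isCompact
  · intro Q η hη ξ hξ
    rw [mem_iInter]
    intro n
    obtain ⟨n', -, hn'⟩ := sp_Wg (μ := μ) hbr n Q
    refine map_mem_closure₂ (f := s.sp Q) (s.continuous_sp Q) (mem_iInter.1 hη n')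
      (mem_iInter.1 hξ n') ?_
    rintro η' ⟨h1, h2⟩ ξ' ⟨h3, h4⟩
    exact ⟨hV.splice _ _ h1 _ h3, hn' η' ξ' (hV.coh _ h1) (hV.coh _ h3) h2 h4⟩
  · rintro b ⟨x₀, rfl⟩ 𝒰 h𝒰 ξ hξ η hη
    have hb := hbr x₀
    have hξV := hsub hξ
    have hξc := hV.coh ξ hξV
    rw [mem_iInter]
    intro n
    refine mem_closure_of_near fun F ε hε => ?_
    set b := br x₀ with hbd
    obtain ⟨N, hN⟩ : ∃ N : ℕ → ℕ, ∀ j, N j =
        ((s.ch (b j)).card + 1) * ((n + 1) * 2 ^ (j + 3)) + n + j + 1 := ⟨_, fun _ => rfl⟩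
    have hNn : ∀ j, n ≤ N j := fun j => by
      have := hN j
      generalize ((s.ch (b j)).card + 1) * ((n + 1) * 2 ^ (j + 3)) = M at this
      omega
    have hNj : ∀ j, j + 1 ≤ N j := fun j => by
      have := hN j
      generalize ((s.ch (b j)).card + 1) * ((n + 1) * 2 ^ (j + 3)) = M at this
      omega
    -- approximations
    have hex : ∀ j : ℕ, ∃ ζ ∈ V ∩ Wg s br μ (N j), ∀ Q ∈ F ∪ s.ch (b j),
        dist (ζ Q) (ξ Q) < ε / 2 ^ (j + 1) / ((s.ch (b j)).card + 1) := by
      intro j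
      exact exists_near (mem_iInter.1 hξ (N j)) _ (by positivity)
    choose ξs hξD hξs using hex
    have hξsV : ∀ j, ξs j ∈ V := fun j => (hξD j).1
    -- limit of the gluings
    obtain ⟨ζ, hζV, hζlim⟩ := hV.closed.isCompact.ultrafilter_le_nhds
      (𝒰.map (s.gl b ξs)) (by
        rw [le_principal_iff, Ultrafilter.coe_map, Filter.mem_map]
        exact Eventually.of_forall fun m => glU_mem hV hξsV m)
    have hζc := hV.coh ζ hζV
    have hζ : ∀ {j R Q'}, R ∈ s.ch (b j) → R ≠ b (j + 1) → s.Bel R Q' → ζ Q' = ξs j Q' := by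
      intro j R Q' hR hRb hQ
      have h1 : Tendsto (fun m => s.gl b ξs m Q') (𝒰 : Filter ℕ) (𝓝 (ζ Q')) :=
        ((continuous_apply Q').tendsto ζ).comp hζlim
      refine tendsto_nhds_unique h1 ?_
      refine tendsto_const_nhds.congr' ?_
      filter_upwards [h𝒰 (eventually_ge_atTop j)] with m hm
      exact (glU_sib hV hb hξsV hR hRb hQ hm).symm
    obtain ⟨τ, hτ⟩ := exists_lim (s := s) b 𝒰 ζ
    have hτV : τ ∈ V := hV.tb b ⟨x₀, rfl⟩ 𝒰 h𝒰 ζ hζV τ hτ
    have hτc := hV.coh τ hτV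
    have hτoff : ∀ {Q}, Q ≠ b (s.lv Q) → τ Q = ζ Q := fun {Q} hQ => hb.lim_off hζc hτ hQ
    have hτsib : ∀ {j R Q'}, R ∈ s.ch (b j) → R ≠ b (j + 1) → s.Bel R Q' → τ Q' = ξs j Q' := by
      intro j R Q' hR hRb hQ
      rw [hτoff (hb.sib_off' hR hRb hQ), hζ hR hRb hQ]
    refine ⟨τ, ⟨hτV, ?_⟩, ?_⟩
    · -- goodness
      intro Q hQn
      by_cases hQ : Q = b (s.lv Q)
      · -- on the branch
        set l := s.lv Q with hl
        have hd0 : (0:ℝ) < 1 / ((n:ℝ) + 1) := by positivity
        obtain ⟨Kb, hKbn, hKb⟩ : ∃ k ≥ n, dist (τ Q) (s.mg b k τ Q) < 1 / ((n:ℝ) + 1) := by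
          have h1 := (hb.lim_slow h𝒰 hζc hτ Q).eventually (Metric.ball_mem_nhds _ hd0)
          obtain ⟨k, h2, h3⟩ := (h1.and (h𝒰 (eventually_ge_atTop n))).exists
          exact ⟨k, h3, by rwa [dist_comm]⟩
        have hexK : ∀ j R, ∃ k, R ∈ s.ch (b j) → μ (badS s br (ξs j) R
            (1 / ((N j:ℝ) + 1)) (N j) k) < ENNReal.ofReal (1 / ((N j:ℝ) + 1)) := by
          intro j R
          by_cases h : R ∈ s.ch (b j)
          · have h1 : s.lv R ≤ N j := by
              rw [s.lv_ch _ _ h, hb.lv]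
              exact hNj j
            obtain ⟨k, hk⟩ := (hξD j).2 R h1
            exact ⟨k, fun _ => hk⟩
          · exact ⟨0, fun h' => absurd h' h⟩
        choose K hK using hexK
        obtain ⟨J, hJ⟩ := exists_late (μ := μ) hbr hmeas hb
          (e := ENNReal.ofReal (1 / (2 * ((n:ℝ) + 1)))) (by rw [ENNReal.ofReal_pos]; positivity)
        set k₁ := Kb + ∑ j ∈ Finset.range (J + 1), ∑ R ∈ s.ch (b j), K j R with hk₁
        have hk₁K : ∀ j ≤ J, ∀ R ∈ s.ch (b j), K j R ≤ k₁ := by
          intro j hj R hR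
          have h1 : K j R ≤ ∑ R ∈ s.ch (b j), K j R :=
            Finset.single_le_sum (f := fun R => K j R) (fun _ _ => Nat.zero_le _) hR
          have h2 : ∑ R ∈ s.ch (b j), K j R ≤
              ∑ j ∈ Finset.range (J + 1), ∑ R ∈ s.ch (b j), K j R :=
            Finset.single_le_sum (f := fun j => ∑ R ∈ s.ch (b j), K j R)
              (fun _ _ => Nat.zero_le _) (Finset.mem_range.2 (by omega))
          omega
        have hsubB : badS s br τ Q (1 / ((n:ℝ) + 1)) n k₁ ⊆
            (⋃ j ∈ Finset.range (J + 1), ⋃ R ∈ s.ch (b j), badS s br (ξs j) R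
              (1 / ((N j:ℝ) + 1)) (N j) (K j R)) ∪
            {x | br x (J + 1) = b (J + 1) ∧ br x ≠ b} := by
          intro x hx
          have hx' := hbr x
          have hbel : s.Bel Q (br x n) := by
            by_contra hcon
            have h1 := hx n le_rfl (by omega)
            rw [s.mg_off hτc hcon, dist_self] at h1
            linarith
          have hQx : Q = br x l := hx'.eq_of_bel hbel
          have hxb : br x ≠ b := by
            intro h
            have h1 := hx Kb hKbn (by omega)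
            rw [h] at h1
            linarith
          have heq : ∀ i ≤ l, br x i = b i := by
            intro i hi
            have h1 : s.Bel (br x i) (b l) := by
              rw [← hQ, hQx]
              exact hx'.bel hi
            have h2 := hb.eq_of_bel h1
            rwa [hx'.lv] at h2
          obtain ⟨j, hj1, hj2⟩ := hb.diverge hx' hxb
          have hxj : br x j = b j := s.uniq _ _ _ (hx'.2 j) hj1
          have hlj : l ≤ j := by
            by_contra hcon
            exact hj2 (heq (j + 1) (by omega))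
          by_cases hjJ : j ≤ J
          · left
            refine mem_iUnion₂.2 ⟨j, Finset.mem_range.2 (by omega), mem_iUnion₂.2 ⟨_, hj1, ?_⟩⟩
            intro k hk hk'
            have hjk : j + 1 ≤ k := (hNj j).trans hk
            have h1 := hx k ((hNn j).trans hk) (hk'.trans (hk₁K j hjJ _ hj1))
            have h2 := hx'.eff_mono hτc (l := l) (j := j + 1) (by omega) hjk
            rw [← hQx] at h2
            have h3 : dist (τ (br x (j + 1))) (s.mg (br x) k τ (br x (j + 1))) =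
                dist (ξs j (br x (j + 1))) (s.mg (br x) k (ξs j) (br x (j + 1))) :=
              eff_congr (by rw [hx'.lv]; exact hjk) fun S' hS' => hτsib hj1 hj2 hS'
            rw [← h3]
            have h4 : 1 / ((N j:ℝ) + 1) ≤ 1 / ((n:ℝ) + 1) := by
              apply one_div_le_one_div_of_le (by positivity)
              have : (n:ℝ) ≤ N j := by exact_mod_cast hNn j
              linarith
            linarith
          · right
            refine ⟨?_, hxb⟩
            have h1 : s.Bel (br x (J + 1)) (b j) := by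
              rw [← hxj]
              exact hx'.bel (by omega)
            have h2 := hb.eq_of_bel h1
            rwa [hx'.lv] at h2
        refine ⟨k₁, (measure_mono hsubB).trans_lt ((measure_union_le _ _).trans_lt ?_)⟩
        have hA : μ (⋃ j ∈ Finset.range (J + 1), ⋃ R ∈ s.ch (b j), badS s br (ξs j) R
              (1 / ((N j:ℝ) + 1)) (N j) (K j R)) ≤ ENNReal.ofReal (1 / (4 * ((n:ℝ) + 1))) := by
          refine (measure_biUnion_finset_le _ _).trans ?_
          have h1 : ∀ j ∈ Finset.range (J + 1), μ (⋃ R ∈ s.ch (b j), badS s br (ξs j) R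
              (1 / ((N j:ℝ) + 1)) (N j) (K j R)) ≤
              ENNReal.ofReal (1 / ((n:ℝ) + 1) / 4 * (1 / 2) ^ (j + 1)) := by
            intro j _
            refine (measure_biUnion_finset_le _ _).trans ?_
            refine (Finset.sum_le_sum fun R hR => (hK j R hR).le).trans ?_
            rw [Finset.sum_const, nsmul_eq_mul, ← ENNReal.ofReal_natCast,
              ← ENNReal.ofReal_mul (Nat.cast_nonneg _)]
            refine ENNReal.ofReal_le_ofReal ?_
            have hN0 : (0:ℝ) < (N j : ℝ) + 1 := by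
              have : (0:ℝ) ≤ N j := Nat.cast_nonneg _
              linarith
            rw [mul_one_div, div_le_iff₀ hN0]
            have h2 : (N j : ℝ) = ((s.ch (b j)).card + 1) * ((n + 1) * 2 ^ (j + 3)) + n + j + 1 := by
              rw [hN j]
              push_cast
              ring
            rw [h2]
            have h3 : (0:ℝ) < (n:ℝ) + 1 := by positivity
            have h4 : 1 / ((n:ℝ) + 1) / 4 * (1 / 2) ^ (j + 1) *
                (((s.ch (b j)).card + 1) * ((n + 1) * 2 ^ (j + 3))) = (s.ch (b j)).card + 1 := by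
              have e1 : (1 / 2 : ℝ) ^ (j + 1) * 2 ^ (j + 1) = 1 := by
                rw [← mul_pow]
                norm_num
              have e2 : (2:ℝ) ^ (j + 3) = 4 * 2 ^ (j + 1) := by
                rw [pow_succ, pow_succ]
                ring
              have e3 : 1 / ((n:ℝ) + 1) * (n + 1) = 1 := one_div_mul_cancel h3.ne'
              calc 1 / ((n:ℝ) + 1) / 4 * (1 / 2) ^ (j + 1) *
                  (((s.ch (b j)).card + 1) * ((n + 1) * 2 ^ (j + 3)))
                  = (((s.ch (b j)).card : ℝ) + 1) * (1 / ((n:ℝ) + 1) * (n + 1)) *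
                    ((1 / 2) ^ (j + 1) * 2 ^ (j + 1)) := by rw [e2]; ring
                _ = (s.ch (b j)).card + 1 := by rw [e1, e3]; ring
            have h5 : 0 ≤ 1 / ((n:ℝ) + 1) / 4 * (1 / 2) ^ (j + 1) * (n + j + 1 + 1) := by positivity
            nlinarith
          refine (Finset.sum_le_sum h1).trans ?_
          rw [← ENNReal.ofReal_sum_of_nonneg (fun _ _ => by positivity), ← Finset.mul_sum]
          refine ENNReal.ofReal_le_ofReal ?_
          have h2 : ∀ m : ℕ, ∑ i ∈ Finset.range m, (1 / 2 : ℝ) ^ (i + 1) ≤ 1 := by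
            intro m
            have h3 : ∑ i ∈ Finset.range m, (1 / 2 : ℝ) ^ (i + 1) = 1 - (1 / 2) ^ m := by
              induction m with
              | zero => simp
              | succ m ih => rw [Finset.sum_range_succ, ih, pow_succ]; ring
            rw [h3]
            have : (0:ℝ) ≤ (1 / 2) ^ m := by positivity
            linarith
          have h3 : 1 / ((n:ℝ) + 1) / 4 = 1 / (4 * ((n:ℝ) + 1)) := by
            rw [div_div, mul_comm]
          rw [h3]
          exact mul_le_of_le_one_right (by positivity) (h2 _)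
        refine (add_le_add hA hJ.le).trans_lt ?_
        rw [← ENNReal.ofReal_add (by positivity) (by positivity), ENNReal.ofReal_lt_ofReal_iff hd0]
        have h3 : (0:ℝ) < (n:ℝ) + 1 := by positivity
        have h4 : 1 / (4 * ((n:ℝ) + 1)) + 1 / (2 * ((n:ℝ) + 1)) = 3 / 4 * (1 / ((n:ℝ) + 1)) := by
          field_simp
          norm_num
        rw [h4]
        linarith
      · -- off the branch
        obtain ⟨j, R, hR, hRb, hRQ⟩ := hb.exists_sib hQ
        obtain ⟨k₁, hk₁⟩ := Wg_anti (hNn j) (hξD j).2 Q hQn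
        refine ⟨k₁, (measure_mono fun x hx k hk hk' => ?_).trans_lt hk₁⟩
        rw [← eff_congr (hQn.trans hk) fun S' hS' => hτsib hR hRb (s.bel_trans hRQ hS')]
        exact hx k hk hk'
    · -- closeness
      intro Q hQF
      have h2 : ∀ j, ε / 2 ^ (j + 1) / ((s.ch (b j)).card + 1) ≤ ε := by
        intro j
        have h3 : (1:ℝ) ≤ 2 ^ (j + 1) := one_le_pow₀ (by norm_num)
        have h4 : (1:ℝ) ≤ (s.ch (b j)).card + 1 := by
          have : (0:ℝ) ≤ (s.ch (b j)).card := Nat.cast_nonneg _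
          linarith
        calc ε / 2 ^ (j + 1) / ((s.ch (b j)).card + 1) ≤ ε / 2 ^ (j + 1) :=
              div_le_self (by positivity) h4
          _ ≤ ε := div_le_self hε.le h3
      by_cases hQ : Q = b (s.lv Q)
      · have he : ∀ j, ∑ R ∈ (s.ch (b j)).filter (fun R => R ≠ b (j + 1)),
            dist (ζ R) (ξ R) ≤ ε / 2 ^ (j + 1) := by
          intro j
          have h3 : ∀ R ∈ (s.ch (b j)).filter (fun R => R ≠ b (j + 1)),
              dist (ζ R) (ξ R) ≤ ε / 2 ^ (j + 1) / ((s.ch (b j)).card + 1) := by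
            intro R hR
            obtain ⟨hR1, hR2⟩ := Finset.mem_filter.1 hR
            rw [hζ hR1 hR2 (s.bel_refl R)]
            exact (hξs j R (Finset.mem_union_right _ hR1)).le
          refine (Finset.sum_le_sum h3).trans ?_
          rw [Finset.sum_const, nsmul_eq_mul]
          have h4 : (((s.ch (b j)).filter (fun R => R ≠ b (j + 1))).card : ℝ) ≤
              (s.ch (b j)).card + 1 := by
            have : ((s.ch (b j)).filter (fun R => R ≠ b (j + 1))).card ≤ (s.ch (b j)).card :=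
              Finset.card_filter_le _ _
            have : (((s.ch (b j)).filter (fun R => R ≠ b (j + 1))).card : ℝ) ≤
              (s.ch (b j)).card := by exact_mod_cast this
            linarith
          have h5 : (0:ℝ) < (s.ch (b j)).card + 1 := by
            have : (0:ℝ) ≤ (s.ch (b j)).card := Nat.cast_nonneg _
            linarith
          have h6 : 0 < ε / 2 ^ (j + 1) := div_pos hε (pow_pos two_pos _)
          refine (mul_le_mul_of_nonneg_right h4 (div_pos h6 h5).le).trans (le_of_eq ?_)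
          exact mul_div_cancel₀ _ h5.ne'
        have hsum : ∀ m, ∑ j ∈ Finset.Ico (s.lv Q) m, ε / 2 ^ (j + 1) ≤ ε := by
          intro m
          have h5 : ∑ j ∈ Finset.Ico (s.lv Q) m, ε / 2 ^ (j + 1) ≤
              ∑ j ∈ Finset.range m, ε / 2 ^ (j + 1) := by
            refine Finset.sum_le_sum_of_subset_of_nonneg ?_ fun j _ _ => by positivity
            intro j hj
            exact Finset.mem_range.2 (Finset.mem_Ico.1 hj).2
          have h6 : ∀ m : ℕ, ∑ j ∈ Finset.range m, ε / 2 ^ (j + 1) = ε - ε / 2 ^ m := by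
            intro m
            induction m with
            | zero => simp
            | succ m ih =>
              rw [Finset.sum_range_succ, ih]
              rw [pow_succ]
              field_simp
              ring
          rw [h6] at h5
          have : 0 < ε / 2 ^ m := by positivity
          linarith
        have h7 : ∀ᶠ m in (𝒰 : Filter ℕ), dist (s.mg b m ζ Q) (s.mg b m ξ Q) ≤ ε := by
          filter_upwards [h𝒰 (eventually_ge_atTop (s.lv Q))] with m hm
          rw [hQ]
          have h8 := hb.dist_mg hζc hξc he m (m - s.lv Q) (s.lv Q) (by omega)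
          exact h8.trans (hsum m)
        exact le_of_tendsto ((hτ Q).dist (hη Q)) h7
      · obtain ⟨j, R, hR, hRb, hRQ⟩ := hb.exists_sib hQ
        rw [hτsib hR hRb hRQ, hb.lim_off hξc hη hQ]
        exact (hξs j Q (Finset.mem_union_left _ hQF)).le.trans (h2 j)

/-- **AB2**: almost every branch is slow -/
theorem ab2 (h1 : AB1) : AB2 := by
  intro T X _ _ s β _ μ _ br hbr hmeas hcnt V₀ h₀
  obtain ⟨V, hVV₀, hV, hmin⟩ := h₀.exists_minimal
  have hne : ∀ n, (V ∩ Wg s br μ n).Nonempty := by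
    intro n
    have hε : (0:ℝ) < 1 / ((n:ℝ) + 2) := by positivity
    obtain ⟨ζ, hζ, k₁, hk⟩ := h1 (μ := μ) hbr hmeas hcnt hV (s.finite_level_le n).toFinset hε n
    refine ⟨ζ, hζ, fun Q hQ => ⟨k₁, ?_⟩⟩
    have h2 : 1 / ((n:ℝ) + 2) < 1 / ((n:ℝ) + 1) :=
      one_div_lt_one_div_of_lt (by positivity) (by linarith)
    refine (measure_mono (badS_mono h2.le le_rfl le_rfl)).trans_lt ((hk Q ?_).trans_lt ?_)
    · rwa [Set.Finite.mem_toFinset]
    · rw [ENNReal.ofReal_lt_ofReal_iff (by positivity)]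
      exact h2
  have hVeq := hmin _ (fun ξ hξ => closure_minimal inter_subset_left hV.closed
    (mem_iInter.1 hξ 0)) (closure_Wg hbr hmeas hV hne)
  have : CompactSpace V := isCompact_iff_compactSpace.1 hV.closed.isCompact
  have : Nonempty V := hV.nonempty.to_subtype
  have hWo : ∀ n, IsOpen ((↑) ⁻¹' Wg s br μ n : Set V) := fun n =>
    (isOpen_Wg hbr n).preimage continuous_subtype_val
  have hWd : ∀ n, Dense ((↑) ⁻¹' Wg s br μ n : Set V) := by
    intro n ξ
    rw [_root_.mem_closure_iff]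
    intro O hO hξO
    obtain ⟨O', hO', rfl⟩ := isOpen_induced_iff.1 hO
    have h2 : (ξ : ∀ Q, X Q) ∈ closure (V ∩ Wg s br μ n) := by
      exact mem_iInter.1 (hVeq.symm.subset ξ.2) n
    obtain ⟨ζ, hζO, hζV, hζs⟩ := _root_.mem_closure_iff.1 h2 O' hO' hξO
    exact ⟨⟨ζ, hζV⟩, hζO, hζs⟩
  obtain ⟨ξ, hξ⟩ := (dense_iInter_of_isOpen_nat hWo hWd).nonempty
  refine ⟨ξ.1, hVV₀ ξ.2, ?_⟩
  have hξn : ∀ n : ℕ, ∃ k₁, μ (badS s br ξ.1 s.root (1 / ((n:ℝ) + 1)) n k₁) <
      ENNReal.ofReal (1 / ((n:ℝ) + 1)) := fun n =>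
    mem_iInter.1 hξ n s.root (by rw [s.lv_root]; exact Nat.zero_le _)
  have hnull : ∀ (i k₀ : ℕ), μ {x | ∀ k ≥ k₀, 1 / ((i:ℝ) + 1) ≤
      dist (ξ.1 s.root) (s.mg (br x) k ξ.1 s.root)} = 0 := by
    intro i k₀
    refine le_antisymm ?_ bot_le
    have h2 : Tendsto (fun n : ℕ => ENNReal.ofReal (1 / ((n:ℝ) + 1))) atTop (𝓝 0) := by
      rw [← ENNReal.ofReal_zero]
      exact ENNReal.tendsto_ofReal tendsto_one_div_add_atTop_nhds_zero_nat
    refine ge_of_tendsto h2 ?_
    filter_upwards [eventually_ge_atTop (max i k₀)] with n hn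
    obtain ⟨k₁, hk₁⟩ := hξn n
    refine (measure_mono fun x hx k hk _ => ?_).trans hk₁.le
    have h3 := hx k ((le_max_right _ _).trans (hn.trans hk))
    refine le_trans ?_ h3
    apply one_div_le_one_div_of_le (by positivity)
    have : (i:ℝ) ≤ n := by exact_mod_cast (le_max_left _ _).trans hn
    linarith
  have hae : ∀ᵐ x ∂μ, ∀ i k₀ : ℕ, ¬ ∀ k ≥ k₀, 1 / ((i:ℝ) + 1) ≤
      dist (ξ.1 s.root) (s.mg (br x) k ξ.1 s.root) := by
    rw [ae_all_iff]
    intro i
    rw [ae_all_iff]
    intro k₀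
    rw [ae_iff]
    simpa using hnull i k₀
  filter_upwards [hae] with x hx ε hε k₀
  obtain ⟨i, hi⟩ := exists_nat_one_div_lt hε
  have h2 := hx i k₀
  push Not at h2
  obtain ⟨k, hk, hk'⟩ := h2
  exact ⟨k, hk, hk'.trans hi⟩

end

end Vale.Agent.P116.Ms
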