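import Mathlib
import Vale.Agent.P116.Slow.GdT

/-!
# Measure version of the theorem on slow states: definitions and exact statements of the blocks

The blocks are stated as propositions; each of them is proved in its own file.
-/

open Set Filter Topology Metric Bornology MeasureTheory

namespace Vale.Agent.P116.Ms

open H906 PBC Slow

/-! ### block EN: the energy inequality -/

/-- `h` maps the complement of finitely many disjoint closed disks onto the complement of the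
compact sets `L j`. -/
structure EP {n : ℕ} (c : Fin n → ℂ) (r : Fin n → ℝ) (L : Fin n → Set ℂ) (h : ℂ → ℂ) (B : ℝ) :
    Prop where
  pos : 0 < B
  rpos : ∀ j, 0 < r j
  disj : ∀ i j, i ≠ j → Disjoint (closedBall (c i) (r i)) (closedBall (c j) (r j))
  sub : ∀ j, closedBall (c j) (r j) ⊆ closedBall 0 B
  Lc : ∀ j, IsCompact (L j)
  Lne : ∀ j, (L j).Nonempty
  Ldisj : ∀ i j, i ≠ j → Disjoint (L i) (L j)
  diff : DifferentiableOn ℂ h (⋃ j, closedBall (c j) (r j))ᶜ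
  inj : InjOn h (⋃ j, closedBall (c j) (r j))ᶜ
  image : h '' (⋃ j, closedBall (c j) (r j))ᶜ = (⋃ j, L j)ᶜ
  norm : Tendsto (fun z => h z - z) (cobounded ℂ) (𝓝 0)
  bdry : ∀ j, ∀ ε > 0, ∃ δ > 0, ∀ z ∉ ⋃ j, closedBall (c j) (r j),
    infDist z (closedBall (c j) (r j)) < δ → infDist (h z) (L j) < ε

/-- EN: all `L j`, `j ≠ i₀`, are round disks. -/
def Energy : Prop := ∀ {n : ℕ} {c : Fin n → ℂ} {r : Fin n → ℝ} {L : Fin n → Set ℂ} {h : ℂ → ℂ}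
    {B : ℝ} (_ : EP c r L h B) (i₀ : Fin n) {c' : Fin n → ℂ} {r' : Fin n → ℝ}
    (_ : ∀ j, j ≠ i₀ → 0 < r' j ∧ L j = closedBall (c' j) (r' j)) {w₀ : ℂ} {D : ℝ} (_ : 0 < D)
    (_ : L i₀ ⊆ closedBall w₀ D) {z : ℂ} (_ : 4 * B + 4 ≤ ‖z‖),
    ‖h z - z‖ ^ 2 ≤ 100 * r i₀ * D

/-- EN1 -/
def EN1 : Prop := ∀ {v : ℂ → ℂ} (_ : ContDiff ℝ 1 v) (_ : HasCompactSupport v),
    ∫ z, FK.db v z = 0

/-- a radial cutoff: `1` on `closedBall c a'`, `0` off `ball c b'`, `r < a' < b' < b` -/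
structure Cut (c : ℂ) (r a' b' b : ℝ) (E : ℂ → ℝ) : Prop where
  rpos : 0 < r
  h1 : r < a'
  h2 : a' < b'
  h3 : b' < b
  smooth : ContDiff ℝ 2 (fun z => ((E z : ℝ) : ℂ))
  one : ∀ z ∈ closedBall c a', E z = 1
  zero : ∀ z, z ∉ ball c b' → E z = 0
  nn : ∀ z, 0 ≤ E z
  le : ∀ z, E z ≤ 1
  int : ∫ z, ‖FK.db (fun z => ((E z : ℝ) : ℂ)) z‖ ≤ 2 * Real.pi * b

/-- EN2: existence of cutoffs (radial, monotone; polar coordinates) -/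
def EN2 : Prop := ∀ (c : ℂ) {r b : ℝ} (_ : 0 < r) (_ : r < b), ∃ (E : ℂ → ℝ) (a' b' : ℝ),
    Cut c r a' b' b E

/-- EN3: the mixed terms; `∫ dbE z̄ h' = conj ∫ dbE h̄` by two integrations by parts,
and `∫ dbE = 0` -/
def EN3 : Prop := ∀ {c : ℂ} {r a' b' b : ℝ} {E : ℂ → ℝ} (_ : Cut c r a' b' b E) {h : ℂ → ℂ}
    (_ : DifferentiableOn ℂ h {z | r < ‖z - c‖ ∧ ‖z - c‖ < b}) {w₀ : ℂ} {M : ℝ}
    (_ : ∀ z, r < ‖z - c‖ → ‖z - c‖ < b → ‖h z - w₀‖ ≤ M),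
    ‖∫ z, FK.db (fun z => ((E z : ℝ) : ℂ)) z *
      ((starRingEnd ℂ) (h z) + (starRingEnd ℂ) z * deriv h z)‖ ≤ 4 * Real.pi * b * M

/-- EN4: push forward by `h`: the integral is `-2 ∫ E'` with `E' = E ∘ h⁻¹`, equal to `1` on
`L j` -/
def EN4 : Prop := ∀ {n : ℕ} {c : Fin n → ℂ} {r : Fin n → ℝ} {L : Fin n → Set ℂ} {h : ℂ → ℂ}
    {B : ℝ} (_ : EP c r L h B) (j : Fin n) {E : ℂ → ℝ}
    (_ : ContDiff ℝ 1 (fun z => ((E z : ℝ) : ℂ))) (_ : HasCompactSupport E) (_ : ∀ z, 0 ≤ E z)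
    {δ : ℝ} (_ : 0 < δ) (_ : ∀ z, infDist z (closedBall (c j) (r j)) < δ → E z = 1)
    (_ : ∀ k, k ≠ j → ∀ z, infDist z (closedBall (c k) (r k)) < δ → E z = 0),
    (∫ z, FK.db (fun z => ((E z : ℝ) : ℂ)) z *
      ((starRingEnd ℂ) (h z) * deriv h z)).re ≤ -2 * (volume (L j)).toReal

/-- EN5: the energy (uses EN1 - EN4): with `w = h - id`, `ψ = χ - ∑ E j`,
`2 ∫ ψ |w'|² = - ∫ dbψ w̄ w'`, and the term of `j` is
`≤ - 2 π r'² - 2 π r² + 4 π (r + δ) (r' + ε)`, for `i₀` it is `≤ 4 π (r + δ) (D + ε)` -/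
def EN5 : Prop := ∀ {n : ℕ} {c : Fin n → ℂ} {r : Fin n → ℝ} {L : Fin n → Set ℂ} {h : ℂ → ℂ}
    {B : ℝ} (_ : EP c r L h B) (i₀ : Fin n) {c' : Fin n → ℂ} {r' : Fin n → ℝ}
    (_ : ∀ j, j ≠ i₀ → 0 < r' j ∧ L j = closedBall (c' j) (r' j)) {w₀ : ℂ} {D : ℝ} (_ : 0 < D)
    (_ : L i₀ ⊆ closedBall w₀ D) {W : Set ℂ} (_ : MeasurableSet W) (_ : IsBounded W)
    (_ : ∀ z ∈ W, B + 1 ≤ ‖z‖),
    ∫ z in W, ‖deriv h z - 1‖ ^ 2 ≤ 2 * Real.pi * r i₀ * D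

/-- EN6: from the energy to the values (mean value property for `h' - 1` in a disk, maximum
principle for `z² (h' - 1)`, integration from infinity) -/
def EN6 : Prop := ∀ {B : ℝ} (_ : 0 < B) {h : ℂ → ℂ} (_ : DifferentiableOn ℂ h {z | B < ‖z‖})
    (_ : Tendsto (fun z => h z - z) (cobounded ℂ) (𝓝 0)) {E₀ : ℝ}
    (_ : ∀ W : Set ℂ, MeasurableSet W → IsBounded W → (∀ z ∈ W, B + 1 ≤ ‖z‖) →
      ∫ z in W, ‖deriv h z - 1‖ ^ 2 ≤ E₀) {z : ℂ} (_ : 4 * B + 4 ≤ ‖z‖),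
    ‖h z - z‖ ^ 2 ≤ 4 * E₀

/-- EN7: a small disk is negligible (uses Energy for `h = KM S' ∘ (KM S)⁻¹`, and a limit argument
from `|z|` large to the circle of radius `ρ` as in `Far.tb_of`). -/
def Negl : Prop := ∀ {K : Set ℂ} {R ρ : ℝ} (h : Far K R ρ) {ε : ℝ} (_ : 0 < ε), ∃ η > 0,
    ∀ (S : Set (Set ℂ)) (hS : NS K (lev K 0) S), ∀ u ∈ S, ∀ U : Set (Set ℂ), NS K u U →
      kr fk ⟨S, ns_adm h.cpt h.full hS⟩ u < η →
      ∀ z ∈ sphere (0:ℂ) ρ, ‖KM S z - KM ((S \ {u}) ∪ U) z‖ ≤ ε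

/-! ### block AR: the count bound -/

/-- AR1 (uses Negl and the area of the disks) -/
def CountCtx : Prop := ∀ {K : Set ℂ} {R ρ : ℝ} (_ : Far K R ρ) {ε : ℝ} (_ : 0 < ε), ∃ N : ℕ,
    ∀ (S : Set (Set ℂ)) (_ : NS K (lev K 0) S) (A : Finset (Set ℂ)) (_ : ∀ u ∈ A, u ∈ S)
      (U : Set ℂ → Set (Set ℂ)) (_ : ∀ u ∈ A, NS K u (U u)),
      (∀ u ∈ A, ∃ z ∈ sphere (0:ℂ) ρ, ε < ‖KM S z - KM ((S \ {u}) ∪ U u) z‖) → A.card ≤ N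

/-- CN: a finite net of contexts (adapt `Far.tb_of`, roles of the two compact sets exchanged) -/
def CtxNet : Prop := ∀ {K : Set ℂ} {R ρ : ℝ} (_ : Far K R ρ) (q : Tn K) {ε : ℝ} (_ : 0 < ε),
    ∃ 𝒪 : Set (CQ K q.st), 𝒪.Finite ∧ ∀ O : CQ K q.st, ∃ O' ∈ 𝒪, ∀ a : SQ K q.st,
      ∀ z ∈ sphere (0:ℂ) ρ, ‖KM (O.1 ∪ a.1) z - KM (O'.1 ∪ a.1) z‖ ≤ ε

/-- AR2 (uses AR1 and CN) -/
def AreaBound : Prop := ∀ {K : Set ℂ} {R ρ : ℝ} (_ : Far K R ρ) (q : Tn K) {ε : ℝ} (_ : 0 < ε),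
    ∃ N : ℕ, ∀ (S : Set (Set ℂ)) (_ : NS K q.st S) (A : Finset (Set ℂ)) (_ : ∀ u ∈ A, u ∈ S)
      (U : Set ℂ → Set (Set ℂ)) (_ : ∀ u ∈ A, NS K u (U u)),
      (∀ u ∈ A, ε ≤ dd K q.st ρ S ((S \ {u}) ∪ U u)) → A.card ≤ N

/-! ### the abstract part -/

end Vale.Agent.P116.Ms

namespace Vale.Agent.P116.Slow.Sys

variable {T : Type*} {X : T → Type*} [∀ Q, PseudoMetricSpace (X Q)] (s : Sys T X)

open scoped Classical in
/-- merge all the nodes of `A` (nodes of level `m`) -/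
noncomputable def MG (m : ℕ) (A : Finset T) (ξ : ∀ Q, X Q) : ∀ Q, X Q :=
  s.Rc m (fun Q => if Q ∈ A then s.o Q else ξ Q)

open scoped Classical in
/-- a bounded number of merged nodes is influential -/
def Cnt : Prop := ∀ Q, ∀ ε > 0, ∃ N : ℕ, ∀ (m : ℕ) (ξ : ∀ Q, X Q) (A : Finset T), s.lv Q ≤ m →
  (∀ u ∈ A, s.lv u = m ∧ s.Bel Q u) →
  (∀ u ∈ A, ε ≤ dist (s.MG m A ξ Q) (s.MG m (A.erase u) ξ Q)) → A.card ≤ N

/-- nice sets of coherent trees, closed under all the limits of merged trees along the branches in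
`P` -/
structure NiceU (P : Set (ℕ → T)) (V : Set (∀ Q, X Q)) : Prop where
  closed : IsClosed V
  nonempty : V.Nonempty
  coh : ∀ ξ ∈ V, s.Coh ξ
  splice : ∀ Q, ∀ η ∈ V, ∀ ξ ∈ V, s.sp Q η ξ ∈ V
  tb : ∀ b ∈ P, ∀ 𝒰 : Ultrafilter ℕ, (𝒰 : Filter ℕ) ≤ atTop → ∀ ξ ∈ V, ∀ η : ∀ Q, X Q,
    (∀ Q, Tendsto (fun m => s.mg b m ξ Q) (𝒰 : Filter ℕ) (𝓝 (η Q))) → η ∈ V

end Vale.Agent.P116.Slow.Sys

namespace Vale.Agent.P116.Ms

open Slow Slow.Sys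

universe u v w

/-- the set of branches on which all the merging effects at `Q` of levels in `[k₀, k₁]` are
at least `ε` -/
def badS {T : Type*} {X : T → Type*} [∀ Q, PseudoMetricSpace (X Q)] (s : Sys T X) {β : Type*}
    (br : β → ℕ → T) (ζ : ∀ Q, X Q) (Q : T) (ε : ℝ) (k₀ k₁ : ℕ) : Set β :=
  {x | ∀ k, k₀ ≤ k → k ≤ k₁ → ε ≤ dist (ζ Q) (s.mg (br x) k ζ Q)}

/-- AB1: exchangeability. In a nice family there are trees which are good outside a set of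
branches of small measure, for finitely many nodes `Q` at the same time. -/
def AB1 : Prop := ∀ {T : Type} {X : T → Type} [∀ Q, MetricSpace (X Q)] [∀ Q, CompactSpace (X Q)]
    {s : Sys T X} {β : Type} [MeasurableSpace β] {μ : Measure β} [IsFiniteMeasure μ]
    {br : β → ℕ → T} (_ : ∀ x, s.Br (br x)) (_ : ∀ k Q, MeasurableSet {x | br x k = Q})
    (_ : s.Cnt) {V : Set (∀ Q, X Q)} (_ : s.NiceU (range br) V) (F : Finset T) {ε : ℝ}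
    (_ : 0 < ε) (k₀ : ℕ),
    ∃ ζ ∈ V, ∃ k₁, ∀ Q ∈ F, μ (badS s br ζ Q ε k₀ k₁) ≤ ENNReal.ofReal ε

/-- AB2: the main abstract theorem (uses AB1) -/
def AB2 : Prop := ∀ {T : Type} {X : T → Type} [∀ Q, MetricSpace (X Q)] [∀ Q, CompactSpace (X Q)]
    {s : Sys T X} {β : Type} [MeasurableSpace β] {μ : Measure β} [IsFiniteMeasure μ]
    {br : β → ℕ → T} (_ : ∀ x, s.Br (br x)) (_ : ∀ k Q, MeasurableSet {x | br x k = Q})
    (_ : s.Cnt) {V₀ : Set (∀ Q, X Q)} (_ : s.NiceU (range br) V₀),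
    ∃ ξ ∈ V₀, ∀ᵐ x ∂μ, ∀ ε > 0, ∀ k₀, ∃ k ≥ k₀,
      dist (ξ s.root) (s.mg (br x) k ξ s.root) < ε

/-- AR3: the count bound for the system of the structures of `K` (uses AR2) -/
def SysCnt : Prop := ∀ {K : Set ℂ} {R ρ : ℝ} (h : Far K R ρ) (hne : K.Nonempty),
    (sysK h hne).Cnt

/-- AB4: passage to the completions -/
def AB4 : Prop := ∀ {T : Type} {S : T → Type} [∀ Q, PseudoMetricSpace (S Q)] {s : Sys T S},
    s.Cnt → s.cmp.Cnt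

/-- AB3: approximating structures (uses AB2; adapt `exists_slow_seq`; the budget `δ` is additive)
-/
def AB3 : Prop := ∀ {T : Type} {S : T → Type} [∀ Q, PseudoMetricSpace (S Q)] (s : Sys T S)
    {Par : Type} [Preorder Par] [IsDirected Par (· ≤ ·)] [Nonempty Par]
    (E : Par → ℝ → ∀ Q, Set (S Q)) (_ : ∀ Q, TotallyBounded (univ : Set (S Q)))
    (_ : s.cmp.Cnt) {β : Type} [MeasurableSpace β] {μ : Measure β} [IsFiniteMeasure μ]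
    {br : β → ℕ → T} (_ : ∀ x, s.Br (br x)) (_ : ∀ k Q, MeasurableSet {x | br x k = Q})
    (_ : ∀ t t', t ≤ t' → ∀ δ Q, E t' δ Q ⊆ E t δ Q)
    (_ : ∀ t δ δ', δ ≤ δ' → ∀ Q, E t δ Q ⊆ E t δ' Q)
    (_ : ∀ t, ∃ a : ∀ Q, S Q, (∀ Q, a Q = s.join Q a) ∧ ∀ Q, a Q ∈ E t 0 Q)
    (_ : ∀ t Q (a : ∀ Q, S Q) (d : T → ℝ), (∀ R ∈ s.ch Q, 0 ≤ d R) →
      (∀ R ∈ s.ch Q, a R ∈ E t (d R) R) → s.join Q a ∈ E t (∑ R ∈ s.ch Q, d R) Q)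
    (_ : ∀ t x, ∀ δ > 0, ∃ m₀, ∀ m ≥ m₀, s.o (br x m) ∈ E t δ (br x m)),
    ∃ (𝓕 : Ultrafilter (Par × ℕ × Finset T)) (a : Par × ℕ × Finset T → ∀ Q, S Q),
      (∀ t, ∀ δ > 0, ∀ Q, ∀ᶠ i in (𝓕 : Filter _), a i Q ∈ E t δ Q) ∧
      (∀ n, ∀ᶠ i in (𝓕 : Filter _), ∀ Q, s.lv Q < n → a i Q = s.join Q (a i)) ∧
      (∀ᵐ x ∂μ, ∀ ε > 0, ∀ k₀, ∃ k ≥ k₀, ∀ᶠ i in (𝓕 : Filter _),
        dist (a i s.root) (s.mg (br x) k (a i) s.root) < ε)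

end Vale.Agent.P116.Ms
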