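import Vale.Agent.P116.Slow.Min
import Vale.Agent.P116.Ms.Spec

/-!
Limits of merged trees along an arbitrary ultrafilter; monotonicity of the merging effects.
-/

open Set Filter Topology Metric
open scoped Classical

namespace Vale.Agent.P116.Slow.Sys

section

variable {T : Type*} {X : T → Type*} [∀ Q, PseudoMetricSpace (X Q)] {s : Sys T X}

lemma finite_level_eq (s : Sys T X) (n : ℕ) : {Q : T | s.lv Q = n}.Finite := by
  induction n with
  | zero =>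
    refine (finite_singleton s.root).subset fun Q hQ => ?_
    have h1 : s.Bel s.root Q := s.reach Q
    exact (s.bel_eq_of_lv h1 (by rw [s.lv_root]; exact hQ.symm)).symm
  | succ n ih =>
    refine (ih.biUnion fun Q _ => (s.ch Q).finite_toSet).subset fun Q hQ => ?_
    rcases Relation.ReflTransGen.cases_head (s.reach Q) with h | ⟨c, hc, -⟩
    · have h1 : s.lv Q = n + 1 := hQ
      rw [h, s.lv_root] at h1
      omega
    · refine mem_iUnion₂.2 ⟨c, ?_, hc⟩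
      have h1 : s.lv Q = n + 1 := hQ
      have h2 := s.lv_ch c Q hc
      change s.lv c = n
      omega

lemma finite_level_le (s : Sys T X) (n : ℕ) : {Q : T | s.lv Q ≤ n}.Finite := by
  have h : {Q : T | s.lv Q ≤ n} = ⋃ k ∈ Set.Iic n, {Q : T | s.lv Q = k} := by
    ext Q
    simp
  rw [h]
  exact (Set.finite_Iic n).biUnion fun k _ => s.finite_level_eq k

/-- the merging effect at `Q` is at most the effect at a lower node of the branch -/
lemma Br.eff_mono {c : ℕ → T} (hc : s.Br c) {τ : ∀ Q, X Q} (hτ : s.Coh τ) {l j k : ℕ}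
    (hlj : l ≤ j) (hjk : j ≤ k) :
    dist (τ (c l)) (s.mg c k τ (c l)) ≤ dist (τ (c j)) (s.mg c k τ (c j)) := by
  obtain ⟨d, rfl⟩ := Nat.exists_eq_add_of_le hlj
  clear hlj
  induction d generalizing l with
  | zero => exact le_rfl
  | succ d ih =>
    have h1 := ih (l := l + 1) (by omega)
    have e : l + 1 + d = l + (d + 1) := by omega
    rw [e] at h1
    refine le_trans ?_ h1
    have hl : s.lv (c l) < k := by rw [hc.lv]; omega
    rw [s.mg_lt τ hl]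
    conv_lhs => rw [hτ (c l)]
    refine (s.lip _ _ _).trans ?_
    have h2 : ∑ R ∈ s.ch (c l), dist (τ R) (s.mg c k τ R) =
        ∑ R ∈ s.ch (c l), if R = c (l + 1) then dist (τ R) (s.mg c k τ R) else 0 := by
      refine Finset.sum_congr rfl fun R hR => ?_
      split_ifs with h
      · rfl
      · have h3 : ¬ s.Bel R (c k) := by
          intro h4
          have h5 := hc.eq_of_bel h4
          rw [s.lv_ch _ _ hR, hc.lv] at h5
          exact h h5
        rw [s.mg_off hτ h3, dist_self]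
    rw [h2, Finset.sum_ite_eq' (s.ch (c l)) (c (l + 1))
      (fun R => dist (τ R) (s.mg c k τ R)), if_pos (hc.2 l)]

/-- limits of merged trees: coherence -/
lemma lim_coh [∀ Q, T2Space (X Q)] {b : ℕ → T} {𝒰 : Ultrafilter ℕ}
    (h𝒰 : (𝒰 : Filter ℕ) ≤ atTop) {ξ η : ∀ Q, X Q}
    (hη : ∀ Q, Tendsto (fun m => s.mg b m ξ Q) (𝒰 : Filter ℕ) (𝓝 (η Q))) : s.Coh η := by
  intro Q
  have h1 : Tendsto (fun m => s.join Q (s.mg b m ξ)) (𝒰 : Filter ℕ) (𝓝 (s.join Q η)) :=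
    s.join_tendsto fun R _ => hη R
  refine tendsto_nhds_unique (hη Q) (h1.congr' ?_)
  filter_upwards [h𝒰 (eventually_ge_atTop (s.lv Q + 1))] with m hm
  exact (s.mg_lt _ (by omega)).symm

lemma Br.lim_off [∀ Q, T2Space (X Q)] {b : ℕ → T} (hb : s.Br b) {𝒰 : Ultrafilter ℕ}
    {ξ η : ∀ Q, X Q} (hξ : s.Coh ξ)
    (hη : ∀ Q, Tendsto (fun m => s.mg b m ξ Q) (𝒰 : Filter ℕ) (𝓝 (η Q))) {Q : T}
    (hQ : Q ≠ b (s.lv Q)) : η Q = ξ Q := by
  refine tendsto_nhds_unique (hη Q) ?_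
  have h1 : (fun m => s.mg b m ξ Q) = fun _ => ξ Q := by
    ext m
    exact s.mg_off hξ fun h2 => hQ (hb.eq_of_bel h2)
  rw [h1]
  exact tendsto_const_nhds

lemma Br.lim_slow [∀ Q, T2Space (X Q)] {b : ℕ → T} (hb : s.Br b) {𝒰 : Ultrafilter ℕ}
    (h𝒰 : (𝒰 : Filter ℕ) ≤ atTop) {ξ η : ∀ Q, X Q} (hξ : s.Coh ξ)
    (hη : ∀ Q, Tendsto (fun m => s.mg b m ξ Q) (𝒰 : Filter ℕ) (𝓝 (η Q))) (Q : T) :
    Tendsto (fun m => s.mg b m η Q) (𝒰 : Filter ℕ) (𝓝 (η Q)) := by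
  refine (hη Q).congr' ?_
  filter_upwards [h𝒰 (eventually_ge_atTop (s.lv Q))] with m hm
  refine s.mg_congr hm fun Q' _ h2 h3 => ?_
  rw [hb.lim_off hξ hη]
  rwa [h2]

end

section

variable {T : Type*} {X : T → Type*} [∀ Q, MetricSpace (X Q)] [∀ Q, CompactSpace (X Q)]
  {s : Sys T X} {P : Set (ℕ → T)} {V : Set (∀ Q, X Q)}

lemma exists_lim (b : ℕ → T) (𝒰 : Ultrafilter ℕ) (ξ : ∀ Q, X Q) : ∃ η : ∀ Q, X Q,
    ∀ Q, Tendsto (fun m => s.mg b m ξ Q) (𝒰 : Filter ℕ) (𝓝 (η Q)) := by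
  have : ∀ Q, ∃ x, Tendsto (fun m => s.mg b m ξ Q) (𝒰 : Filter ℕ) (𝓝 x) := by
    intro Q
    obtain ⟨x, -, hx⟩ := (isCompact_univ (X := X Q)).ultrafilter_le_nhds
      (𝒰.map fun m => s.mg b m ξ Q) (by simp)
    exact ⟨x, hx⟩
  choose η hη using this
  exact ⟨η, hη⟩

lemma NiceU.sInter {c : Set (Set (∀ Q, X Q))} (hc : ∀ V ∈ c, s.NiceU P V)
    (hchain : IsChain (· ⊆ ·) c) (hne : c.Nonempty) : s.NiceU P (⋂₀ c) where
  closed := isClosed_sInter fun V hV => (hc V hV).closed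
  nonempty := by
    have : Nonempty c := hne.to_subtype
    refine IsCompact.nonempty_sInter_of_directed_nonempty_isCompact_isClosed ?_
      (fun V hV => (hc V hV).nonempty) (fun V hV => (hc V hV).closed.isCompact)
      (fun V hV => (hc V hV).closed)
    intro V hV W hW
    rcases hchain.total hV hW with h | h
    · exact ⟨V, hV, subset_rfl, h⟩
    · exact ⟨W, hW, h, subset_rfl⟩
  coh := by
    obtain ⟨V, hV⟩ := hne
    exact fun ξ hξ => (hc V hV).coh ξ (hξ V hV)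
  splice := fun Q η hη ξ hξ V hV => (hc V hV).splice Q η (hη V hV) ξ (hξ V hV)
  tb := fun b hb 𝒰 h𝒰 ξ hξ η hη V hV => (hc V hV).tb b hb 𝒰 h𝒰 ξ (hξ V hV) η hη

lemma NiceU.exists_minimal {V₀ : Set (∀ Q, X Q)} (h : s.NiceU P V₀) :
    ∃ V ⊆ V₀, s.NiceU P V ∧ ∀ W ⊆ V, s.NiceU P W → W = V := by
  obtain ⟨V, hV, hmin⟩ := zorn_superset_nonempty {V | s.NiceU P V}
    (fun c hc hchain hne => ⟨⋂₀ c, NiceU.sInter hc hchain hne, fun V hV => sInter_subset_of_mem hV⟩)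
    V₀ h
  exact ⟨V, hV, hmin.1, fun W hW hWn => Subset.antisymm hW (hmin.2 hWn hW)⟩

lemma glU_mem (hV : s.NiceU P V) {b : ℕ → T} {ξs : ℕ → ∀ Q, X Q} (h : ∀ j, ξs j ∈ V) (j : ℕ) :
    s.gl b ξs j ∈ V := by
  induction j with
  | zero => exact h 0
  | succ j ih => exact hV.splice _ _ (h _) _ ih

lemma glU_sib (hV : s.NiceU P V) {b : ℕ → T} (hb : s.Br b) {ξs : ℕ → ∀ Q, X Q}
    (h : ∀ j, ξs j ∈ V) {j : ℕ} {R Q' : T} (hR : R ∈ s.ch (b j))
    (hRb : R ≠ b (j + 1)) (hQ : s.Bel R Q') {m : ℕ} (hm : j ≤ m) :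
    s.gl b ξs m Q' = ξs j Q' := by
  induction m, hm using Nat.le_induction with
  | base =>
    cases j with
    | zero => rfl
    | succ j =>
      rw [gl, s.sp_bel _ _ (s.bel_trans (s.bel_ch hR) hQ)]
  | succ m hm ih =>
    rw [gl, s.sp_inc (hV.coh _ (glU_mem hV h m)) (hb.sib_not_bel hR hRb hQ (by omega))
      (hb.sib_off hR hRb hQ _), ih]

end

end Vale.Agent.P116.Slow.Sys
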