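import Vale.Agent.P116.Slow.Seq
import Vale.Agent.P116.Ms.AbsU
import Vale.Agent.P116.Ms.Spec

/-!
AB3: approximating structures, measure version (adapted from `exists_slow_seq`).
-/

open Set Filter Topology Metric UniformSpace MeasureTheory
open scoped Classical

namespace Vale.Agent.P116.Slow.Sys

section

variable {T : Type*} {S : T → Type*} [∀ Q, PseudoMetricSpace (S Q)] (s : Sys T S)
  {Par : Type*} {E : Par → ℝ → ∀ Q, Set (S Q)}

/-- closure in the completion, budget `δ` -/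
def EB (E : Par → ℝ → ∀ Q, Set (S Q)) (t : Par) (δ : ℝ) (Q : T) : Set (Completion (S Q)) :=
  closure ((fun a : S Q => (a : Completion (S Q))) '' E t δ Q)

/-- in the closure for every positive budget -/
def E0 (E : Par → ℝ → ∀ Q, Set (S Q)) (t : Par) (Q : T) : Set (Completion (S Q)) :=
  {x | ∀ δ > 0, x ∈ EB E t δ Q}

lemma EB_mono (hm : ∀ t δ δ', δ ≤ δ' → ∀ Q, E t δ Q ⊆ E t δ' Q) (t : Par) {δ δ' : ℝ}
    (h : δ ≤ δ') (Q : T) : EB E t δ Q ⊆ EB E t δ' Q := closure_mono (image_mono (hm t δ δ' h Q))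

lemma join_EB (hE1 : ∀ t Q (a : ∀ Q, S Q) (d : T → ℝ), (∀ R ∈ s.ch Q, 0 ≤ d R) →
      (∀ R ∈ s.ch Q, a R ∈ E t (d R) R) → s.join Q a ∈ E t (∑ R ∈ s.ch Q, d R) Q)
    (t : Par) (Q : T) {d : T → ℝ} (hd : ∀ R ∈ s.ch Q, 0 ≤ d R) {x : ∀ Q, Completion (S Q)}
    (hx : ∀ R ∈ s.ch Q, x R ∈ EB E t (d R) R) :
    s.cmp.join Q x ∈ EB E t (∑ R ∈ s.ch Q, d R) Q := by
  have h1 : x ∈ closure (Set.pi (s.ch Q : Set T) fun R =>
      (fun a : S R => (a : Completion (S R))) '' E t (d R) R) := by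
    rw [closure_pi_set]
    exact fun R hR => hx R hR
  refine map_mem_closure (s.cmp.continuous_join Q) h1 ?_
  intro y hy
  have h2 : ∀ R, ∃ a : S R, R ∈ s.ch Q → a ∈ E t (d R) R ∧ (a : Completion (S R)) = y R := by
    intro R
    by_cases hR : R ∈ s.ch Q
    · obtain ⟨a, ha, hay⟩ := hy R hR
      exact ⟨a, fun _ => ⟨ha, hay⟩⟩
    · exact ⟨s.o R, fun h => absurd h hR⟩
  choose a ha using h2
  have h3 : s.cmp.join Q y = s.cmp.join Q (cc a) :=
    s.cmp.congr Q _ _ fun R hR => ((ha R hR).2).symm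
  rw [h3, s.cmp_join_cc]
  exact ⟨_, hE1 t Q a d hd fun R hR => (ha R hR).1, rfl⟩

lemma join_E0 (hm : ∀ t δ δ', δ ≤ δ' → ∀ Q, E t δ Q ⊆ E t δ' Q)
    (hE1 : ∀ t Q (a : ∀ Q, S Q) (d : T → ℝ), (∀ R ∈ s.ch Q, 0 ≤ d R) →
      (∀ R ∈ s.ch Q, a R ∈ E t (d R) R) → s.join Q a ∈ E t (∑ R ∈ s.ch Q, d R) Q)
    (t : Par) (Q : T) {x : ∀ Q, Completion (S Q)} (hx : ∀ R ∈ s.ch Q, x R ∈ E0 E t R) :
    s.cmp.join Q x ∈ E0 E t Q := by
  intro δ hδ
  have h1 := s.join_EB hE1 t Q (d := fun _ => δ / ((s.ch Q).card + 1))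
    (fun R _ => by positivity) (x := x) fun R hR => hx R hR _ (by positivity)
  refine EB_mono hm t ?_ Q h1
  rw [Finset.sum_const, nsmul_eq_mul, mul_div_assoc', div_le_iff₀ (by positivity)]
  nlinarith [(Nat.cast_nonneg (s.ch Q).card : (0 : ℝ) ≤ _)]

/-- small budgets survive finitely many levels -/
lemma exists_budget (hm : ∀ t δ δ', δ ≤ δ' → ∀ Q, E t δ Q ⊆ E t δ' Q)
    (hE1 : ∀ t Q (a : ∀ Q, S Q) (d : T → ℝ), (∀ R ∈ s.ch Q, 0 ≤ d R) →
      (∀ R ∈ s.ch Q, a R ∈ E t (d R) R) → s.join Q a ∈ E t (∑ R ∈ s.ch Q, d R) Q)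
    (n : ℕ) {δ : ℝ} (hδ : 0 < δ) : ∃ c > 0, ∀ t (a : ∀ Q, S Q), (∀ Q, a Q ∈ E t c Q) →
      ∀ Q, s.Rc n a Q ∈ E t δ Q := by
  induction n with
  | zero => exact ⟨δ, hδ, fun t a ha => ha⟩
  | succ n ih =>
    obtain ⟨c, hc, hc'⟩ := ih
    obtain ⟨M, hM⟩ : ∃ M : ℕ, ∀ Q, s.lv Q = n → (s.ch Q).card ≤ M := by
      obtain ⟨M, hM⟩ := ((s.finite_level_eq n).image fun Q => (s.ch Q).card).bddAbove
      exact ⟨M, fun Q hQ => hM ⟨Q, hQ, rfl⟩⟩
    refine ⟨c / (M + 1), by positivity, fun t a ha => ?_⟩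
    have hle : c / (M + 1) ≤ c := div_le_self hc.le (by linarith [(Nat.cast_nonneg M : (0:ℝ) ≤ M)])
    refine hc' t (s.U n a) fun Q => ?_
    unfold U
    by_cases h : s.lv Q = n
    · rw [if_pos h]
      have h1 := hE1 t Q a (fun _ => c / (M + 1)) (fun R _ => by positivity) fun R _ => ha R
      refine hm t _ _ ?_ Q h1
      rw [Finset.sum_const, nsmul_eq_mul, mul_div_assoc', div_le_iff₀ (by positivity)]
      have h2 : ((s.ch Q).card : ℝ) ≤ M := by exact_mod_cast hM Q h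
      nlinarith
    · rw [if_neg h]
      exact hm t _ _ hle Q (ha Q)

/-- merging a node with budget `δ₁` -/
lemma mg_EB (hm : ∀ t δ δ', δ ≤ δ' → ∀ Q, E t δ Q ⊆ E t δ' Q)
    (hE1 : ∀ t Q (a : ∀ Q, S Q) (d : T → ℝ), (∀ R ∈ s.ch Q, 0 ≤ d R) →
      (∀ R ∈ s.ch Q, a R ∈ E t (d R) R) → s.join Q a ∈ E t (∑ R ∈ s.ch Q, d R) Q)
    {t : Par} {b : ℕ → T} (hb : s.Br b) {m : ℕ} {δ₁ : ℝ} (hδ₁ : 0 ≤ δ₁)
    (ho : s.o (b m) ∈ E t δ₁ (b m)) {ξ : ∀ Q, Completion (S Q)} (hξ : s.cmp.Coh ξ)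
    (hξE : ∀ Q, ξ Q ∈ E0 E t Q) :
    ∀ d k, k + d = m → ∀ δ > δ₁, s.cmp.mg b m ξ (b k) ∈ EB E t δ (b k) := by
  have hb' : s.cmp.Br b := hb
  intro d
  induction d with
  | zero =>
    intro k hk δ hδ
    have : k = m := by omega
    subst this
    rw [hb'.mg_self]
    exact EB_mono hm t hδ.le _ (subset_closure ⟨_, ho, rfl⟩)
  | succ d ih =>
    intro k hk δ hδ
    have h1 : s.cmp.lv (b k) < m := by rw [hb'.lv]; omega
    rw [s.cmp.mg_lt ξ h1]
    obtain ⟨δ₂, h2, h3⟩ := exists_between hδ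
    set c : ℝ := (δ - δ₂) / ((s.ch (b k)).card + 1) with hc
    have hc0 : 0 < c := div_pos (by linarith) (by positivity)
    have h4 := s.join_EB hE1 t (b k) (d := fun R => if R = b (k + 1) then δ₂ else c)
      (fun R _ => by
        split_ifs
        · linarith
        · exact hc0.le) (x := s.cmp.mg b m ξ) fun R hR => by
        split_ifs with h
        · rw [h]
          exact ih (k + 1) (by omega) δ₂ h2
        · have h5 : ¬ s.cmp.Bel R (b m) := by
            intro h6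
            have h7 := hb'.eq_of_bel h6
            have h8 : s.cmp.lv R = k + 1 := by
              have : s.cmp.lv R = s.cmp.lv (b k) + 1 := s.cmp.lv_ch _ _ hR
              rw [this, hb'.lv]
            rw [h8] at h7
            exact h h7
          rw [s.cmp.mg_off hξ h5]
          exact hξE R c hc0
    refine EB_mono hm t ?_ _ h4
    have h9 : ∑ R ∈ s.ch (b k), (if R = b (k + 1) then δ₂ else c) ≤
        ∑ R ∈ s.ch (b k), ((if R = b (k + 1) then δ₂ else 0) + c) := by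
      refine Finset.sum_le_sum fun R _ => ?_
      split_ifs <;> linarith
    refine h9.trans ?_
    rw [Finset.sum_add_distrib, Finset.sum_ite_eq' (s.ch (b k)) (b (k + 1)) (fun _ => δ₂),
      if_pos (hb.2 k), Finset.sum_const, nsmul_eq_mul]
    have h10 : ((s.ch (b k)).card : ℝ) * c ≤ δ - δ₂ := by
      rw [hc, mul_div_assoc', div_le_iff₀ (by positivity)]
      nlinarith [(Nat.cast_nonneg (s.ch (b k)).card : (0 : ℝ) ≤ _)]
    linarith

end

end Vale.Agent.P116.Slow.Sys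

namespace Vale.Agent.P116.Ms

open Slow Slow.Sys

/-- **AB3** -/
theorem ab3 (h2 : AB2) : AB3 := by
  intro T S _ s Par _ _ _ E hTB hCnt β _ μ _ br hbr hmeas hanti hmono hbase hE1 ho
  have hcpt : ∀ Q, CompactSpace (Completion (S Q)) := compact_cmp hTB
  have hdir1 : IsDirected (Par × ℕ) (· ≤ ·) := directed_prod
  have hdir2 : IsDirected (ℕ × Finset T) (· ≤ ·) := directed_prod
  have hdir3 : IsDirected (Par × ℕ × Finset T) (· ≤ ·) := directed_prod
  have hanti' : ∀ t t', t ≤ t' → ∀ Q, E0 E t' Q ⊆ E0 E t Q := fun t t' h Q x hx δ hδ =>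
    closure_mono (image_mono (hanti t t' h δ Q)) (hx δ hδ)
  have hclE0 : ∀ t Q, IsClosed (E0 E t Q) := by
    intro t Q
    have : E0 E t Q = ⋂ δ : Ioi (0 : ℝ), EB E t δ Q := by
      ext x
      simp [E0]
    rw [this]
    exact isClosed_iInter fun δ => isClosed_closure
  set V₀ : Set (∀ Q, Completion (S Q)) := {ξ | s.cmp.Coh ξ ∧ ∀ t Q, ξ Q ∈ E0 E t Q} with hV₀
  have hcohc : IsClosed {ξ : ∀ Q, Completion (S Q) | s.cmp.Coh ξ} := by
    have : {ξ : ∀ Q, Completion (S Q) | s.cmp.Coh ξ} =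
        ⋂ Q, {ξ | ξ Q = s.cmp.join Q ξ} := by
      ext ξ
      simp [Coh]
    rw [this]
    exact isClosed_iInter fun Q => isClosed_eq (continuous_apply Q) (s.cmp.continuous_join Q)
  have hbr' : ∀ x, s.cmp.Br (br x) := hbr
  have hnice : s.cmp.NiceU (range br) V₀ := by
    refine ⟨?_, ?_, fun ξ hξ => hξ.1, ?_, ?_⟩
    · have h1 : V₀ = {ξ | s.cmp.Coh ξ} ∩ ⋂ t, ⋂ Q, {ξ | ξ Q ∈ E0 E t Q} := by
        ext ξ
        simp [hV₀]
      rw [h1]
      exact hcohc.inter (isClosed_iInter fun t => isClosed_iInter fun Q =>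
        (hclE0 t Q).preimage (continuous_apply Q))
    · -- nonempty
      choose a hac ha using hbase
      obtain ⟨ξ, -, hξ⟩ := (isCompact_univ (X := ∀ Q, Completion (S Q))).ultrafilter_le_nhds
        ((Ultrafilter.of (atTop : Filter Par)).map fun t => cc (a t)) (by simp)
      have hξQ : ∀ Q, Tendsto (fun t => cc (a t) Q)
          (Ultrafilter.of (atTop : Filter Par) : Filter Par) (𝓝 (ξ Q)) :=
        fun Q => ((continuous_apply Q).tendsto ξ).comp hξ
      refine ⟨ξ, ?_, fun t Q => ?_⟩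
      · refine hcohc.mem_of_tendsto (b := (Ultrafilter.of (atTop : Filter Par) : Filter Par))
          (f := fun t => cc (a t)) hξ (Eventually.of_forall fun t Q => ?_)
        rw [s.cmp_join_cc, ← hac t Q]
        rfl
      · refine (hclE0 t Q).mem_of_tendsto (hξQ Q) ?_
        refine (Ultrafilter.of_le _) ?_
        filter_upwards [eventually_ge_atTop t] with t' ht'
        refine hanti' t t' ht' Q fun δ hδ => ?_
        exact EB_mono hmono t' hδ.le Q (subset_closure ⟨_, ha t' Q, rfl⟩)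
    · intro Q η hη ξ hξ
      refine ⟨s.cmp.sp_coh hη.1 hξ.1, fun t => ?_⟩
      have h1 : ∀ d Q', s.cmp.lv Q - s.cmp.lv Q' = d → s.cmp.sp Q η ξ Q' ∈ E0 E t Q' := by
        intro d
        induction d with
        | zero =>
          intro Q' hd
          have hl : s.cmp.lv Q ≤ s.cmp.lv Q' := by omega
          by_cases h : s.cmp.Bel Q Q'
          · rw [s.cmp.sp_bel _ _ h]
            exact hη.2 t Q'
          · rw [s.cmp.sp_ge _ _ hl h]
            exact hξ.2 t Q'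
        | succ d ih =>
          intro Q' hd
          rw [s.cmp.sp_coh hη.1 hξ.1 Q']
          refine s.join_E0 hmono hE1 t Q' fun R hR => ih R ?_
          have h3 : s.cmp.lv R = s.cmp.lv Q' + 1 := s.cmp.lv_ch _ _ hR
          omega
      exact fun Q' => h1 _ Q' rfl
    · rintro b ⟨x, rfl⟩ 𝒰 h𝒰 ξ hξ η hη
      refine ⟨lim_coh h𝒰 hη, fun t Q δ hδ => ?_⟩
      obtain ⟨m₀, hm₀⟩ := ho t x (δ / 2) (by positivity)
      refine isClosed_closure.mem_of_tendsto (hη Q) ?_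
      filter_upwards [h𝒰 (eventually_ge_atTop m₀), h𝒰 (eventually_ge_atTop (s.lv Q))] with m h3 h4
      by_cases hQ : s.cmp.Bel Q (br x m)
      · have h5 := (hbr' x).eq_of_bel hQ
        have h6 := s.mg_EB hmono hE1 (hbr x) (by positivity : (0:ℝ) ≤ δ / 2) (hm₀ m h3) hξ.1
          (fun Q => hξ.2 t Q) (m - s.lv Q) (s.lv Q) (by omega) δ (by linarith)
        have h7 : Q = br x (s.lv Q) := h5
        rw [← h7] at h6
        exact h6
      · rw [s.cmp.mg_off hξ.1 hQ]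
        exact hξ.2 t Q δ hδ
  obtain ⟨ξ, ⟨hξc, hξE⟩, hξs⟩ := h2 (μ := μ) hbr' hmeas hCnt hnice
  -- approximations
  have hex : ∀ i : Par × ℕ × Finset T, ∃ a : ∀ Q, S Q,
      (∀ Q, s.Rc i.2.1 a Q ∈ E i.1 (1 / ((i.2.1 : ℝ) + 1)) Q) ∧
      ∀ Q ∈ i.2.2, dist (cc (s.Rc i.2.1 a) Q) (ξ Q) < 1 / ((i.2.1 : ℝ) + 1) := by
    rintro ⟨t, n, F⟩
    obtain ⟨c, hc, hc'⟩ := s.exists_budget hmono hE1 n
      (δ := 1 / ((n : ℝ) + 1)) (by positivity)
    have h1 : ξ ∈ closure (Set.pi univ fun R =>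
        (fun a : S R => (a : Completion (S R))) '' E t c R) := by
      rw [closure_pi_set]
      exact fun R _ => hξE t R c hc
    have h2 : {y : ∀ Q, Completion (S Q) | ∀ Q ∈ F,
        dist (s.cmp.Rc n y Q) (ξ Q) < 1 / ((n : ℝ) + 1)} ∈ 𝓝 ξ := by
      refine (Filter.eventually_all_finset F).2 fun Q _ => ?_
      have h3 : Tendsto (fun y => s.cmp.Rc n y Q) (𝓝 ξ) (𝓝 (s.cmp.Rc n ξ Q)) :=
        ((continuous_apply Q).comp (s.cmp.continuous_Rc n)).tendsto ξ
      rw [s.cmp.Rc_coh hξc] at h3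
      exact h3.eventually (Metric.ball_mem_nhds _ (by positivity))
    obtain ⟨y, hy1, hy2⟩ := mem_closure_iff_nhds.1 h1 _ h2
    have h4 : ∀ R, ∃ a ∈ E t c R, (a : Completion (S R)) = y R := fun R => hy2 R (mem_univ R)
    choose a ha hay using h4
    have h5 : y = cc a := funext fun R => (hay R).symm
    refine ⟨a, hc' t a ha, fun Q hQ => ?_⟩
    have h6 := hy1 Q hQ
    rw [h5, s.cmp_Rc] at h6
    exact h6
  choose a ha hnear using hex
  obtain ⟨t₀⟩ := (inferInstance : Nonempty Par)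
  refine ⟨Ultrafilter.of atTop, fun i => s.Rc i.2.1 (a i), ?_, ?_, ?_⟩
  · intro t δ hδ Q
    obtain ⟨n, hn⟩ := exists_nat_one_div_lt hδ
    refine (Ultrafilter.of_le _) ?_
    filter_upwards [eventually_ge_atTop ((t, n, ∅) : Par × ℕ × Finset T)] with i hi
    refine hanti t i.1 hi.1 δ Q (hmono i.1 _ _ ?_ Q (ha i Q))
    refine le_trans ?_ hn.le
    apply one_div_le_one_div_of_le (by positivity)
    have h3 : n ≤ i.2.1 := hi.2.1
    have : (n : ℝ) ≤ i.2.1 := by exact_mod_cast h3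
    linarith
  · intro n
    refine (Ultrafilter.of_le _) ?_
    filter_upwards [eventually_ge_atTop ((t₀, n, ∅) : Par × ℕ × Finset T)] with i hi Q hQ
    exact s.Rc_lt _ (hQ.trans_le hi.2.1)
  · filter_upwards [hξs] with x hx ε hε k₀
    obtain ⟨k, hk, hd⟩ := hx ε hε k₀
    refine ⟨k, hk, (Ultrafilter.of_le _) ?_⟩
    have hlim : Tendsto (fun i : Par × ℕ × Finset T => cc (s.Rc i.2.1 (a i))) atTop (𝓝 ξ) := by
      rw [tendsto_pi_nhds]
      intro Q
      rw [Metric.tendsto_nhds]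
      intro ε hε
      obtain ⟨n, hn⟩ := exists_nat_one_div_lt hε
      filter_upwards [eventually_ge_atTop ((t₀, n, {Q}) : Par × ℕ × Finset T)] with i hi
      have h1 : Q ∈ i.2.2 := hi.2.2 (Finset.mem_singleton_self Q)
      have h2 := hnear i Q h1
      have h3 : n ≤ i.2.1 := hi.2.1
      refine h2.trans_le (le_trans ?_ hn.le)
      apply one_div_le_one_div_of_le (by positivity)
      have : (n : ℝ) ≤ i.2.1 := by exact_mod_cast h3
      linarith
    have h1 : Tendsto (fun i : Par × ℕ × Finset T => dist (cc (s.Rc i.2.1 (a i)) s.root)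
        (s.cmp.mg (br x) k (cc (s.Rc i.2.1 (a i))) s.root)) atTop
        (𝓝 (dist (ξ s.root) (s.cmp.mg (br x) k ξ s.root))) :=
      (((continuous_apply _).tendsto ξ).comp hlim).dist
        ((((continuous_apply _).comp (s.cmp.continuous_mg (br x) k)).tendsto ξ).comp hlim)
    filter_upwards [h1.eventually (gt_mem_nhds hd)] with i hi
    rw [s.cmp_mg] at hi
    rwa [cc, cc, Completion.dist_eq] at hi

end Vale.Agent.P116.Ms
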