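import Vale.Agent.P116.Slow.Seq
import Vale.Agent.P116.Ms.Spec

/-!
AB4: the count bound passes to the completions.
-/

open Set Filter Topology Metric UniformSpace
open scoped Classical

namespace Vale.Agent.P116.Slow.Sys

variable {T : Type*} {S : T → Type*} [∀ Q, PseudoMetricSpace (S Q)] (s : Sys T S)

lemma continuous_MG (m : ℕ) (A : Finset T) : Continuous (s.MG m A) := by
  refine (s.continuous_Rc m).comp (continuous_pi fun Q => ?_)
  by_cases h : Q ∈ A
  · simp only [h, if_true]
    exact continuous_const
  · simp only [h, if_false]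
    exact continuous_apply Q

lemma cmp_MG (m : ℕ) (A : Finset T) (a : ∀ Q, S Q) : s.cmp.MG m A (cc a) = cc (s.MG m A a) := by
  unfold MG
  rw [← cmp_Rc]
  congr 1
  funext Q
  by_cases h : Q ∈ A
  · simp only [h, if_true, cc]
    rfl
  · simp only [h, if_false, cc]

/-- the points of the product of the completions are limits of points of the product -/
lemma mem_closure_cc (ξ : ∀ Q, Completion (S Q)) :
    ξ ∈ closure (range (cc : (∀ Q, S Q) → ∀ Q, Completion (S Q))) := by
  have h1 : ξ ∈ closure (Set.pi univ fun R => range (fun a : S R => (a : Completion (S R)))) := by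
    rw [closure_pi_set]
    intro R _
    have h2 : closure (range (fun a : S R => (a : Completion (S R)))) = univ :=
      Completion.denseRange_coe.closure_range
    change ξ R ∈ closure (range (fun a : S R => (a : Completion (S R))))
    rw [h2]
    exact mem_univ _
  refine closure_mono ?_ h1
  intro y hy
  have h2 : ∀ R, ∃ a : S R, (a : Completion (S R)) = y R := fun R => hy R (mem_univ R)
  choose a ha using h2
  exact ⟨a, funext ha⟩

end Vale.Agent.P116.Slow.Sys

namespace Vale.Agent.P116.Ms

open Slow Slow.Sys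

/-- **AB4** -/
theorem ab4 : AB4 := by
  intro T S _ s hC Q ε hε
  obtain ⟨N, hN⟩ := hC Q (ε / 2) (by positivity)
  refine ⟨N, fun m ξ A hm hA hd => ?_⟩
  have h1 : ∀ᶠ y in 𝓝 ξ, ∀ u ∈ A,
      ε / 2 < dist (s.cmp.MG m A y Q) (s.cmp.MG m (A.erase u) y Q) := by
    refine (Filter.eventually_all_finset A).2 fun u hu => ?_
    have h2 : Tendsto (fun y => dist (s.cmp.MG m A y Q) (s.cmp.MG m (A.erase u) y Q)) (𝓝 ξ)
        (𝓝 (dist (s.cmp.MG m A ξ Q) (s.cmp.MG m (A.erase u) ξ Q))) :=
      (((continuous_apply Q).comp (s.cmp.continuous_MG m A)).tendsto ξ).dist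
        (((continuous_apply Q).comp (s.cmp.continuous_MG m (A.erase u))).tendsto ξ)
    refine h2.eventually (lt_mem_nhds ?_)
    have := hd u hu
    linarith
  obtain ⟨y, hy, a, rfl⟩ := mem_closure_iff_nhds.1 (mem_closure_cc ξ) _ h1
  refine hN m a A hm hA fun u hu => ?_
  have h3 := hy u hu
  rw [cmp_MG, cmp_MG, cc, cc, Completion.dist_eq] at h3
  exact h3.le

end Vale.Agent.P116.Ms
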