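import Mathlib
import Vale.Agent.P116.Ms.Spec

/-!
# The count bound in a fixed context, and for all the contexts
-/

open Set Filter Topology Metric Bornology MeasureTheory

namespace Vale.Agent.P116.Ms

open H906 PBC Slow

variable {K : Set ℂ} {R ρ : ℝ}

/-- AR1 -/
theorem countCtx (hN : Negl) : CountCtx := by
  intro K R ρ h ε hε
  obtain ⟨η, hη, hη'⟩ := hN h hε
  obtain ⟨N, hN'⟩ := exists_nat_gt ((5 * (R + 1)) ^ 2 / η ^ 2)
  refine ⟨N, fun S hS A hA U hU hbig => ?_⟩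
  have hadm := ns_adm h.cpt h.full hS
  have hR := h.rpos
  have hkr : ∀ u ∈ A, η ≤ kr fk ⟨S, hadm⟩ u := by
    intro u hu
    by_contra hlt
    push Not at hlt
    obtain ⟨z, hz, hz'⟩ := hbig u hu
    exact absurd (hη' S hS u (hA u hu) (U u) (hU u hu) hlt z hz) (not_le.2 hz')
  have hmap := kmap fk ⟨S, hadm⟩
  have hSR : (⋃₀ S : Set ℂ) ⊆ closedBall 0 (R + 1) :=
    (sUnion_subset fun P hP => (hS.sub P hP).trans h.sub).trans
      (closedBall_subset_closedBall (by linarith))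
  have h1 : kT fk ⟨S, hadm⟩ (ball 0 (R + 1)) ⊆ closedBall 0 (5 * (R + 1)) :=
    hmap.Tm_bound hadm (by positivity) hSR
  have h2 := card_disks (T := A) (c := kc fk ⟨S, hadm⟩) (r := kr fk ⟨S, hadm⟩)
    (M := 5 * (R + 1)) hη (by positivity) hkr
    (fun P hP P' hP' hne => hmap.disj P (hA P hP) P' (hA P' hP') hne)
    (fun P hP => by
      intro w hw
      obtain ⟨y, hy⟩ := (hadm.conn P (hA P hP)).nonempty
      refine h1 (Or.inr (mem_iUnion₂.2 ⟨P, ⟨hA P hP, y, ?_, hy⟩, hw⟩))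
      have := h.sub (hS.sub P (hA P hP) hy)
      rw [mem_closedBall] at this
      rw [mem_ball]
      linarith)
  have h3 : (A.card : ℝ) ≤ (5 * (R + 1)) ^ 2 / η ^ 2 := by
    rw [le_div_iff₀ (by positivity)]
    exact h2
  have h4 : (A.card : ℝ) < N := lt_of_le_of_lt h3 hN'
  exact_mod_cast h4.le

/-- replacing a piece by a structure inside it -/
lemma ns_repl {Q : Set ℂ} {S : Set (Set ℂ)} (hS : NS K Q S) {u : Set ℂ} (hu : u ∈ S)
    {U : Set (Set ℂ)} (hU : NS K u U) : NS K Q ((S \ {u}) ∪ U) where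
  fin := (hS.fin.subset sdiff_subset).union hU.fin
  pc := by
    rintro P (hP | hP)
    · exact hS.pc P hP.1
    · exact hU.pc P hP
  disj := by
    rintro P (hP | hP) P' (hP' | hP') hne
    · exact hS.disj P hP.1 P' hP'.1 hne
    · exact (hS.disj P hP.1 u hu (fun e => hP.2 e)).mono_right (hU.sub P' hP')
    · exact ((hS.disj P' hP'.1 u hu (fun e => hP'.2 e)).mono_right (hU.sub P hP)).symm
    · exact hU.disj P hP P' hP' hne
  sub := by
    rintro P (hP | hP)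
    · exact hS.sub P hP.1
    · exact (hU.sub P hP).trans (hS.sub u hu)

/-- AR2 -/
theorem areaBound (h1 : CountCtx) (h2 : CtxNet) : AreaBound := by
  classical
  intro K R ρ h q ε hε
  obtain ⟨𝒪, h𝒪, hnet⟩ := h2 h q (show (0:ℝ) < ε / 8 by positivity)
  obtain ⟨N, hN⟩ := h1 h (show (0:ℝ) < ε / 8 by positivity)
  have hq : q.st ⊆ lev K 0 := nods_sub q.mem
  refine ⟨h𝒪.toFinset.card * N, fun S hS A hA U hU hbig => ?_⟩
  have hne := h.nonempty (Q := q.st)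
  have hne' : Nonempty (CQ K q.st) := nonempty_CQ
  -- the context of a node
  have hctx : ∀ u ∈ A, ∃ O ∈ 𝒪, ∃ z ∈ sphere (0:ℂ) ρ,
      ε / 8 < ‖KM (O.1 ∪ S) z - KM (O.1 ∪ ((S \ {u}) ∪ U u)) z‖ := by
    intro u hu
    have hb := hbig u hu
    obtain ⟨⟨O, z⟩, hOz⟩ := exists_lt_of_lt_ciSup
      (show ε / 2 < ⨆ x : CQ K q.st × sphere (0:ℂ) ρ,
        ‖KM (x.1.1 ∪ S) x.2 - KM (x.1.1 ∪ ((S \ {u}) ∪ U u)) x.2‖ from
        lt_of_lt_of_le (by linarith) hb)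
    obtain ⟨O', hO', hO''⟩ := hnet O
    refine ⟨O', hO', z, z.2, ?_⟩
    have e1 := hO'' ⟨S, hS⟩ z z.2
    have e2 := hO'' ⟨_, ns_repl hS (hA u hu) (hU u hu)⟩ z z.2
    simp only at hOz e1 e2
    have e3 : KM (O.1 ∪ S) z - KM (O.1 ∪ ((S \ {u}) ∪ U u)) z =
        (KM (O.1 ∪ S) z - KM (O'.1 ∪ S) z) +
        (KM (O'.1 ∪ S) z - KM (O'.1 ∪ ((S \ {u}) ∪ U u)) z) -
        (KM (O.1 ∪ ((S \ {u}) ∪ U u)) z - KM (O'.1 ∪ ((S \ {u}) ∪ U u)) z) := by ring
    rw [e3] at hOz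
    have e4 := norm_sub_le ((KM (O.1 ∪ S) z - KM (O'.1 ∪ S) z) +
        (KM (O'.1 ∪ S) z - KM (O'.1 ∪ ((S \ {u}) ∪ U u)) z))
        (KM (O.1 ∪ ((S \ {u}) ∪ U u)) z - KM (O'.1 ∪ ((S \ {u}) ∪ U u)) z)
    have e5 := norm_add_le (KM (O.1 ∪ S) z - KM (O'.1 ∪ S) z)
        (KM (O'.1 ∪ S) z - KM (O'.1 ∪ ((S \ {u}) ∪ U u)) z)
    linarith
  choose! O hO z hz hOz using hctx
  have hfib : ∀ P ∈ h𝒪.toFinset, (A.filter fun u => O u = P).card ≤ N := by
    intro P _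
    refine hN (P.1 ∪ S) (ns_union hq hS P.2.1 P.2.2) (A.filter fun u => O u = P)
      (fun u hu => Or.inr (hA u (Finset.mem_filter.1 hu).1)) U
      (fun u hu => hU u (Finset.mem_filter.1 hu).1) fun u hu => ?_
    obtain ⟨huA, huO⟩ := Finset.mem_filter.1 hu
    refine ⟨z u, hz u huA, ?_⟩
    have h3 := hOz u huA
    rw [huO] at h3
    have hnot : u ∉ P.1 := by
      intro hmem
      obtain ⟨y, hy⟩ : u.Nonempty := (hS.pc u (hA u huA)).nontriv.nonempty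
      exact disjoint_left.1 (P.2.2 u hmem) hy (hS.sub u (hA u huA) hy)
    have e : ((P.1 ∪ S) \ {u}) ∪ U u = P.1 ∪ ((S \ {u}) ∪ U u) := by
      rw [union_sdiff_distrib, sdiff_singleton_eq_self hnot, union_assoc]
    rw [e]
    exact h3
  calc A.card = ∑ P ∈ h𝒪.toFinset, (A.filter fun u => O u = P).card :=
        Finset.card_eq_sum_card_fiberwise fun u hu => by
          simpa using hO u hu
    _ ≤ ∑ P ∈ h𝒪.toFinset, N := Finset.sum_le_sum hfib
    _ = h𝒪.toFinset.card * N := by rw [Finset.sum_const, smul_eq_mul]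

end Vale.Agent.P116.Ms
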