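import Mathlib
import Vale.Agent.P116.Ms.Spec

/-!
# A finite net of contexts
-/

open Set Metric Filter Topology Bornology

namespace Vale.Agent.P116.Ms

open H906 PBC Slow

variable {K Q K2 : Set ℂ} {R ρ : ℝ}

/-- the family whose supremum is the distance of two contexts -/
noncomputable def cF (K Q : Set ℂ) (ρ : ℝ) (O O' : CQ K Q) (x : SQ K Q × sphere (0:ℂ) ρ) : ℝ :=
  ‖KM (O.1 ∪ x.1.1) x.2 - KM (O'.1 ∪ x.1.1) x.2‖

/-- the distance of two contexts -/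
noncomputable def cQ (K Q : Set ℂ) (ρ : ℝ) (O O' : CQ K Q) : ℝ := ⨆ x, cF K Q ρ O O' x

lemma cbdd (h : Far K R ρ) (hQ : Q ⊆ lev K 0) (O O' : CQ K Q) :
    BddAbove (range (cF K Q ρ O O')) := by
  refine ⟨24 * R ^ 2 / ρ + 24 * R ^ 2 / ρ, ?_⟩
  rintro _ ⟨⟨a, z⟩, rfl⟩
  have h1 := h.bound' (h.union hQ a O) z
  have h2 := h.bound' (h.union hQ a O') z
  have e : KM (O.1 ∪ a.1) z - KM (O'.1 ∪ a.1) z =
      (KM (O.1 ∪ a.1) z - z) - (KM (O'.1 ∪ a.1) z - z) := by ring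
  simp only [cF]
  rw [e]
  exact (norm_sub_le _ _).trans (add_le_add h1 h2)

lemma le_cQ (h : Far K R ρ) (hQ : Q ⊆ lev K 0) (O O' : CQ K Q) (a : SQ K Q)
    (z : sphere (0:ℂ) ρ) : ‖KM (O.1 ∪ a.1) z - KM (O'.1 ∪ a.1) z‖ ≤ cQ K Q ρ O O' :=
  le_ciSup (cbdd h hQ O O') (a, z)

lemma cnonempty (h : Far K R ρ) : Nonempty (SQ K Q × sphere (0:ℂ) ρ) := by
  have h1 : Nonempty (sphere (0:ℂ) ρ) := (NormedSpace.sphere_nonempty.2 h.pos.le).to_subtype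
  have h2 : Nonempty (SQ K Q) := ⟨⟨∅, ns_empty⟩⟩
  exact inferInstance

lemma cQ_le (h : Far K R ρ) {O O' : CQ K Q} {C : ℝ}
    (hC : ∀ (a : SQ K Q) (z : sphere (0:ℂ) ρ), ‖KM (O.1 ∪ a.1) z - KM (O'.1 ∪ a.1) z‖ ≤ C) :
    cQ K Q ρ O O' ≤ C := by
  have := cnonempty (Q := Q) h
  exact ciSup_le fun x => hC x.1 x.2

/-- the pseudometric space of contexts -/
@[reducible] noncomputable def cms (h : Far K R ρ) (hQ : Q ⊆ lev K 0) :
    PseudoMetricSpace (CQ K Q) where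
  dist O O' := cQ K Q ρ O O'
  dist_self O := by
    have := cnonempty (Q := Q) h
    simp [cQ, cF]
  dist_comm O O' := by
    unfold cQ cF
    congr 1
    funext x
    rw [norm_sub_rev]
  dist_triangle O O' O'' := by
    refine cQ_le h fun a z => ?_
    have e : KM (O.1 ∪ a.1) z - KM (O''.1 ∪ a.1) z =
      (KM (O.1 ∪ a.1) z - KM (O'.1 ∪ a.1) z) + (KM (O'.1 ∪ a.1) z - KM (O''.1 ∪ a.1) z) := by ring
    rw [e]
    exact (norm_add_le _ _).trans (add_le_add (le_cQ h hQ O O' a z) (le_cQ h hQ O' O'' a z))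

/-- two contexts, a structure, and a point of the circle -/
abbrev CT (K Q : Set ℂ) (ρ : ℝ) : Type := CQ K Q × CQ K Q × SQ K Q × sphere (0:ℂ) ρ

theorem ctb_of (h : Far K R ρ) (hQ : Q ⊆ lev K 0) (hQc : IsCompact Q) (hK2f : Full K2)
    (hK2 : IsCompact K2) (hd : Disjoint Q K2) (hf : Full (Q ∪ K2)) (hK2s : K2 ⊆ lev K 0)
    (hctx : ∀ O : CQ K Q, ∀ P ∈ O.1, P ⊆ K2) :
    @TotallyBounded (CQ K Q) (cms h hQ).toUniformSpace univ := by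
  let _ : PseudoMetricSpace (CQ K Q) := cms h hQ
  rw [totallyBounded_iff_ultrafilter]
  intro 𝔄 _
  rw [Metric.cauchy_iff]
  refine ⟨inferInstance, ?_⟩
  by_contra hcon
  push Not at hcon
  obtain ⟨ε, hε, hcon⟩ := hcon
  have hρ := h.pos
  have hR := h.rpos
  rw [union_comm] at hf
  -- the bad set
  set B : Set (CT K Q ρ) :=
    {p | ε / 2 < ‖KM (p.1.1 ∪ p.2.2.1.1) p.2.2.2 - KM (p.2.1.1 ∪ p.2.2.1.1) p.2.2.2‖} with hB
  have hbad : ∀ t ∈ (𝔄 : Filter (CQ K Q)), ∃ p ∈ B, p.1 ∈ t ∧ p.2.1 ∈ t := by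
    intro t ht
    obtain ⟨x, hx, y, hy, hxy⟩ := hcon t ht
    by_contra hno
    push Not at hno
    have h1 : cQ K Q ρ x y ≤ ε / 2 := cQ_le h fun a z => by
      by_contra hlt
      rw [not_le] at hlt
      exact hno (x, y, a, z) hlt hx hy
    have h2 : dist x y = cQ K Q ρ x y := rfl
    rw [h2] at hxy
    linarith
  -- first coupling
  set L : Filter (CT K Q ρ) :=
    comap (fun p => p.1) 𝔄 ⊓ comap (fun p => p.2.1) 𝔄 ⊓ 𝓟 B with hL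
  have hLne : L.NeBot := by
    rw [hL, inf_neBot_iff]
    intro s hs t ht
    rw [mem_principal] at ht
    obtain ⟨s1, hs1, s2, hs2, rfl⟩ := mem_inf_iff.1 hs
    obtain ⟨t1, ht1, hsub1⟩ := hs1
    obtain ⟨t2, ht2, hsub2⟩ := hs2
    obtain ⟨p, hpB, hp1, hp2⟩ := hbad (t1 ∩ t2) (inter_mem ht1 ht2)
    exact ⟨p, ⟨hsub1 hp1.1, hsub2 hp2.2⟩, ht hpB⟩
  set 𝔘 := Ultrafilter.of L with h𝔘
  have h𝔘L : (𝔘 : Filter _) ≤ L := Ultrafilter.of_le L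
  have hm1 : 𝔘.map (fun p => p.1) = 𝔄 := map_eq_of_le (h𝔘L.trans (inf_le_left.trans inf_le_left))
  have hm2 : 𝔘.map (fun p => p.2.1) = 𝔄 := map_eq_of_le (h𝔘L.trans (inf_le_left.trans inf_le_right))
  have hmB : ∀ᶠ p in (𝔘 : Filter _), p ∈ B := le_principal_iff.1 (h𝔘L.trans inf_le_right)
  -- second coupling
  set L2 : Filter (CT K Q ρ × CT K Q ρ) := comap Prod.fst 𝔘 ⊓ comap Prod.snd 𝔘 ⊓
    𝓟 {pq | pq.2.1 = pq.1.2.1} with hL2
  have hL2ne : L2.NeBot := by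
    rw [hL2, inf_neBot_iff]
    intro s hs t ht
    rw [mem_principal] at ht
    obtain ⟨s1, hs1, s2, hs2, rfl⟩ := mem_inf_iff.1 hs
    obtain ⟨t1, ht1, hsub1⟩ := hs1
    obtain ⟨t2, ht2, hsub2⟩ := hs2
    have i1 : (fun p : CT K Q ρ => p.2.1) '' t1 ∈ (𝔄 : Filter _) := by
      rw [← hm2, Ultrafilter.coe_map]
      exact image_mem_map ht1
    have i2 : (fun p : CT K Q ρ => p.1) '' t2 ∈ (𝔄 : Filter _) := by
      rw [← hm1, Ultrafilter.coe_map]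
      exact image_mem_map ht2
    obtain ⟨w, ⟨p, hp, hpw⟩, ⟨q, hq, hqw⟩⟩ := 𝔄.nonempty_of_mem (inter_mem i1 i2)
    refine ⟨(p, q), ⟨hsub1 hp, hsub2 hq⟩, ht ?_⟩
    show q.1 = p.2.1
    simp only at hpw hqw
    rw [hpw, hqw]
  set 𝔚 := Ultrafilter.of L2 with h𝔚
  have h𝔚L : (𝔚 : Filter _) ≤ L2 := Ultrafilter.of_le L2
  have hw1 : 𝔚.map Prod.fst = 𝔘 := map_eq_of_le (h𝔚L.trans (inf_le_left.trans inf_le_left))
  have hw2 : 𝔚.map Prod.snd = 𝔘 := map_eq_of_le (h𝔚L.trans (inf_le_left.trans inf_le_right))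
  have hwe : ∀ᶠ pq in (𝔚 : Filter (CT K Q ρ × CT K Q ρ)), pq.2.1 = pq.1.2.1 :=
    le_principal_iff.1 (h𝔚L.trans inf_le_right)
  -- admissibility
  have hadm : ∀ (a : SQ K Q) (O : CQ K Q), Adm (a.1 ∪ O.1) := fun a O => by
    rw [union_comm]
    exact ns_adm h.cpt h.full (h.union hQ a O)
  have hsubU : ∀ (a : SQ K Q) (O : CQ K Q), ∀ P ∈ a.1 ∪ O.1, P ⊆ K2 ∪ Q := by
    rintro a O P (hP | hP)
    · exact (a.2.sub P hP).trans subset_union_right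
    · exact (hctx O P hP).trans subset_union_left
  have hKR : K2 ∪ Q ⊆ closedBall 0 R := union_subset (hK2s.trans h.sub) (hQ.trans h.sub)
  have hVo : IsOpen (K2 ∪ Q)ᶜ := (hK2.union hQc).isClosed.isOpen_compl
  -- limits
  have e1 : Exh (𝔘 : Filter (CT K Q ρ)) (K2 ∪ Q)ᶜ (fun p : CT K Q ρ => (⋃₀ (p.2.2.1.1 ∪ p.1.1))ᶜ)
      (fun p : CT K Q ρ => KM (p.2.2.1.1 ∪ p.1.1)) R :=
    exh_of hK2 hQc hf (fun p : CT K Q ρ => hadm p.2.2.1 p.1) (fun p => hsubU p.2.2.1 p.1) hR hKR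
  have e2 : Exh (𝔘 : Filter (CT K Q ρ)) (K2 ∪ Q)ᶜ
      (fun p : CT K Q ρ => (⋃₀ (p.2.2.1.1 ∪ p.2.1.1))ᶜ)
      (fun p : CT K Q ρ => KM (p.2.2.1.1 ∪ p.2.1.1)) R :=
    exh_of hK2 hQc hf (fun p : CT K Q ρ => hadm p.2.2.1 p.2.1) (fun p => hsubU p.2.2.1 p.2.1) hR hKR
  obtain ⟨f, hf1⟩ := e1.exists_lim
  obtain ⟨f', hf2⟩ := e2.exists_lim
  -- mixing
  have hX := tlu_comp hw1 hf1
  have hY : TendstoLocallyUniformlyOn
      (fun i : CT K Q ρ × CT K Q ρ => KM (i.2.2.2.1.1 ∪ i.1.2.1.1)) f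
      (𝔚 : Filter (CT K Q ρ × CT K Q ρ)) (K2 ∪ Q)ᶜ := by
    have h1 := tlu_comp hw2 hf1
    intro u hu x hx
    obtain ⟨t, ht, hev⟩ := h1 u hu x hx
    refine ⟨t, ht, ?_⟩
    filter_upwards [hev, hwe] with pq h2 h3 y hy
    have := h2 y hy
    rw [h3] at this
    exact this
  obtain ⟨R', hmix⟩ := mixing (𝔉 := 𝔚) hK2 hQc hd.symm hK2f hf
    (a := fun i => i.1.1.1) (a' := fun i => i.1.2.1.1) (O := fun i => i.1.2.2.1.1)
    (O'' := fun i => i.2.2.2.1.1)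
    (fun i => hctx i.1.1) (fun i => hctx i.1.2.1) (fun i => i.1.2.2.1.2.sub)
    (fun i => i.2.2.2.1.2.sub) (fun i => hadm i.1.2.2.1 i.1.1) (fun i => hadm i.2.2.2.1 i.1.2.1)
    (fun i => hadm i.1.2.2.1 i.1.2.1) hX hY
  -- `f = f'`
  have hff : EqOn f f' (K2 ∪ Q)ᶜ := by
    obtain ⟨z₁, hz₁⟩ : ∃ z₁ : ℂ, max R R' < ‖z₁‖ := by
      refine ⟨((|max R R'| + 1 : ℝ) : ℂ), ?_⟩
      rw [Complex.norm_real, Real.norm_of_nonneg (by positivity)]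
      linarith [le_abs_self (max R R')]
    rw [max_lt_iff] at hz₁
    have hz₁V : z₁ ∈ (K2 ∪ Q)ᶜ := by
      intro hm
      have := hKR hm
      rw [mem_closedBall_zero_iff] at this
      linarith
    refine ((e1.lim_diff hf1).analyticOnNhd hVo).eqOn_of_preconnected_of_eventuallyEq
      ((e2.lim_diff hf2).analyticOnNhd hVo) e1.conn hz₁V ?_
    filter_upwards [(isOpen_lt continuous_const continuous_norm).mem_nhds hz₁.2,
      hVo.mem_nhds hz₁V] with z hz hzV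
    have t1 : Tendsto (fun i : CT K Q ρ × CT K Q ρ => KM (i.1.2.2.1.1 ∪ i.1.2.1.1) z)
        (𝔚 : Filter _) (𝓝 (f' z)) :=
      (tlu_comp hw1 hf2).tendsto_at hzV
    exact tendsto_nhds_unique (hmix z hz) t1
  -- contradiction
  have hsph : sphere (0:ℂ) ρ ⊆ (K2 ∪ Q)ᶜ := by
    intro z hz hm
    have := hKR hm
    rw [mem_closedBall_zero_iff] at this
    rw [mem_sphere_zero_iff_norm] at hz
    have := h.lt
    linarith
  have u1 := Metric.tendstoUniformlyOn_iff.1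
    ((tendstoLocallyUniformlyOn_iff_forall_isCompact hVo).1 hf1 _ hsph (isCompact_sphere 0 ρ))
    (ε / 4) (by positivity)
  have u2 := Metric.tendstoUniformlyOn_iff.1
    ((tendstoLocallyUniformlyOn_iff_forall_isCompact hVo).1 hf2 _ hsph (isCompact_sphere 0 ρ))
    (ε / 4) (by positivity)
  obtain ⟨p, ⟨hp1, hp2⟩, hp3⟩ := ((u1.and u2).and hmB).exists
  have a1 := hp1 p.2.2.2 p.2.2.2.2
  have a2 := hp2 p.2.2.2 p.2.2.2.2
  rw [← hff (hsph p.2.2.2.2)] at a2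
  have a3 := dist_triangle_left (KM (p.2.2.1.1 ∪ p.1.1) p.2.2.2) (KM (p.2.2.1.1 ∪ p.2.1.1) p.2.2.2)
    (f p.2.2.2)
  rw [dist_eq_norm (KM (p.2.2.1.1 ∪ p.1.1) p.2.2.2)] at a3
  have a4 : ε / 2 < ‖KM (p.1.1 ∪ p.2.2.1.1) p.2.2.2 - KM (p.2.1.1 ∪ p.2.2.1.1) p.2.2.2‖ := hp3
  rw [union_comm p.1.1, union_comm p.2.1.1] at a4
  linarith

/-- a finite net from total boundedness -/
lemma net_of (h : Far K R ρ) (hQ : Q ⊆ lev K 0)
    (htb : @TotallyBounded (CQ K Q) (cms h hQ).toUniformSpace univ) {ε : ℝ} (hε : 0 < ε) :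
    ∃ 𝒪 : Set (CQ K Q), 𝒪.Finite ∧ ∀ O : CQ K Q, ∃ O' ∈ 𝒪, ∀ a : SQ K Q,
      ∀ z ∈ sphere (0:ℂ) ρ, ‖KM (O.1 ∪ a.1) z - KM (O'.1 ∪ a.1) z‖ ≤ ε := by
  let _ : PseudoMetricSpace (CQ K Q) := cms h hQ
  obtain ⟨t, ht, hcov⟩ := Metric.totallyBounded_iff.1 htb ε hε
  refine ⟨t, ht, fun O => ?_⟩
  obtain ⟨O', hO', hOO⟩ := mem_iUnion₂.1 (hcov (mem_univ O))
  refine ⟨O', hO', fun a z hz => ?_⟩
  have h1 : cQ K Q ρ O O' < ε := mem_ball.1 hOO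
  exact (le_cQ h hQ O O' a ⟨z, hz⟩).trans h1.le

/-- CN -/
theorem ctxNet : CtxNet := by
  intro K R ρ h q ε hε
  obtain ⟨⟨n, Q⟩, hq⟩ := q
  cases n with
  | zero =>
    have hQ : Q = lev K 0 := hq
    subst hQ
    change ∃ 𝒪 : Set (CQ K (lev K 0)), 𝒪.Finite ∧ ∀ O : CQ K (lev K 0), ∃ O' ∈ 𝒪,
      ∀ a : SQ K (lev K 0), ∀ z ∈ sphere (0:ℂ) ρ, ‖KM (O.1 ∪ a.1) z - KM (O'.1 ∪ a.1) z‖ ≤ ε
    have hemp : ∀ O : CQ K (lev K 0), O.1 = ∅ := by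
      intro O
      rw [eq_empty_iff_forall_notMem]
      intro P hP
      obtain ⟨x, hx⟩ := (O.2.1.pc P hP).nontriv.nonempty
      exact disjoint_left.1 (O.2.2 P hP) hx (O.2.1.sub P hP hx)
    refine ⟨{⟨∅, ns_empty, fun _ hP => hP.elim⟩}, finite_singleton _, fun O =>
      ⟨_, mem_singleton _, fun a z _ => ?_⟩⟩
    rw [hemp O, sub_self, norm_zero]
    exact hε.le
  | succ n =>
    obtain ⟨x, hx, hxQ⟩ := hq
    have hxQ' : nd K n x = Q := hxQ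
    subst hxQ'
    have hK := h.cpt
    have hcpt : IsCompact (⋃₀ TT K n x) := by
      refine (TT_fin hK n x).isCompact_sUnion ?_
      rintro _ ⟨m, _, y, _, rfl, -, -⟩
      exact isCompact_nd hK m y
    have hd : Disjoint (nd K n x) (⋃₀ TT K n x) := by
      rw [disjoint_sUnion_right]
      exact fun N hN => (TT_disj_nd hN).symm
    have hfull : Full (⋃₀ TT K n x) := by
      refine full_nodes hK h.full (TT_fin hK n x) ?_ TT_disj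
      rintro _ ⟨m, _, y, hy, rfl, -, -⟩
      exact Or.inr ⟨m, y, hy, rfl⟩
    have htb := ctb_of h (nd_sub_lev0 n x) (isCompact_nd hK n x) hfull hcpt hd
      (full_union (isCompact_nd hK n x) hcpt (full_nd hK n x) hfull hd) (by
        refine sUnion_subset ?_
        rintro _ ⟨m, _, y, _, rfl, -, -⟩
        exact nd_sub_lev0 m y) (fun O P hP => TT_cover hx (O.2.1.pc P hP) (O.2.2 P hP))
    exact net_of h (nd_sub_lev0 n x) htb hε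

end Vale.Agent.P116.Ms
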