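import Mathlib
import Vale.Agent.P116.Ms.AR1
import Vale.Agent.P116.Ms.AR3
import Vale.Agent.P116.Ms.CN

/-!
# The count bound from the bound for small disks
-/

namespace Vale.Agent.P116.Ms

/-- AR1 + AR2 + CN + AR3 -/
theorem sysCnt_of_negl (hN : Negl) : SysCnt := sysCnt (areaBound (countCtx hN) ctxNet)

end Vale.Agent.P116.Ms
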