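import Vale.Agent.P116.Ms.AR1

/-!
# Block EN7: a small disk is negligible (helper906)
-/

open Set Filter Topology Metric Bornology MeasureTheory

namespace Vale.Agent.P116.Ms

open H906 PBC Slow

section

variable {S S' : Set (Set ℂ)} {f f' : ℂ → ℂ} {c c' : Set ℂ → ℂ} {r r' : Set ℂ → ℝ}

/-- the domain of the inverse -/
def Od7 (S : Set (Set ℂ)) (c : Set ℂ → ℂ) (r : Set ℂ → ℝ) : Set ℂ :=
  (⋃ P ∈ S, closedBall (c P) (r P))ᶜ

theorem inv_mem (h : CMap S f c r) {z : ℂ} (hz : z ∈ Od7 S c r) :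
    Function.invFunOn f (⋃₀ S)ᶜ z ∈ (⋃₀ S)ᶜ ∧ f (Function.invFunOn f (⋃₀ S)ᶜ z) = z := by
  have h1 : z ∈ f '' (⋃₀ S)ᶜ := by rw [h.image]; exact hz
  exact ⟨Function.invFunOn_mem h1, Function.invFunOn_eq h1⟩

theorem inv_f (h : CMap S f c r) {x : ℂ} (hx : x ∈ (⋃₀ S)ᶜ) :
    f x ∈ Od7 S c r ∧ Function.invFunOn f (⋃₀ S)ᶜ (f x) = x := by
  have h1 : f x ∈ Od7 S c r := by
    show f x ∈ (⋃ P ∈ S, closedBall (c P) (r P))ᶜ
    rw [← h.image]; exact mem_image_of_mem _ hx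
  exact ⟨h1, h.nu.inj (inv_mem h h1).1 hx (inv_mem h h1).2⟩

theorem od_cob (hS : Adm S) : Od7 S c r ∈ cobounded ℂ := by
  refine Bornology.IsBounded.compl ?_
  rw [isBounded_biUnion hS.fin]
  exact fun P _ => isBounded_closedBall

/-- near a hole -/
theorem near_hole (h : CMap S f c r) {α : Type*} {𝒱 : Filter α} {g : α → ℂ} {x₀ : ℂ}
    (hg : ∀ᶠ a in 𝒱, g a ∈ (⋃₀ S)ᶜ) (hlim : Tendsto g 𝒱 (𝓝 x₀)) {P : Set ℂ} (hP : P ∈ S)
    (hx : x₀ ∈ P) : Tendsto (fun a => infDist (f (g a)) (closedBall (c P) (r P))) 𝒱 (𝓝 0) :=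
  (h.lim P hP x₀ hx).comp (tendsto_nhdsWithin_iff.2 ⟨hlim, hg⟩)

theorem inv_inf (hS : Adm S) (h : CMap S f c r) :
    Tendsto (Function.invFunOn f (⋃₀ S)ᶜ) (cobounded ℂ) (cobounded ℂ) := by
  rw [tendsto_iff_ultrafilter]
  intro 𝒱 h𝒱
  by_contra hcon
  set g := Function.invFunOn f (⋃₀ S)ᶜ with hg
  rw [← comap_norm_atTop, tendsto_comap_iff, Filter.tendsto_atTop] at hcon
  push Not at hcon
  obtain ⟨R, hR⟩ := hcon
  have hO : ∀ᶠ z in (𝒱 : Filter ℂ), z ∈ Od7 S c r := h𝒱 (od_cob hS)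
  have hbd : closedBall (0:ℂ) R ∈ ((𝒱.map g : Ultrafilter ℂ) : Filter ℂ) := by
    rw [Ultrafilter.coe_map, Filter.mem_map]
    filter_upwards [hR] with z hz
    rw [mem_preimage, mem_closedBall, dist_zero_right]
    exact le_of_lt hz
  obtain ⟨x₀, -, hx₀⟩ := (isCompact_closedBall (0:ℂ) R).ultrafilter_le_nhds (𝒱.map g)
    (le_principal_iff.2 hbd)
  have hlim : Tendsto g (𝒱 : Filter ℂ) (𝓝 x₀) := hx₀
  have hgz : ∀ᶠ z in (𝒱 : Filter ℂ), g z ∈ (⋃₀ S)ᶜ := by
    filter_upwards [hO] with z hz using (inv_mem h hz).1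
  have hnorm : Tendsto (fun z : ℂ => ‖z‖) (𝒱 : Filter ℂ) atTop :=
    tendsto_norm_cobounded_atTop.mono_left h𝒱
  by_cases hx : x₀ ∈ ⋃₀ S
  · obtain ⟨P, hP, hxP⟩ := hx
    have h1 := near_hole h hgz hlim hP hxP
    obtain ⟨M, hM⟩ := (isBounded_closedBall (x := c P) (r := r P)).subset_closedBall 0
    have h2 : ∀ᶠ z in (𝒱 : Filter ℂ), infDist (f (g z)) (closedBall (c P) (r P)) < 1 :=
      h1.eventually (gt_mem_nhds one_pos)
    obtain ⟨z, hz1, hz2, hz3⟩ := (h2.and (hO.and (hnorm.eventually_gt_atTop (M + 1)))).exists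
    rw [(inv_mem h hz2).2] at hz1
    obtain ⟨y, hy, hy2⟩ := (infDist_lt_iff ⟨c P, mem_closedBall_self (h.rpos P hP).le⟩).1 hz1
    have h3 := hM hy
    rw [mem_closedBall, dist_zero_right] at h3
    rw [dist_eq_norm] at hy2
    have h4 : ‖z‖ ≤ ‖z - y‖ + ‖y‖ := by
      have := norm_add_le (z - y) y
      rwa [sub_add_cancel] at this
    linarith
  · have h1 : Tendsto (fun z => ‖f (g z)‖) (𝒱 : Filter ℂ) (𝓝 ‖f x₀‖) :=
      (((h.nu.diff.differentiableAt (hS.isOpen_compl.mem_nhds hx)).continuousAt.norm).tendsto).comp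
        hlim
    have h2 : Tendsto (fun z => ‖f (g z)‖) (𝒱 : Filter ℂ) atTop := by
      refine Tendsto.congr' ?_ hnorm
      filter_upwards [hO] with z hz
      rw [(inv_mem h hz).2]
    exact not_tendsto_atTop_of_tendsto_nhds h1 h2

/-- the image of a compact set with holes is compact -/
theorem tm_cpt (hS : Adm S) (h : CMap S f c r) {Γ : Set ℂ} (hΓ : IsCompact Γ) :
    IsCompact (Tm S f c r Γ) := by
  classical
  have hfinU : IsCompact (⋃ P ∈ {P | P ∈ S ∧ (Γ ∩ P).Nonempty}, closedBall (c P) (r P)) :=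
    (hS.fin.subset (fun P hP => hP.1)).isCompact_biUnion fun P _ => isCompact_closedBall _ _
  rw [isCompact_iff_ultrafilter_le_nhds]
  intro 𝒰 h𝒰
  rw [le_principal_iff] at h𝒰
  unfold Tm at h𝒰
  rw [Ultrafilter.mem_coe, Ultrafilter.union_mem_iff] at h𝒰
  rcases h𝒰 with h𝒰 | h𝒰
  · -- pull back
    set g := Function.invFunOn f (⋃₀ S)ᶜ with hg
    have hgm : ∀ᶠ w in (𝒰 : Filter ℂ), g w ∈ Γ ∧ g w ∈ (⋃₀ S)ᶜ ∧ f (g w) = w := by
      filter_upwards [h𝒰] with w hw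
      obtain ⟨x, ⟨hx1, hx2⟩, rfl⟩ := hw
      have := inv_f h hx2
      rw [hg, this.2]
      exact ⟨hx1, hx2, rfl⟩
    have hbd : Γ ∈ ((𝒰.map g : Ultrafilter ℂ) : Filter ℂ) := by
      rw [Ultrafilter.coe_map, Filter.mem_map]
      filter_upwards [hgm] with w hw using hw.1
    obtain ⟨x₀, hx₀Γ, hx₀⟩ := hΓ.ultrafilter_le_nhds (𝒰.map g) (le_principal_iff.2 hbd)
    have hlim : Tendsto g (𝒰 : Filter ℂ) (𝓝 x₀) := hx₀
    have hgz : ∀ᶠ z in (𝒰 : Filter ℂ), g z ∈ (⋃₀ S)ᶜ := by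
      filter_upwards [hgm] with z hz using hz.2.1
    by_cases hx : x₀ ∈ ⋃₀ S
    · obtain ⟨P, hP, hxP⟩ := hx
      have h1 := near_hole h hgz hlim hP hxP
      have h1' : Tendsto (fun w => infDist w (closedBall (c P) (r P))) (𝒰 : Filter ℂ) (𝓝 0) := by
        refine Tendsto.congr' ?_ h1
        filter_upwards [hgm] with w hw
        rw [hw.2.2]
      have h2 : closedBall (c P) (r P + 1) ∈ (𝒰 : Filter ℂ) := by
        filter_upwards [h1'.eventually (gt_mem_nhds one_pos)] with w hw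
        obtain ⟨y, hy, hy2⟩ := (infDist_lt_iff ⟨c P, mem_closedBall_self (h.rpos P hP).le⟩).1 hw
        rw [mem_closedBall] at hy ⊢
        have := dist_triangle w y (c P)
        linarith
      obtain ⟨w₀, -, hw₀⟩ := (isCompact_closedBall (c P) (r P + 1)).ultrafilter_le_nhds 𝒰
        (le_principal_iff.2 h2)
      refine ⟨w₀, ?_, hw₀⟩
      have h3 : Tendsto (fun w => infDist w (closedBall (c P) (r P))) (𝒰 : Filter ℂ)
          (𝓝 (infDist w₀ (closedBall (c P) (r P)))) :=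
        ((continuous_infDist_pt _).tendsto w₀).mono_left hw₀
      have h4 := tendsto_nhds_unique h3 h1'
      have h5 : w₀ ∈ closedBall (c P) (r P) :=
        (isClosed_closedBall.mem_iff_infDist_zero (x := w₀)
          ⟨c P, mem_closedBall_self (h.rpos P hP).le⟩).2 h4
      exact Or.inr (mem_iUnion₂.2 ⟨P, ⟨hP, x₀, hx₀Γ, hxP⟩, h5⟩)
    · refine ⟨f x₀, Or.inl ⟨x₀, ⟨hx₀Γ, hx⟩, rfl⟩, ?_⟩
      have h1 : Tendsto (fun w => f (g w)) (𝒰 : Filter ℂ) (𝓝 (f x₀)) :=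
        (((h.nu.diff.differentiableAt (hS.isOpen_compl.mem_nhds hx)).continuousAt).tendsto).comp
          hlim
      have h2 : Tendsto (fun w : ℂ => w) (𝒰 : Filter ℂ) (𝓝 (f x₀)) := by
        refine Tendsto.congr' ?_ h1
        filter_upwards [hgm] with w hw using hw.2.2
      exact h2
  · obtain ⟨w₀, hw₀, hle⟩ := hfinU.ultrafilter_le_nhds 𝒰 (le_principal_iff.2 h𝒰)
    exact ⟨w₀, Or.inr hw₀, hle⟩

open Classical in
/-- the holes of the transition map -/
noncomputable def Lf7 (S' : Set (Set ℂ)) (f' : ℂ → ℂ) (c' : Set ℂ → ℂ) (r' : Set ℂ → ℝ)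
    (u P : Set ℂ) : Set ℂ :=
  if P = u then Tm S' f' c' r' u else closedBall (c' P) (r' P)

/-- the transition map -/
noncomputable def tr7 (S : Set (Set ℂ)) (f f' : ℂ → ℂ) (z : ℂ) : ℂ :=
  f' (Function.invFunOn f (⋃₀ S)ᶜ z)

theorem ep_of (hS : Adm S) (hS' : Adm S') (h : CMap S f c r) (h' : CMap S' f' c' r') {u : Set ℂ}
    (hu : u ∈ S) (h1 : ∀ P ∈ S, P ≠ u → P ∈ S') (h2 : ∀ P ∈ S', (P ∈ S ∧ P ≠ u) ∨ P ⊆ u)
    {R : ℝ} (hR : 0 < R) (hSR : ∀ P ∈ S, P ⊆ ball 0 R) {n : ℕ} (e : Fin n ≃ S) :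
    EP (fun j => c (e j).1) (fun j => r (e j).1) (fun j => Lf7 S' f' c' r' u (e j).1)
      (tr7 S f f') (5 * R) := by
  classical
  have hsub : (⋃₀ S)ᶜ ⊆ (⋃₀ S')ᶜ := by
    intro x hx
    rintro ⟨P, hP, hxP⟩
    rcases h2 P hP with h3 | h3
    · exact hx ⟨P, h3.1, hxP⟩
    · exact hx ⟨u, hu, h3 hxP⟩
  have hU : (⋃ j, closedBall (c (e j).1) (r (e j).1)) = ⋃ P ∈ S, closedBall (c P) (r P) := by
    ext z
    simp only [mem_iUnion]
    constructor
    · rintro ⟨j, hj⟩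
      exact ⟨(e j).1, (e j).2, hj⟩
    · rintro ⟨P, hP, hz⟩
      refine ⟨e.symm ⟨P, hP⟩, ?_⟩
      rw [e.apply_symm_apply]
      exact hz
  have hUo : (⋃ j, closedBall (c (e j).1) (r (e j).1))ᶜ = Od7 S c r := by rw [hU]; rfl
  have hO : IsOpen (Od7 S c r) := (h.disksClosed hS).isOpen_compl
  have hLu : Lf7 S' f' c' r' u u = Tm S' f' c' r' u := by unfold Lf7; rw [if_pos rfl]
  have hLP : ∀ P, P ≠ u → Lf7 S' f' c' r' u P = closedBall (c' P) (r' P) := by
    intro P hP; unfold Lf7; rw [if_neg hP]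
  have hdisj : ∀ P ∈ S, P ≠ u → Disjoint (Tm S' f' c' r' u) (closedBall (c' P) (r' P)) := by
    intro P hP hPu
    rw [disjoint_left]
    rintro w (⟨x, ⟨hx1, hx2⟩, rfl⟩ | hw) hwP
    · exact h'.notMem hx2 (h1 P hP hPu) hwP
    · obtain ⟨Q, ⟨hQ, y, hy1, hy2⟩, hwQ⟩ := mem_iUnion₂.1 hw
      have hQP : Q ≠ P := by
        rintro rfl
        exact disjoint_left.1 (hS.disj Q hP u hu hPu) hy2 hy1
      exact disjoint_left.1 (h'.disj Q hQ P (h1 P hP hPu) hQP) hwQ hwP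
  refine
    { pos := by positivity
      rpos := fun j => h.rpos _ (e j).2
      disj := fun i j hij => h.disj _ (e i).2 _ (e j).2 fun he => hij (e.injective (Subtype.ext he))
      sub := fun j => disk_bound hS h hR hSR (e j).2
      Lc := fun j => ?_
      Lne := fun j => ?_
      Ldisj := fun i j hij => ?_
      diff := ?_
      inj := ?_
      image := ?_
      norm := ?_
      bdry := fun j ε hε => ?_ }
  · -- compact
    by_cases hj : (e j).1 = u
    · rw [hj, hLu]; exact tm_cpt hS' h' (hS.cpt u hu)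
    · rw [hLP _ hj]; exact isCompact_closedBall _ _
  · -- nonempty
    by_cases hj : (e j).1 = u
    · rw [hj, hLu]
      obtain ⟨x, hx⟩ := (hS.conn u hu).nonempty
      by_cases hxS : x ∈ ⋃₀ S'
      · obtain ⟨P, hP, hxP⟩ := hxS
        exact ⟨c' P, Or.inr (mem_iUnion₂.2 ⟨P, ⟨hP, x, hx, hxP⟩,
          mem_closedBall_self (h'.rpos P hP).le⟩)⟩
      · exact ⟨f' x, Or.inl ⟨x, ⟨hx, hxS⟩, rfl⟩⟩
    · rw [hLP _ hj]
      exact ⟨c' (e j).1, mem_closedBall_self (h'.rpos _ (h1 _ (e j).2 hj)).le⟩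
  · -- disjoint
    have hne : (e i).1 ≠ (e j).1 := fun he => hij (e.injective (Subtype.ext he))
    by_cases hi : (e i).1 = u
    · have hj : (e j).1 ≠ u := fun hj => hne (hi.trans hj.symm)
      rw [hi, hLu, hLP _ hj]
      exact hdisj _ (e j).2 hj
    · by_cases hj : (e j).1 = u
      · rw [hj, hLu, hLP _ hi]
        exact (hdisj _ (e i).2 hi).symm
      · rw [hLP _ hi, hLP _ hj]
        exact h'.disj _ (h1 _ (e i).2 hi) _ (h1 _ (e j).2 hj) hne
  · -- differentiable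
    rw [hUo]
    have h3 : DifferentiableOn ℂ (Function.invFunOn f (⋃₀ S)ᶜ) (Od7 S c r) := by
      have := inv_diff hS.isOpen_compl h.nu.diff h.nu.inj
      rw [h.image] at this
      exact this
    exact h'.nu.diff.comp h3 fun z hz => hsub (inv_mem h hz).1
  · -- injective
    rw [hUo]
    intro z hz z' hz' hzz
    have h3 := h'.nu.inj (hsub (inv_mem h hz).1) (hsub (inv_mem h hz').1) hzz
    rw [← (inv_mem h hz).2, ← (inv_mem h hz').2, h3]
  · -- image
    rw [hUo]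
    apply Subset.antisymm
    · rintro _ ⟨z, hz, rfl⟩ hmem
      obtain ⟨j, hj⟩ := mem_iUnion.1 hmem
      have hx := (inv_mem h hz).1
      by_cases hju : (e j).1 = u
      · rw [hju, hLu] at hj
        exact h'.notMem_Tm (hsub hx) (fun hxu => hx ⟨u, hu, hxu⟩) hj
      · rw [hLP _ hju] at hj
        exact h'.notMem (hsub hx) (h1 _ (e j).2 hju) hj
    · intro w hw
      have hwL : ∀ P ∈ S, w ∉ Lf7 S' f' c' r' u P := by
        intro P hP hmem
        refine hw (mem_iUnion.2 ⟨e.symm ⟨P, hP⟩, ?_⟩)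
        rw [e.apply_symm_apply]
        exact hmem
      obtain ⟨x, hx, hxw⟩ := h'.exists_pre (w := w) fun P hP hmem => by
        rcases h2 P hP with h3 | h3
        · exact hwL P h3.1 (by rw [hLP _ h3.2]; exact hmem)
        · refine hwL u hu ?_
          rw [hLu]
          obtain ⟨y, hy⟩ := (hS'.conn P hP).nonempty
          exact Or.inr (mem_iUnion₂.2 ⟨P, ⟨hP, y, h3 hy, hy⟩, hmem⟩)
      have hxu : x ∉ u := by
        intro hxu
        refine hwL u hu ?_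
        rw [hLu]
        exact Or.inl ⟨x, ⟨hxu, hx⟩, hxw⟩
      have hxS : x ∈ (⋃₀ S)ᶜ := by
        rintro ⟨P, hP, hxP⟩
        by_cases hPu : P = u
        · exact hxu (hPu ▸ hxP)
        · exact hx ⟨P, h1 P hP hPu, hxP⟩
      refine ⟨f x, (inv_f h hxS).1, ?_⟩
      unfold tr7
      rw [(inv_f h hxS).2]
      exact hxw
  · -- at infinity
    have h3 := inv_inf hS h
    have h4 : Tendsto (fun z => f' (Function.invFunOn f (⋃₀ S)ᶜ z) -
        Function.invFunOn f (⋃₀ S)ᶜ z) (cobounded ℂ) (𝓝 0) := h'.nu.norm.comp h3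
    have h5 : Tendsto (fun z => f (Function.invFunOn f (⋃₀ S)ᶜ z) -
        Function.invFunOn f (⋃₀ S)ᶜ z) (cobounded ℂ) (𝓝 0) := h.nu.norm.comp h3
    have h6 := h4.sub h5
    rw [sub_zero] at h6
    refine Tendsto.congr' ?_ h6
    filter_upwards [od_cob (c := c) (r := r) hS] with z hz
    have := (inv_mem h hz).2
    unfold tr7
    rw [this]
    ring
  · -- boundary
    by_contra hcon
    push Not at hcon
    -- an ultrafilter of bad points
    set bad : Set ℂ := {z | z ∉ ⋃ j, closedBall (c (e j).1) (r (e j).1) ∧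
      ε ≤ infDist (tr7 S f f' z) (Lf7 S' f' c' r' u (e j).1)} with hbad
    set P := (e j).1 with hPdef
    have hPS : P ∈ S := (e j).2
    have hne : (closedBall (c P) (r P)).Nonempty := ⟨c P, mem_closedBall_self (h.rpos P hPS).le⟩
    have hNB : (comap (fun z => infDist z (closedBall (c P) (r P))) (𝓝 0) ⊓ 𝓟 bad).NeBot := by
      rw [inf_principal_neBot_iff]
      intro t ht
      obtain ⟨v, hv, hvt⟩ := ht
      obtain ⟨δ, hδ, hδv⟩ := Metric.mem_nhds_iff.1 hv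
      obtain ⟨z, hz1, hz2, hz3⟩ := hcon δ hδ
      refine ⟨z, hvt ?_, hz1, hz3⟩
      refine hδv ?_
      rw [mem_ball, dist_zero_right, Real.norm_of_nonneg infDist_nonneg]
      exact hz2
    obtain ⟨𝒱, h𝒱⟩ := (Filter.exists_ultrafilter_iff).2 hNB
    obtain ⟨hV1, hV2⟩ := le_inf_iff.1 h𝒱
    rw [le_principal_iff] at hV2
    have hdist : Tendsto (fun z => infDist z (closedBall (c P) (r P))) (𝒱 : Filter ℂ) (𝓝 0) :=
      tendsto_iff_comap.2 hV1
    have hmemO : ∀ᶠ z in (𝒱 : Filter ℂ), z ∈ Od7 S c r := by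
      filter_upwards [hV2] with z hz
      rw [← hUo]; exact hz.1
    -- the limit
    have hbd : closedBall (c P) (r P + 1) ∈ (𝒱 : Filter ℂ) := by
      filter_upwards [hdist.eventually (gt_mem_nhds one_pos)] with w hw
      obtain ⟨y, hy, hy2⟩ := (infDist_lt_iff hne).1 hw
      rw [mem_closedBall] at hy ⊢
      have := dist_triangle w y (c P)
      linarith
    obtain ⟨z₀, -, hz₀⟩ := (isCompact_closedBall (c P) (r P + 1)).ultrafilter_le_nhds 𝒱
      (le_principal_iff.2 hbd)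
    have hz₀P : z₀ ∈ closedBall (c P) (r P) := by
      have h3 : Tendsto (fun w => infDist w (closedBall (c P) (r P))) (𝒱 : Filter ℂ)
          (𝓝 (infDist z₀ (closedBall (c P) (r P)))) :=
        ((continuous_infDist_pt _).tendsto z₀).mono_left hz₀
      exact (isClosed_closedBall.mem_iff_infDist_zero (x := z₀) hne).2
        (tendsto_nhds_unique h3 hdist)
    set g := Function.invFunOn f (⋃₀ S)ᶜ with hg
    have hgz : ∀ᶠ z in (𝒱 : Filter ℂ), g z ∈ (⋃₀ S)ᶜ := by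
      filter_upwards [hmemO] with z hz using (inv_mem h hz).1
    have hfg : Tendsto (fun z => f (g z)) (𝒱 : Filter ℂ) (𝓝 z₀) := by
      refine Tendsto.congr' ?_ (show Tendsto (fun z : ℂ => z) (𝒱 : Filter ℂ) (𝓝 z₀) from hz₀)
      filter_upwards [hmemO] with z hz using (inv_mem h hz).2.symm
    obtain ⟨x₀, hx₀, hcase⟩ := h.corr hS 𝒱 hgz hfg
    have hx₀P : x₀ ∈ P := by
      rcases hcase with ⟨hx1, hx2⟩ | ⟨Q, hQ, hx1, hx2⟩
      · exact absurd (hx2 ▸ hz₀P) (h.notMem hx1 hPS)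
      · have : Q = P := by
          by_contra hQP
          exact disjoint_left.1 (h.disj Q hQ P hPS hQP) hx2 hz₀P
        exact this ▸ hx1
    have hgz' : ∀ᶠ z in (𝒱 : Filter ℂ), g z ∈ (⋃₀ S')ᶜ := by
      filter_upwards [hgz] with z hz using hsub hz
    -- the distance of the values tends to zero
    have hfin : Tendsto (fun z => infDist (tr7 S f f' z) (Lf7 S' f' c' r' u P)) (𝒱 : Filter ℂ)
        (𝓝 0) := by
      by_cases hPu : P = u
      · rw [hPu, hLu]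
        have hTne : ∀ Q ∈ S', (u ∩ Q).Nonempty → closedBall (c' Q) (r' Q) ⊆ Tm S' f' c' r' u :=
          fun Q hQ hne => disk_sub_Tm hQ hne
        by_cases hx : x₀ ∈ ⋃₀ S'
        · obtain ⟨Q, hQ, hxQ⟩ := hx
          have h3 := near_hole h' hgz' hx₀ hQ hxQ
          refine squeeze_zero (fun _ => infDist_nonneg) (fun z => ?_) h3
          exact infDist_le_infDist_of_subset (hTne Q hQ ⟨x₀, hPu ▸ hx₀P, hxQ⟩)
            ⟨c' Q, mem_closedBall_self (h'.rpos Q hQ).le⟩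
        · have h3 : Tendsto (fun z => infDist (f' (g z)) (Tm S' f' c' r' u)) (𝒱 : Filter ℂ)
              (𝓝 (infDist (f' x₀) (Tm S' f' c' r' u))) :=
            ((continuous_infDist_pt _).tendsto _).comp
              ((((h'.nu.diff.differentiableAt (hS'.isOpen_compl.mem_nhds
                hx)).continuousAt).tendsto).comp hx₀)
          have h4 : f' x₀ ∈ Tm S' f' c' r' u := Or.inl ⟨x₀, ⟨hPu ▸ hx₀P, hx⟩, rfl⟩
          rw [infDist_zero_of_mem h4] at h3
          exact h3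
      · rw [hLP _ hPu]
        exact near_hole h' hgz' hx₀ (h1 P hPS hPu) hx₀P
    obtain ⟨z, hz1, hz2⟩ := ((hfin.eventually (gt_mem_nhds hε)).and
      (show ∀ᶠ z in (𝒱 : Filter ℂ), z ∈ bad from hV2)).exists
    exact absurd hz2.2 (not_le.2 hz1)

end

variable {K : Set ℂ} {R ρ : ℝ}

/-- far away the two maps are close -/
theorem far_close (hE : Energy) (h : Far K R ρ) {S : Set (Set ℂ)} (hS : NS K (lev K 0) S)
    {u : Set ℂ} (hu : u ∈ S) {U : Set (Set ℂ)} (hU : NS K u U) {x : ℂ}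
    (hx : 34 * R + 25 ≤ ‖x‖) :
    ‖KM ((S \ {u}) ∪ U) x - KM S x‖ ^ 2 ≤
      100 * kr fk ⟨S, ns_adm h.cpt h.full hS⟩ u * (5 * (R + 1)) := by
  classical
  have hR := h.rpos
  have hS' : NS K (lev K 0) ((S \ {u}) ∪ U) := ns_repl hS hu hU
  have hA : Adm S := ns_adm h.cpt h.full hS
  have hA' : Adm ((S \ {u}) ∪ U) := ns_adm h.cpt h.full hS'
  have hC := KM_cmap hA
  have hC' := KM_cmap hA'
  have hball : ∀ P ⊆ lev K 0, P ⊆ ball (0:ℂ) (R + 1) := fun P hP =>
    (hP.trans h.sub).trans (closedBall_subset_ball (by linarith))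
  have hSR : ∀ P ∈ S, P ⊆ ball (0:ℂ) (R + 1) := fun P hP => hball P (hS.sub P hP)
  have hSR' : ∀ P ∈ (S \ {u}) ∪ U, P ⊆ ball (0:ℂ) (R + 1) := fun P hP => hball P (hS'.sub P hP)
  have hfin : Finite S := hS.fin.to_subtype
  set e : Fin (Nat.card S) ≃ S := (Finite.equivFin S).symm with he
  have hP := ep_of hA hA' hC hC' hu (fun P hP hPu => Or.inl ⟨hP, hPu⟩)
    (fun P hP => by
      rcases hP with hP | hP
      · exact Or.inl ⟨hP.1, hP.2⟩
      · exact Or.inr (hU.sub P hP)) (show 0 < R + 1 by linarith) hSR e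
  have hLu : Lf7 ((S \ {u}) ∪ U) (KM ((S \ {u}) ∪ U)) (kc fk ⟨_, hA'⟩) (kr fk ⟨_, hA'⟩) u u ⊆
      closedBall 0 (5 * (R + 1)) := by
    unfold Lf7
    rw [if_pos rfl]
    exact (Tm_mono (hSR u hu)).trans (hC'.Tm_bound hA' (by linarith)
      (sUnion_subset fun P hP => (hSR' P hP).trans ball_subset_closedBall))
  have hxR : 2 * R < ‖x‖ := by linarith
  have hxS : x ∈ (⋃₀ S)ᶜ := by
    rintro ⟨P, hP, hxP⟩
    have := hSR P hP hxP
    rw [mem_ball, dist_zero_right] at this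
    linarith
  have hb := h.bound hS hxR
  have hb2 : 24 * R ^ 2 / ‖x‖ ≤ 12 * R := by
    rw [div_le_iff₀ (by linarith)]
    nlinarith
  have hz : 4 * (5 * (R + 1)) + 4 ≤ ‖KM S x‖ := by
    have h3 : ‖x‖ ≤ ‖KM S x - x‖ + ‖KM S x‖ := by
      have := norm_sub_le (KM S x) (KM S x - x)
      rw [sub_sub_cancel] at this
      linarith
    linarith
  have key := hE hP (e.symm ⟨u, hu⟩) (c' := fun j => kc fk ⟨_, hA'⟩ (e j).1)
    (r' := fun j => kr fk ⟨_, hA'⟩ (e j).1) (fun j hj => by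
      have hju : (e j).1 ≠ u := by
        intro hju
        apply hj
        rw [Equiv.eq_symm_apply]
        exact Subtype.ext hju
      refine ⟨hC'.rpos _ (Or.inl ⟨(e j).2, hju⟩), ?_⟩
      unfold Lf7
      rw [if_neg hju])
    (w₀ := 0) (D := 5 * (R + 1)) (by linarith)
    (by
      rw [e.apply_symm_apply]
      exact hLu) (z := KM S x) hz
  have hinv := (inv_f hC hxS).2
  have e1 : tr7 S (KM S) (KM ((S \ {u}) ∪ U)) (KM S x) = KM ((S \ {u}) ∪ U) x := by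
    unfold tr7
    rw [hinv]
  rw [e1, e.apply_symm_apply] at key
  exact key

/-- data of a counterexample -/
structure Bad7 (K : Set ℂ) (ρ ε η : ℝ) (hK : IsCompact K) (hf : Full K) where
  S : Set (Set ℂ)
  hS : NS K (lev K 0) S
  u : Set ℂ
  hu : u ∈ S
  U : Set (Set ℂ)
  hU : NS K u U
  z : ℂ
  hz : z ∈ sphere (0:ℂ) ρ
  small : kr fk ⟨S, ns_adm hK hf hS⟩ u < η
  big : ε < ‖KM S z - KM ((S \ {u}) ∪ U) z‖

/-- **EN7** -/
theorem negl (hE : Energy) : Negl := by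
  classical
  intro K R ρ h ε hε
  by_contra hcon
  push Not at hcon
  have hex : ∀ k : ℕ, Nonempty (Bad7 K ρ ε (1 / ((k:ℝ) + 1)) h.cpt h.full) := by
    intro k
    obtain ⟨S, hS, u, hu, U, hU, h1, z, hz, h2⟩ := hcon (1 / ((k:ℝ) + 1)) (by positivity)
    exact ⟨⟨S, hS, u, hu, U, hU, z, hz, h1, h2⟩⟩
  have b : ∀ k : ℕ, Bad7 K ρ ε (1 / ((k:ℝ) + 1)) h.cpt h.full := fun k => (hex k).some
  have hR := h.rpos
  have hρ := h.pos
  have hS' : ∀ k, NS K (lev K 0) (((b k).S \ {(b k).u}) ∪ (b k).U) := fun k =>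
    ns_repl (b k).hS (b k).hu (b k).hU
  set 𝔘 : Ultrafilter ℕ := Filter.hyperfilter ℕ with h𝔘
  have hVo : IsOpen (lev K 0 ∪ ∅)ᶜ :=
    ((isCompact_lev h.cpt 0).union isCompact_empty).isClosed.isOpen_compl
  have hKR : lev K 0 ∪ ∅ ⊆ closedBall 0 R := by rw [union_empty]; exact h.sub
  have hfull : Full (lev K 0 ∪ ∅) := by rw [union_empty]; exact full_lev 0
  have e1 : Exh (𝔘 : Filter ℕ) (lev K 0 ∪ ∅)ᶜ (fun k => (⋃₀ (b k).S)ᶜ)
      (fun k => KM (b k).S) R :=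
    exh_of (isCompact_lev h.cpt 0) isCompact_empty hfull
      (fun k => ns_adm h.cpt h.full (b k).hS)
      (fun k P hP => ((b k).hS.sub P hP).trans subset_union_left) hR hKR
  have e2 : Exh (𝔘 : Filter ℕ) (lev K 0 ∪ ∅)ᶜ
      (fun k => (⋃₀ (((b k).S \ {(b k).u}) ∪ (b k).U))ᶜ)
      (fun k => KM (((b k).S \ {(b k).u}) ∪ (b k).U)) R :=
    exh_of (isCompact_lev h.cpt 0) isCompact_empty hfull
      (fun k => ns_adm h.cpt h.full (hS' k))
      (fun k P hP => ((hS' k).sub P hP).trans subset_union_left) hR hKR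
  obtain ⟨f, hf1⟩ := e1.exists_lim
  obtain ⟨f', hf2⟩ := e2.exists_lim
  -- the limits agree far away
  have hnat : Tendsto (fun k : ℕ => 1 / ((k:ℝ) + 1)) (𝔘 : Filter ℕ) (𝓝 0) :=
    tendsto_one_div_add_atTop_nhds_zero_nat.mono_left Nat.hyperfilter_le_atTop
  have hfar : ∀ x : ℂ, 34 * R + 25 ≤ ‖x‖ → f x = f' x := by
    intro x hx
    have hxV : x ∈ (lev K 0 ∪ ∅)ᶜ := by
      intro hm
      have := hKR hm
      rw [mem_closedBall_zero_iff] at this
      linarith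
    have t1 := hf1.tendsto_at hxV
    have t2 := hf2.tendsto_at hxV
    have t3 : Tendsto (fun k => ‖KM (((b k).S \ {(b k).u}) ∪ (b k).U) x - KM (b k).S x‖ ^ 2)
        (𝔘 : Filter ℕ) (𝓝 (‖f' x - f x‖ ^ 2)) := ((t2.sub t1).norm).pow 2
    have t4 : Tendsto (fun k : ℕ => 100 * (1 / ((k:ℝ) + 1)) * (5 * (R + 1))) (𝔘 : Filter ℕ)
        (𝓝 (100 * 0 * (5 * (R + 1)))) := (hnat.const_mul 100).mul_const _
    have t5 : ‖f' x - f x‖ ^ 2 ≤ 100 * 0 * (5 * (R + 1)) := by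
      refine le_of_tendsto_of_tendsto' t3 t4 fun k => ?_
      have h3 := far_close hE h (b k).hS (b k).hu (b k).hU hx
      have h4 := (b k).small
      refine h3.trans ?_
      have h5 : 0 < 5 * (R + 1) := by linarith
      refine mul_le_mul_of_nonneg_right ?_ h5.le
      linarith
    have t6 : ‖f' x - f x‖ = 0 := by
      have h7 : 0 ≤ ‖f' x - f x‖ := norm_nonneg _
      nlinarith
    rw [norm_eq_zero, sub_eq_zero] at t6
    exact t6.symm
  have hff : EqOn f f' (lev K 0 ∪ ∅)ᶜ := by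
    obtain ⟨z₁, hz₁⟩ : ∃ z₁ : ℂ, 34 * R + 25 < ‖z₁‖ := by
      refine ⟨((34 * R + 26 : ℝ) : ℂ), ?_⟩
      rw [Complex.norm_real, Real.norm_of_nonneg (by positivity)]
      linarith
    have hz₁V : z₁ ∈ (lev K 0 ∪ ∅)ᶜ := by
      intro hm
      have := hKR hm
      rw [mem_closedBall_zero_iff] at this
      linarith
    refine ((e1.lim_diff hf1).analyticOnNhd hVo).eqOn_of_preconnected_of_eventuallyEq
      ((e2.lim_diff hf2).analyticOnNhd hVo) e1.conn hz₁V ?_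
    filter_upwards [(isOpen_lt continuous_const continuous_norm).mem_nhds hz₁] with z hz
    exact hfar z (le_of_lt hz)
  have hsph : sphere (0:ℂ) ρ ⊆ (lev K 0 ∪ ∅)ᶜ := by
    intro z hz hm
    have := hKR hm
    rw [mem_closedBall_zero_iff] at this
    rw [mem_sphere_zero_iff_norm] at hz
    have := h.lt
    linarith
  have u1 := Metric.tendstoUniformlyOn_iff.1
    ((tendstoLocallyUniformlyOn_iff_forall_isCompact hVo).1 hf1 _ hsph (isCompact_sphere 0 ρ))
    (ε / 2) (by positivity)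
  have u2 := Metric.tendstoUniformlyOn_iff.1
    ((tendstoLocallyUniformlyOn_iff_forall_isCompact hVo).1 hf2 _ hsph (isCompact_sphere 0 ρ))
    (ε / 2) (by positivity)
  obtain ⟨k, hk1, hk2⟩ := (u1.and u2).exists
  have a1 := hk1 (b k).z (b k).hz
  have a2 := hk2 (b k).z (b k).hz
  rw [← hff (hsph (b k).hz)] at a2
  have a3 := dist_triangle_left (KM (b k).S (b k).z)
    (KM (((b k).S \ {(b k).u}) ∪ (b k).U) (b k).z) (f (b k).z)
  rw [dist_eq_norm (KM (b k).S (b k).z)] at a3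
  have a4 := (b k).big
  linarith

end Vale.Agent.P116.Ms
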