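import Vale.Agent.P116.Ms.FI

/-!
The full state: prescribed components, parabolic components, residual, and almost every component.
-/

open Set Filter Topology Metric Bornology MeasureTheory

namespace Vale.Agent.P116.Ms

open H906 PBC Slow

variable {K : Set ℂ} {R ρ : ℝ}

lemma of_ae_dirac {α : Type*} [MeasurableSpace α] {a : α} {p : α → Prop}
    (h : ∀ᵐ x ∂(Measure.dirac a), p x) : p a := by
  by_contra hp
  have h1 : Measure.dirac a {x | ¬ p x} = 0 := h
  have h2 := Measure.le_dirac_apply (a := a) (s := {x | ¬ p x})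
  rw [h1, indicator_of_mem (show a ∈ {x | ¬ p x} from hp)] at h2
  simp at h2

/-- **the full state of a measure** -/
theorem exists_full_stateM (h3 : AB3) (h4 : AB4) (hS : SysCnt) (h : Far K R ρ) (hne : K.Nonempty)
    {P₀ : Set (Set ℂ)} (hP₀ : P₀ ⊆ comps K) (hc : P₀.Countable)
    [MeasurableSpace (ConnectedComponents K)] [BorelSpace (ConnectedComponents K)]
    (ν : Measure (ConnectedComponents K)) [SFinite ν] :
    ∃ (𝔊 : Ultrafilter Str) (g : ℂ → ℂ), Fine K (𝔊 : Filter Str) ∧
      TendstoLocallyUniformlyOn (kF fk) g (𝔊 : Filter Str) Kᶜ ∧ NU Kᶜ g ∧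
      (∀ p ∈ P₀, ∀ x ∈ p, GoodAt fk K (𝔊 : Filter Str) x) ∧
      (∀ x ∈ K, (∀ y ∈ connectedComponentIn K x, TPar K y) → GoodAt fk K (𝔊 : Filter Str) x) ∧
      (∀ᵐ c ∂ν, ∀ x : K, ConnectedComponents.mk x = c → GoodAt fk K (𝔊 : Filter Str) x) ∧
      {x : K | GoodAt fk K (𝔊 : Filter Str) x} ∈ residual K ∧
      {c : ConnectedComponents K | ∀ x : K, ConnectedComponents.mk x = c →
        GoodAt fk K (𝔊 : Filter Str) x} ∈ residual (ConnectedComponents K) := by
  classical
  obtain ⟨PP, h1, h2, hPPc, h4d⟩ := exists_dense_comps hP₀ hc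
  -- the atoms
  set D : Set (ConnectedComponents K) := {c | ∃ x : K, ConnectedComponents.mk x = c ∧
    connectedComponentIn K (x : ℂ) ∈ PP} with hD
  have hDc : D.Countable := by
    have h5 : ∀ p : Set ℂ, ∃ c : Set (ConnectedComponents K), c.Countable ∧ ∀ x : K,
        connectedComponentIn K (x : ℂ) = p → ConnectedComponents.mk x ∈ c := by
      intro p
      by_cases hp : ∃ x : K, connectedComponentIn K (x : ℂ) = p
      · obtain ⟨x, hx⟩ := hp
        refine ⟨{ConnectedComponents.mk x}, countable_singleton _, fun y hy => ?_⟩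
        rw [mem_singleton_iff, ConnectedComponents.coe_eq_coe']
        have h6 : (y : ℂ) ∈ connectedComponentIn K (x : ℂ) := by
          rw [hx, ← hy]
          exact mem_connectedComponentIn y.2
        rw [connectedComponentIn_eq_image x.2] at h6
        obtain ⟨z, hz, hzy⟩ := h6
        have : z = y := Subtype.ext hzy
        rwa [this] at hz
      · exact ⟨∅, countable_empty, fun x hx => absurd ⟨x, hx⟩ hp⟩
    choose C hC1 hC2 using h5
    refine (hPPc.biUnion fun p _ => hC1 p).mono ?_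
    rintro _ ⟨x, rfl, hx⟩
    exact mem_iUnion₂.2 ⟨_, hx, hC2 _ x rfl⟩
  have : Countable D := hDc.to_subtype
  set ν' : Measure (ConnectedComponents K) :=
    (ν + Measure.sum fun i : D => Measure.dirac (i : ConnectedComponents K)).toFinite with hν'
  obtain ⟨𝔊, hF, hNS, hsl, hexc, hcov⟩ := exists_stateM h3 h4 hS h hne ν'
  rw [hν', ae_toFinite, ae_add_measure_iff, Measure.ae_sum_iff] at hsl
  obtain ⟨hsl1, hsl2⟩ := hsl
  have hslP : ∀ x : K, connectedComponentIn K (x : ℂ) ∈ PP → WSl K ρ (𝔊 : Filter Str) x :=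
    fun x hx => of_ae_dirac (hsl2 ⟨ConnectedComponents.mk x, x, rfl, hx⟩) x rfl
  have hexh := hF.exh (h := fk) h.cpt h.full h.rpos h.sub
  obtain ⟨g, hg⟩ := hexh.exists_lim
  have hρK : sphere (0:ℂ) ρ ⊆ Kᶜ := by
    intro z hz hzK
    have h5 := h.sub (H906.subset_lev 0 hzK)
    rw [mem_closedBall, dist_zero_right] at h5
    rw [mem_sphere, dist_zero_right] at hz
    linarith [h.lt, h.rpos]
  have hws : ∀ x ∈ K, WSl K ρ (𝔊 : Filter Str) x → GoodAt fk K (𝔊 : Filter Str) x :=
    fun x hx hs => ws h.cpt h.full hx hF hNS h.pos hρK hs hg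
  obtain ⟨h6, h7⟩ := residual_WSl h4d (fun x hx => hslP x hx)
  refine ⟨𝔊, g, hF, hg, hexh.lim_nu hg, fun p hp x hx => ?_, fun x hx hT =>
    good_of_TPX h.cpt h.full hF hg hx hT hexc fun hn => hcov _ ⟨x, hx, rfl⟩ hn, ?_, ?_, ?_⟩
  · have hxK := comps_subset (hP₀ hp) hx
    refine hws x hxK (hslP ⟨x, hxK⟩ ?_)
    change connectedComponentIn K x ∈ PP
    rw [← comps_eq (hP₀ hp) hx]
    exact h1 hp
  · filter_upwards [hsl1] with c hc x hx using hws x x.2 (hc x hx)
  · exact mem_of_superset h6 fun x hx => hws x x.2 hx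
  · exact mem_of_superset h7 fun c hc x hx => hws x x.2 (hc x hx)

end Vale.Agent.P116.Ms
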