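import Vale.Agent.P116.Ms.Energy
import Vale.Agent.P116.Ms.EN7
import Vale.Agent.P116.Ms.ARC
import Vale.Agent.P116.Ms.AB1
import Vale.Agent.P116.Ms.AB2
import Vale.Agent.P116.Ms.AB3
import Vale.Agent.P116.Ms.AB4
import Vale.Agent.P116.Ms.FI2

/-!
All the blocks together.
-/

open Set Filter Topology Metric Bornology MeasureTheory

namespace Vale.Agent.P116.Ms

open H906 PBC Slow

theorem sysCnt_all : SysCnt := sysCnt_of_negl (negl energy)

theorem ab3_all : AB3 := ab3 (ab2 ab1)

end Vale.Agent.P116.Ms
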