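import Vale.Agent.P116.Ms.SpecR

/-!
RG: the limit trees of `K` give conformal maps, and the map depends continuously on the tree.
-/

open Set Filter Topology Metric Bornology
open scoped UniformSpace

namespace Vale.Agent.P116.Ms

open H906 PBC Slow Slow.Sys

variable {K : Set ℂ} {R ρ : ℝ}

/-- the states of one limit tree -/
def StG (h : Far K R ρ) (hne : K.Nonempty) (ξ : ∀ Q : Tn K, UniformSpace.Completion (XQ h Q))
    (g : ℂ → ℂ) (𝔊 : Ultrafilter Str) : Prop :=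
  Fine K (𝔊 : Filter Str) ∧
    TendstoLocallyUniformlyOn (kF fk) g (𝔊 : Filter Str) Kᶜ ∧
    (∀ᶠ S : Str in (𝔊 : Filter Str), NS K (lev K 0) S.1) ∧
    (∀ δ > 0, ∀ᶠ S : Str in (𝔊 : Filter Str), Exc K δ S.1) ∧
    (∀ p ∈ comps K, p.Nontrivial → ∀ᶠ S : Str in (𝔊 : Filter Str), ∃ A ∈ S.1, p ⊆ A) ∧
    ∀ x (hx : x ∈ K), (∀ ε > 0, ∀ k₀, ∃ k ≥ k₀,
      dist (ξ (rt K)) ((sysK h hne).cmp.mg (Slow.br hx) k ξ (rt K)) < ε) →
        WSl K ρ (𝔊 : Filter Str) x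

/-- one limit tree -/
theorem exists_g (hRV : RV2) (h : Far K R ρ) (hne : K.Nonempty)
    {ξ : ∀ Q : Tn K, UniformSpace.Completion (XQ h Q)} (hξ : ξ ∈ VK h hne) :
    ∃ g : ℂ → ℂ, NU Kᶜ g ∧ (∃ 𝔊 : Ultrafilter Str, StG h hne ξ g 𝔊) ∧
      ∃ (𝓕 : Ultrafilter (Pr K × ℕ × Finset (Tn K)))
        (a : Pr K × ℕ × Finset (Tn K) → ∀ Q : Tn K, XQ h Q),
        Tendsto (fun i => (cc (a i) (rt K))) (𝓕 : Filter _) (𝓝 (ξ (rt K))) ∧
        ∀ z ∈ sphere (0:ℂ) ρ, Tendsto (fun i => KM (a i (rt K)).1 z) (𝓕 : Filter _) (𝓝 (g z)) := by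
  classical
  set s := sysK h hne with hs
  have hdir := directed_Pr K
  have hnon := nonempty_Pr K
  obtain ⟨𝓕, a, hE, hcoh, hlim⟩ := hRV s (Par := Pr K)
    (E := fun (t : Pr K) δ q => {b : XQ h q | EM K δ (↑t.2.1) q.st b.1})
    (tbd h)
    (fun t t' htt δ q b hb => by
      have htt' : t.1 ≤ t'.1 ∧ t.2 ≤ t'.2 := htt
      exact EM.mono hb le_rfl (Finset.coe_subset.2 htt'.2))
    (fun t δ δ' hd q b hb => EM.mono hb hd Subset.rfl)
    (fun t q a d _ ha => em_join h.cpt (fun p hp => (t.2.2 p hp).1) q ha)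
    (ξ := ξ) hξ
  have hlimQ : ∀ Q, Tendsto (fun i => cc (a i) Q) (𝓕 : Filter _) (𝓝 (ξ Q)) :=
    fun Q => ((continuous_apply Q).tendsto ξ).comp hlim
  set Φ : Pr K × ℕ × Finset (Tn K) → Str := fun i =>
    ⟨(a i (rt K)).1, ns_adm h.cpt h.full (a i (rt K)).2⟩ with hΦ
  have hev : ∀ {p : Str → Prop}, (∀ᶠ i in (𝓕 : Filter _), p (Φ i)) →
      ∀ᶠ S in ((𝓕.map Φ : Ultrafilter Str) : Filter Str), p S := by
    intro p hp
    rw [Ultrafilter.coe_map, eventually_map]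
    exact hp
  have hF : Fine K ((𝓕.map Φ : Ultrafilter Str) : Filter Str) := by
    intro n
    refine hev ?_
    filter_upwards [hE (0, ⟨∅, by simp⟩) (lr n) (lr_pos n) (rt K)] with i hi A hA
    exact exc_lev (hi : EM K (lr n) _ _ _).exc le_rfl hA
  have hexh := hF.exh (h := fk) h.cpt h.full h.rpos h.sub
  obtain ⟨g, hg⟩ := hexh.exists_lim
  refine ⟨g, hexh.lim_nu hg, ⟨𝓕.map Φ, hF, hg, hev (Eventually.of_forall fun i => (a i (rt K)).2),
    ?_, ?_, ?_⟩, 𝓕, a, hlimQ (rt K), ?_⟩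
  · intro δ hδ
    refine hev ?_
    filter_upwards [hE (0, ⟨∅, by simp⟩) δ hδ (rt K)] with i hi
    exact (hi : EM K δ _ _ _).exc
  · intro p hp hpn
    refine hev ?_
    filter_upwards [hE (0, ⟨{p}, by
      intro q hq
      rw [Finset.mem_singleton] at hq
      subst hq
      exact ⟨hp, hpn⟩⟩) 1 one_pos (rt K)] with i hi
    refine (hi : EM K 1 _ _ _).cov p (by simp) ?_
    exact (comps_subset hp).trans (H906.subset_lev 0)
  · intro x hx hsl ε hε k₀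
    obtain ⟨k, hk, hk'⟩ := hsl ε hε (k₀ + 1)
    obtain ⟨m, rfl⟩ : ∃ m, k = m + 1 := ⟨k - 1, by omega⟩
    refine ⟨m, by omega, hev ?_⟩
    have h1 : Tendsto (fun i : Pr K × ℕ × Finset (Tn K) => dist (cc (a i) (rt K))
        (s.cmp.mg (Slow.br hx) (m + 1) (cc (a i)) (rt K))) (𝓕 : Filter _)
        (𝓝 (dist (ξ (rt K)) (s.cmp.mg (Slow.br hx) (m + 1) ξ (rt K)))) :=
      (hlimQ (rt K)).dist
        ((((continuous_apply _).comp (s.cmp.continuous_mg (Slow.br hx) (m + 1))).tendsto ξ).comp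
          hlim)
    filter_upwards [h1.eventually (gt_mem_nhds hk'), hcoh (m + 1)] with i hi hci z hz
    rw [s.cmp_mg] at hi
    rw [cc, cc, UniformSpace.Completion.dist_eq] at hi
    have h1 := mg_eq h hne hx m (a := a i) (fun q hq => hci q hq)
    have h2 := h.le_dQ (Q := lev K 0) Subset.rfl (a i (rt K))
      (s.mg (Slow.br hx) (m + 1) (a i) (rt K))
      ⟨∅, ns_empty, fun _ hP => hP.elim⟩ ⟨z, hz⟩
    have h3 : dQ K (lev K 0) ρ (a i (rt K)) (s.mg (Slow.br hx) (m + 1) (a i) (rt K)) < ε := hi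
    rw [← KM_eq (Φ i)]
    change ‖KM (a i (rt K)).1 z - KM (mrg (nd K m x) (a i (rt K)).1) z‖ ≤ ε
    rw [← h1]
    simp only [empty_union] at h2
    exact h2.trans h3.le
  · intro z hz
    have hzK : z ∈ Kᶜ := by
      intro hzK
      have h5 := h.sub (H906.subset_lev 0 hzK)
      rw [mem_closedBall, dist_zero_right] at h5
      rw [mem_sphere, dist_zero_right] at hz
      linarith [h.lt, h.rpos]
    have h1 : Tendsto (fun S : Str => kF fk S z) ((𝓕.map Φ : Ultrafilter Str) : Filter Str)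
        (𝓝 (g z)) := hg.tendsto_at hzK
    rw [Ultrafilter.coe_map, tendsto_map'_iff] at h1
    refine h1.congr fun i => ?_
    exact congrFun (KM_eq (Φ i)).symm z

/-- on the far circle the value is `1`-Lipschitz in the tree -/
theorem circ_lip (h : Far K R ρ) {ξ ξ' : ∀ Q : Tn K, UniformSpace.Completion (XQ h Q)}
    {g g' : ℂ → ℂ} {ι ι' : Type*} {𝓕 : Filter ι} {𝓕' : Filter ι'} [𝓕.NeBot] [𝓕'.NeBot]
    {a : ι → ∀ Q : Tn K, XQ h Q} {a' : ι' → ∀ Q : Tn K, XQ h Q}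
    (h1 : Tendsto (fun i => (cc (a i) (rt K))) 𝓕 (𝓝 (ξ (rt K))))
    (h1' : Tendsto (fun i => (cc (a' i) (rt K))) 𝓕' (𝓝 (ξ' (rt K)))) {z : ℂ}
    (hz : z ∈ sphere (0:ℂ) ρ)
    (h2 : Tendsto (fun i => KM (a i (rt K)).1 z) 𝓕 (𝓝 (g z)))
    (h2' : Tendsto (fun i => KM (a' i (rt K)).1 z) 𝓕' (𝓝 (g' z))) :
    dist (g z) (g' z) ≤ dist (ξ (rt K)) (ξ' (rt K)) := by
  have e1 : Tendsto (fun p : ι × ι' => dist (KM (a p.1 (rt K)).1 z) (KM (a' p.2 (rt K)).1 z))
      (𝓕 ×ˢ 𝓕') (𝓝 (dist (g z) (g' z))) := (h2.comp tendsto_fst).dist (h2'.comp tendsto_snd)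
  have e2 : Tendsto (fun p : ι × ι' => dist (cc (a p.1) (rt K)) (cc (a' p.2) (rt K)))
      (𝓕 ×ˢ 𝓕') (𝓝 (dist (ξ (rt K)) (ξ' (rt K)))) :=
    (h1.comp tendsto_fst).dist (h1'.comp tendsto_snd)
  refine le_of_tendsto_of_tendsto e1 e2 (Eventually.of_forall fun p => ?_)
  dsimp only
  rw [cc, cc, UniformSpace.Completion.dist_eq]
  have h3 := h.le_dQ (Q := lev K 0) Subset.rfl (a p.1 (rt K)) (a' p.2 (rt K))
      ⟨∅, ns_empty, fun _ hP => hP.elim⟩ ⟨z, hz⟩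
  simp only [empty_union] at h3
  rw [dist_eq_norm]
  exact h3

/-- `Exh` for a family of maps on `Kᶜ` -/
lemma exh_const (h : Far K R ρ) {α : Type*} {𝒰 : Filter α} {F : α → ℂ → ℂ}
    (hF : ∀ᶠ i in 𝒰, NU Kᶜ (F i)) : Exh 𝒰 Kᶜ (fun _ => Kᶜ) F R where
  open' := h.cpt.isClosed.isOpen_compl
  conn := h.full.isPreconnected_compl h.cpt.isBounded
  rpos := h.rpos
  tail := compl_subset_compl.2 ((H906.subset_lev 0).trans h.sub)
  vtail := Eventually.of_forall fun _ => compl_subset_compl.2 ((H906.subset_lev 0).trans h.sub)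
  nu := hF
  exh := by
    intro z hz
    obtain ⟨r, hr, hb⟩ := Metric.isOpen_iff.1 h.cpt.isClosed.isOpen_compl z hz
    exact ⟨r, hr, hb, Eventually.of_forall fun _ => hb⟩

/-- two normalized maps which agree on the far circle agree -/
lemma eq_of_circ (h : Far K R ρ) {g g' : ℂ → ℂ} (hg : NU Kᶜ g) (hg' : NU Kᶜ g')
    (hc : ∀ z ∈ sphere (0:ℂ) ρ, g z = g' z) : EqOn g g' Kᶜ := by
  have hρ := h.pos
  have hVo : IsOpen Kᶜ := h.cpt.isClosed.isOpen_compl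
  have hsph : sphere (0:ℂ) ρ ⊆ Kᶜ := by
    intro z hz hzK
    have h5 := h.sub (H906.subset_lev 0 hzK)
    rw [mem_closedBall, dist_zero_right] at h5
    rw [mem_sphere, dist_zero_right] at hz
    linarith [h.lt, h.rpos]
  have hz₀ : ((ρ : ℝ) : ℂ) ∈ sphere (0:ℂ) ρ := by
    rw [mem_sphere_zero_iff_norm, Complex.norm_real, Real.norm_of_nonneg hρ.le]
  refine (hg.diff.analyticOnNhd hVo).eqOn_of_preconnected_of_frequently_eq
    (hg'.diff.analyticOnNhd hVo) (h.full.isPreconnected_compl h.cpt.isBounded) (hsph hz₀) ?_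
  -- the circle accumulates at the point
  have h1 : Tendsto (fun t : ℝ => (ρ : ℂ) * Complex.exp (t * Complex.I)) (𝓝[≠] 0)
      (𝓝[≠] ((ρ : ℝ) : ℂ)) := by
    refine tendsto_nhdsWithin_iff.2 ⟨?_, ?_⟩
    · have h2 : Continuous fun t : ℝ => (ρ : ℂ) * Complex.exp (t * Complex.I) := by fun_prop
      have h3 := h2.tendsto 0
      simp only [Complex.ofReal_zero, zero_mul, Complex.exp_zero, mul_one] at h3
      exact h3.mono_left nhdsWithin_le_nhds
    · have h2 : ∀ᶠ t : ℝ in 𝓝[≠] 0, |t| < Real.pi := by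
        refine nhdsWithin_le_nhds ?_
        filter_upwards [Metric.ball_mem_nhds (0:ℝ) Real.pi_pos] with t ht
        rwa [mem_ball, Real.dist_eq, sub_zero] at ht
      filter_upwards [h2, self_mem_nhdsWithin] with t ht ht0 hcon
      have h3 : Complex.exp (t * Complex.I) = 1 := by
        have h4 : (ρ : ℂ) ≠ 0 := by exact_mod_cast hρ.ne'
        have h5 : (ρ : ℂ) * Complex.exp (t * Complex.I) = (ρ : ℂ) * 1 := by
          rw [mul_one]; exact hcon
        exact mul_left_cancel₀ h4 h5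
      rw [Complex.exp_eq_one_iff] at h3
      obtain ⟨n, hn⟩ := h3
      have h6 : t = n * (2 * Real.pi) := by
        have h7 : (t : ℂ) = ((n * (2 * Real.pi) : ℝ) : ℂ) := by
          have h8 : (t : ℂ) * Complex.I = ((n * (2 * Real.pi) : ℝ) : ℂ) * Complex.I := by
            rw [hn]
            push_cast
            ring
          exact mul_right_cancel₀ Complex.I_ne_zero h8
        exact_mod_cast h7
      have h9 : n ≠ 0 := by
        rintro rfl
        apply ht0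
        rw [h6]
        simp
      have h10 : (1:ℝ) ≤ |(n:ℝ)| := by
        have := Int.one_le_abs h9
        exact_mod_cast this
      rw [h6, abs_mul, abs_of_pos (by positivity : (0:ℝ) < 2 * Real.pi)] at ht
      nlinarith [Real.pi_pos]
  refine h1.frequently (Eventually.frequently (Eventually.of_forall fun t => hc _ ?_))
  rw [mem_sphere_zero_iff_norm, norm_mul, Complex.norm_exp_ofReal_mul_I, mul_one,
    Complex.norm_real, Real.norm_of_nonneg hρ.le]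

/-- **RG** -/
theorem rg (hRV : RV2) : RG := by
  intro K R ρ h hne
  classical
  have hex : ∀ ξ : ∀ Q : Tn K, UniformSpace.Completion (XQ h Q), ∃ g : ℂ → ℂ, ξ ∈ VK h hne →
      NU Kᶜ g ∧ (∃ 𝔊 : Ultrafilter Str, StG h hne ξ g 𝔊) ∧
      ∃ (𝓕 : Ultrafilter (Pr K × ℕ × Finset (Tn K)))
        (a : Pr K × ℕ × Finset (Tn K) → ∀ Q : Tn K, XQ h Q),
        Tendsto (fun i => (cc (a i) (rt K))) (𝓕 : Filter _) (𝓝 (ξ (rt K))) ∧
        ∀ z ∈ sphere (0:ℂ) ρ, Tendsto (fun i => KM (a i (rt K)).1 z) (𝓕 : Filter _)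
          (𝓝 (g z)) := by
    intro ξ
    by_cases hξ : ξ ∈ VK h hne
    · obtain ⟨g, hg⟩ := exists_g hRV h hne hξ
      exact ⟨g, fun _ => hg⟩
    · exact ⟨id, fun h' => absurd h' hξ⟩
  choose g hg using hex
  refine ⟨g, ?_, fun ξ hξ => ⟨(hg ξ hξ).1, (hg ξ hξ).2.1⟩⟩
  have hVo : IsOpen Kᶜ := h.cpt.isClosed.isOpen_compl
  have hlip : ∀ ξ ∈ VK h hne, ∀ ξ' ∈ VK h hne, ∀ z ∈ sphere (0:ℂ) ρ,
      dist (g ξ z) (g ξ' z) ≤ dist (ξ (rt K)) (ξ' (rt K)) := by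
    intro ξ hξ ξ' hξ' z hz
    obtain ⟨-, -, 𝓕, a, h1, h2⟩ := hg ξ hξ
    obtain ⟨-, -, 𝓕', a', h1', h2'⟩ := hg ξ' hξ'
    exact circ_lip h h1 h1' hz (h2 z hz) (h2' z hz)
  -- along ultrafilters the maps converge
  have hconv : ∀ ξ ∈ VK h hne,
      ∀ 𝒰 : Ultrafilter (∀ Q : Tn K, UniformSpace.Completion (XQ h Q)),
      (𝒰 : Filter _) ≤ 𝓝[VK h hne] ξ →
      TendstoLocallyUniformlyOn g (g ξ) (𝒰 : Filter _) Kᶜ := by
    intro ξ hξ 𝒰 h𝒰
    have hmem : ∀ᶠ ξ' in (𝒰 : Filter _), ξ' ∈ VK h hne := h𝒰 self_mem_nhdsWithin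
    have hE : Exh (𝒰 : Filter _) Kᶜ (fun _ => Kᶜ) g R :=
      exh_const h (hmem.mono fun ξ' hξ' => (hg ξ' hξ').1)
    obtain ⟨G, hG⟩ := hE.exists_lim
    have hsph : sphere (0:ℂ) ρ ⊆ Kᶜ := by
      intro z hz hzK
      have h5 := h.sub (H906.subset_lev 0 hzK)
      rw [mem_closedBall, dist_zero_right] at h5
      rw [mem_sphere, dist_zero_right] at hz
      linarith [h.lt, h.rpos]
    have hGg : EqOn G (g ξ) Kᶜ := by
      refine eq_of_circ h (hE.lim_nu hG) (hg ξ hξ).1 fun z hz => ?_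
      have h1 : Tendsto (fun ξ' => g ξ' z) (𝒰 : Filter _) (𝓝 (G z)) := hG.tendsto_at (hsph hz)
      have h2 : Tendsto (fun ξ' => g ξ' z) (𝒰 : Filter _) (𝓝 (g ξ z)) := by
        rw [tendsto_iff_dist_tendsto_zero]
        have h3 : Tendsto (fun ξ' : ∀ Q : Tn K, UniformSpace.Completion (XQ h Q) =>
            dist (ξ' (rt K)) (ξ (rt K))) (𝒰 : Filter _) (𝓝 0) := by
          have h4 : Continuous fun ξ' : ∀ Q : Tn K, UniformSpace.Completion (XQ h Q) =>
              dist (ξ' (rt K)) (ξ (rt K)) := (continuous_apply (rt K)).dist continuous_const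
          have h5 := h4.tendsto ξ
          rw [dist_self] at h5
          exact h5.mono_left (h𝒰.trans nhdsWithin_le_nhds)
        refine tendsto_of_tendsto_of_tendsto_of_le_of_le' tendsto_const_nhds h3
          (Eventually.of_forall fun _ => dist_nonneg) ?_
        filter_upwards [hmem] with ξ' hξ'
        exact hlip ξ' hξ' ξ hξ z hz
      exact tendsto_nhds_unique h1 h2
    exact hG.congr_right hGg
  rintro ⟨ξ, z⟩ ⟨hξ, hz⟩
  change Tendsto _ _ _
  rw [tendsto_iff_ultrafilter]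
  intro 𝒲 h𝒲
  have h1 : ((𝒲.map Prod.fst : Ultrafilter _) : Filter _) ≤ 𝓝[VK h hne] ξ := by
    rw [Ultrafilter.coe_map]
    refine (map_mono h𝒲).trans ?_
    rw [nhdsWithin_prod_eq]
    exact tendsto_fst
  have h2 : Tendsto (Prod.snd : (∀ Q : Tn K, UniformSpace.Completion (XQ h Q)) × ℂ → ℂ)
      (𝒲 : Filter ((∀ Q : Tn K, UniformSpace.Completion (XQ h Q)) × ℂ)) (𝓝[Kᶜ] z) := by
    refine Tendsto.mono_left ?_ h𝒲
    rw [nhdsWithin_prod_eq]
    exact tendsto_snd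
  have h3 := hconv ξ hξ _ h1
  rw [Metric.tendsto_nhds]
  intro ε hε
  obtain ⟨t, ht, hev⟩ := Metric.tendstoLocallyUniformlyOn_iff.1 h3 (ε / 2) (half_pos hε) z hz
  rw [Ultrafilter.coe_map, eventually_map] at hev
  have h4 : Tendsto (fun p : (∀ Q : Tn K, UniformSpace.Completion (XQ h Q)) × ℂ => g ξ p.2)
      (𝒲 : Filter _) (𝓝 (g ξ z)) :=
    (((hg ξ hξ).1.diff.continuousOn z hz).tendsto).comp h2
  filter_upwards [hev, h2 ht, Metric.tendsto_nhds.1 h4 (ε / 2) (half_pos hε)] with p h5 h6 h7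
  have h8 := h5 p.2 h6
  have h9 := dist_triangle (g p.1 p.2) (g ξ p.2) (g ξ z)
  rw [dist_comm (g ξ p.2)] at h8
  change dist (g p.1 p.2) (g ξ z) < ε
  linarith

end Vale.Agent.P116.Ms
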