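import Vale.Agent.P116.Ms.FI

/-!
# The random version: specifications

One Borel probability measure on a compact metrizable space of states, such that every branch is
almost surely weakly slow.
-/

open Set Filter Topology Metric Bornology MeasureTheory
open scoped UniformSpace

namespace Vale.Agent.P116.Slow.Sys

variable {T : Type*} {S : T → Type*} [∀ Q, PseudoMetricSpace (S Q)] (s : Sys T S)

/-- the coherent trees in the completions which are limits of structures in the families `E` -/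
def VV {Par : Type*} (E : Par → ℝ → ∀ Q, Set (S Q)) : Set (∀ Q, UniformSpace.Completion (S Q)) :=
  {ξ | s.cmp.Coh ξ ∧ ∀ t, ∀ δ > 0, ∀ Q,
    ξ Q ∈ closure ((fun a : S Q => (a : UniformSpace.Completion (S Q))) '' E t δ Q)}

end Vale.Agent.P116.Slow.Sys

namespace Vale.Agent.P116.Ms

open H906 PBC Slow Slow.Sys

/-- MM: finite minimax (Hahn-Banach for the convex hull of the payoff vectors) -/
def MM : Prop := ∀ {ι Ξ : Type} [Fintype ι] [Nonempty ι] [Nonempty Ξ] (a : Ξ → ι → ℝ)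
    (_ : ∀ ξ i, 0 ≤ a ξ i) (δ : ℝ),
    (∃ (A : Finset Ξ) (w : Ξ → ℝ), (∀ ξ ∈ A, 0 ≤ w ξ) ∧ ∑ ξ ∈ A, w ξ = 1 ∧
      ∀ i, ∑ ξ ∈ A, w ξ * a ξ i < δ) ∨
    ∃ m : ι → ℝ, (∀ i, 0 ≤ m i) ∧ ∑ i, m i = 1 ∧ ∀ ξ, δ ≤ ∑ i, m i * a ξ i

/-- WC: weak compactness, tested on clopen sets (Mathlib: `ProbabilityMeasure β` is compact) -/
def WC : Prop := ∀ {β : Type} [TopologicalSpace β] [CompactSpace β] [T2Space β]
    [MeasurableSpace β] [BorelSpace β] (μ : ℕ → ProbabilityMeasure β),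
    ∃ μ' : ProbabilityMeasure β, ∀ C : Set β, IsClopen C → ∀ δ : ℝ,
      (∀ᶠ k in atTop, δ ≤ ((μ k : Measure β) C).toReal) → δ ≤ ((μ' : Measure β) C).toReal

/-- RK1: the local claim (uses AB1 and `closure_Wg` of Ms/AB2.lean, MM, WC): near each element of a
minimal nice family there is a finitely supported random tree for which no branch is bad with
probability at least `ε` -/
def RK1 : Prop := ∀ {T : Type} {X : T → Type} [∀ Q, MetricSpace (X Q)] [∀ Q, CompactSpace (X Q)]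
    {s : Sys T X} {β : Type} [TopologicalSpace β] [CompactSpace β] [T2Space β]
    {br : β → ℕ → T} (_ : ∀ x, s.Br (br x)) (_ : ∀ k Q, IsOpen {x | br x k = Q})
    (_ : s.Cnt) {V : Set (∀ Q, X Q)} (_ : s.NiceU (range br) V)
    (_ : ∀ W ⊆ V, s.NiceU (range br) W → W = V) {U : Set (∀ Q, X Q)} (_ : IsOpen U)
    (_ : (V ∩ U).Nonempty) (n : ℕ) {ε : ℝ} (_ : 0 < ε),
    ∃ (A : Finset (∀ Q, X Q)) (w : (∀ Q, X Q) → ℝ) (k₁ : ℕ), (∀ ζ ∈ A, ζ ∈ V ∩ U) ∧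
      (∀ ζ ∈ A, 0 ≤ w ζ) ∧ ∑ ζ ∈ A, w ζ = 1 ∧
      ∀ x (A' : Finset (∀ Q, X Q)), A' ⊆ A → (∀ ζ ∈ A', x ∈ badS s br ζ s.root ε n k₁) →
        ∑ ζ ∈ A', w ζ < ε

/-- RB: Baire category in the space of probability measures: closure `𝒬` of the finitely supported
ones (compact, Hausdorff); the sets `W n = {P | ∃ k, ∀ i, P (B n k i) < 1 / (n + 1)}` are open
(portmanteau, closed sets, finitely many for each `k`) and dense in `𝒬` -/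
def RB : Prop := ∀ {Ω : Type} [TopologicalSpace Ω] [CompactSpace Ω] [TopologicalSpace.MetrizableSpace Ω]
    [MeasurableSpace Ω] [BorelSpace Ω] [Nonempty Ω] {I : Type} (B : ℕ → ℕ → I → Set Ω)
    (_ : ∀ n k i, IsClosed (B n k i)) (_ : ∀ n k, (range (B n k)).Finite)
    (_ : ∀ n k k', k ≤ k' → ∀ i, B n k' i ⊆ B n k i)
    (_ : ∀ n, ∀ U : Set Ω, IsOpen U → U.Nonempty → ∃ (A : Finset Ω) (w : Ω → ℝ) (k : ℕ),
      (∀ ζ ∈ A, ζ ∈ U) ∧ (∀ ζ ∈ A, 0 ≤ w ζ) ∧ ∑ ζ ∈ A, w ζ = 1 ∧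
      ∀ i (A' : Finset Ω), A' ⊆ A → (∀ ζ ∈ A', ζ ∈ B n k i) → ∑ ζ ∈ A', w ζ < 1 / ((n:ℝ) + 1)),
    ∃ P : ProbabilityMeasure Ω, ∀ n, ∃ k, ∀ i,
      ((P : Measure Ω) (B n k i)).toReal ≤ 1 / ((n:ℝ) + 1)

/-- RK2: the random slow tree (uses RK1, RB; `NiceU.exists_minimal` of Ms/AbsU.lean) -/
def RK2 : Prop := ∀ {T : Type} {X : T → Type} [∀ Q, MetricSpace (X Q)] [∀ Q, CompactSpace (X Q)]
    {s : Sys T X} {β : Type} [TopologicalSpace β] [CompactSpace β] [T2Space β]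
    {br : β → ℕ → T} (_ : ∀ x, s.Br (br x)) (_ : ∀ k Q, IsOpen {x | br x k = Q})
    (_ : s.Cnt) {V₀ : Set (∀ Q, X Q)} (_ : s.NiceU (range br) V₀),
    ∃ V ⊆ V₀, IsClosed V ∧ ∀ [MeasurableSpace ↥V] [BorelSpace ↥V],
      ∃ P : ProbabilityMeasure ↥V, ∀ x, ∀ᵐ ζ ∂(P : Measure ↥V), ∀ ε > 0, ∀ k₀, ∃ k ≥ k₀,
        dist (ζ.1 s.root) (s.mg (br x) k ζ.1 s.root) < ε

/-- RV1: the family of all limits is nice (this is the first half of the proof of AB3) -/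
def RV1 : Prop := ∀ {T : Type} {S : T → Type} [∀ Q, PseudoMetricSpace (S Q)] (s : Sys T S)
    {Par : Type} [Preorder Par] [IsDirected Par (· ≤ ·)] [Nonempty Par]
    (E : Par → ℝ → ∀ Q, Set (S Q)) (_ : ∀ Q, TotallyBounded (univ : Set (S Q)))
    {β : Type} {br : β → ℕ → T} (_ : ∀ x, s.Br (br x))
    (_ : ∀ t t', t ≤ t' → ∀ δ Q, E t' δ Q ⊆ E t δ Q)
    (_ : ∀ t δ δ', δ ≤ δ' → ∀ Q, E t δ Q ⊆ E t δ' Q)
    (_ : ∀ t, ∃ a : ∀ Q, S Q, (∀ Q, a Q = s.join Q a) ∧ ∀ Q, a Q ∈ E t 0 Q)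
    (_ : ∀ t Q (a : ∀ Q, S Q) (d : T → ℝ), (∀ R ∈ s.ch Q, 0 ≤ d R) →
      (∀ R ∈ s.ch Q, a R ∈ E t (d R) R) → s.join Q a ∈ E t (∑ R ∈ s.ch Q, d R) Q)
    (_ : ∀ t x, ∀ δ > 0, ∃ m₀, ∀ m ≥ m₀, s.o (br x m) ∈ E t δ (br x m)),
    s.cmp.NiceU (range br) (s.VV E)

/-- RV2: approximating structures of one limit tree (second half of the proof of AB3) -/
def RV2 : Prop := ∀ {T : Type} {S : T → Type} [∀ Q, PseudoMetricSpace (S Q)] (s : Sys T S)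
    {Par : Type} [Preorder Par] [IsDirected Par (· ≤ ·)] [Nonempty Par]
    (E : Par → ℝ → ∀ Q, Set (S Q)) (_ : ∀ Q, TotallyBounded (univ : Set (S Q)))
    (_ : ∀ t t', t ≤ t' → ∀ δ Q, E t' δ Q ⊆ E t δ Q)
    (_ : ∀ t δ δ', δ ≤ δ' → ∀ Q, E t δ Q ⊆ E t δ' Q)
    (_ : ∀ t Q (a : ∀ Q, S Q) (d : T → ℝ), (∀ R ∈ s.ch Q, 0 ≤ d R) →
      (∀ R ∈ s.ch Q, a R ∈ E t (d R) R) → s.join Q a ∈ E t (∑ R ∈ s.ch Q, d R) Q)
    {ξ : ∀ Q, UniformSpace.Completion (S Q)} (_ : ξ ∈ s.VV E),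
    ∃ (𝓕 : Ultrafilter (Par × ℕ × Finset T)) (a : Par × ℕ × Finset T → ∀ Q, S Q),
      (∀ t, ∀ δ > 0, ∀ Q, ∀ᶠ i in (𝓕 : Filter _), a i Q ∈ E t δ Q) ∧
      (∀ n, ∀ᶠ i in (𝓕 : Filter _), ∀ Q, s.lv Q < n → a i Q = s.join Q (a i)) ∧
      Tendsto (fun i => cc (a i)) (𝓕 : Filter _) (𝓝 ξ)

section

variable {K : Set ℂ} {R ρ : ℝ}

/-- the compact space of all limit trees of `K` -/
def VK (h : Far K R ρ) (hne : K.Nonempty) : Set (∀ Q : Tn K, UniformSpace.Completion (XQ h Q)) :=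
  (sysK h hne).VV fun (t : Pr K) δ q => {b : XQ h q | EM K δ (↑t.2.1) q.st b.1}

end

/-- RG: the limit trees of `K` give conformal maps, continuously (uses RV2) -/
def RG : Prop := ∀ {K : Set ℂ} {R ρ : ℝ} (h : Far K R ρ) (hne : K.Nonempty),
    ∃ g : (∀ Q : Tn K, UniformSpace.Completion (XQ h Q)) → ℂ → ℂ,
      ContinuousOn (fun p : (∀ Q : Tn K, UniformSpace.Completion (XQ h Q)) × ℂ => g p.1 p.2)
        (VK h hne ×ˢ Kᶜ) ∧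
      ∀ ξ ∈ VK h hne, NU Kᶜ (g ξ) ∧ ∃ 𝔊 : Ultrafilter Str, Fine K (𝔊 : Filter Str) ∧
        TendstoLocallyUniformlyOn (kF fk) (g ξ) (𝔊 : Filter Str) Kᶜ ∧
        (∀ᶠ S : Str in (𝔊 : Filter Str), NS K (lev K 0) S.1) ∧
        (∀ δ > 0, ∀ᶠ S : Str in (𝔊 : Filter Str), Exc K δ S.1) ∧
        (∀ p ∈ comps K, p.Nontrivial → ∀ᶠ S : Str in (𝔊 : Filter Str), ∃ A ∈ S.1, p ⊆ A) ∧
        ∀ x (hx : x ∈ K), (∀ ε > 0, ∀ k₀, ∃ k ≥ k₀,
          dist (ξ (rt K)) ((sysK h hne).cmp.mg (Slow.br hx) k ξ (rt K)) < ε) →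
            WSl K ρ (𝔊 : Filter Str) x

end Vale.Agent.P116.Ms
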