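import Vale.Agent.P116.Ms.AB3
import Vale.Agent.P116.Ms.SpecR

/-!
RV1, RV2: the family of all limit trees is nice; approximating structures of one limit tree
(the two halves of the proof of AB3).
-/

open Set Filter Topology Metric UniformSpace
open scoped Classical

namespace Vale.Agent.P116.Ms

open Slow Slow.Sys

lemma mem_VV {T : Type*} {S : T → Type*} [∀ Q, PseudoMetricSpace (S Q)] {s : Sys T S}
    {Par : Type*} {E : Par → ℝ → ∀ Q, Set (S Q)} {ξ : ∀ Q, Completion (S Q)} :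
    ξ ∈ s.VV E ↔ s.cmp.Coh ξ ∧ ∀ t Q, ξ Q ∈ E0 E t Q :=
  ⟨fun h => ⟨h.1, fun t Q δ hδ => h.2 t δ hδ Q⟩, fun h => ⟨h.1, fun t δ hδ Q => h.2 t Q δ hδ⟩⟩

/-- **RV1** -/
theorem rv1 : RV1 := by
  intro T S _ s Par _ _ _ E hTB β br hbr hanti hmono hbase hE1 ho
  have hcpt : ∀ Q, CompactSpace (Completion (S Q)) := compact_cmp hTB
  have hanti' : ∀ t t', t ≤ t' → ∀ Q, E0 E t' Q ⊆ E0 E t Q := fun t t' h Q x hx δ hδ =>
    closure_mono (image_mono (hanti t t' h δ Q)) (hx δ hδ)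
  have hclE0 : ∀ t Q, IsClosed (E0 E t Q) := by
    intro t Q
    have : E0 E t Q = ⋂ δ : Ioi (0 : ℝ), EB E t δ Q := by
      ext x
      simp [E0]
    rw [this]
    exact isClosed_iInter fun δ => isClosed_closure
  have hcohc : IsClosed {ξ : ∀ Q, Completion (S Q) | s.cmp.Coh ξ} := by
    have : {ξ : ∀ Q, Completion (S Q) | s.cmp.Coh ξ} =
        ⋂ Q, {ξ | ξ Q = s.cmp.join Q ξ} := by
      ext ξ
      simp [Coh]
    rw [this]
    exact isClosed_iInter fun Q => isClosed_eq (continuous_apply Q) (s.cmp.continuous_join Q)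
  have hbr' : ∀ x, s.cmp.Br (br x) := hbr
  refine ⟨?_, ?_, fun ξ hξ => hξ.1, ?_, ?_⟩
  · have h1 : s.VV E = {ξ | s.cmp.Coh ξ} ∩ ⋂ t, ⋂ Q, {ξ | ξ Q ∈ E0 E t Q} := by
      ext ξ
      rw [mem_VV]
      simp
    rw [h1]
    exact hcohc.inter (isClosed_iInter fun t => isClosed_iInter fun Q =>
      (hclE0 t Q).preimage (continuous_apply Q))
  · -- nonempty
    choose a hac ha using hbase
    obtain ⟨ξ, -, hξ⟩ := (isCompact_univ (X := ∀ Q, Completion (S Q))).ultrafilter_le_nhds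
      ((Ultrafilter.of (atTop : Filter Par)).map fun t => cc (a t)) (by simp)
    have hξQ : ∀ Q, Tendsto (fun t => cc (a t) Q)
        (Ultrafilter.of (atTop : Filter Par) : Filter Par) (𝓝 (ξ Q)) :=
      fun Q => ((continuous_apply Q).tendsto ξ).comp hξ
    refine ⟨ξ, mem_VV.2 ⟨?_, fun t Q => ?_⟩⟩
    · refine hcohc.mem_of_tendsto (b := (Ultrafilter.of (atTop : Filter Par) : Filter Par))
        (f := fun t => cc (a t)) hξ (Eventually.of_forall fun t Q => ?_)
      rw [s.cmp_join_cc, ← hac t Q]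
      rfl
    · refine (hclE0 t Q).mem_of_tendsto (hξQ Q) ?_
      refine (Ultrafilter.of_le _) ?_
      filter_upwards [eventually_ge_atTop t] with t' ht'
      refine hanti' t t' ht' Q fun δ hδ => ?_
      exact EB_mono hmono t' hδ.le Q (subset_closure ⟨_, ha t' Q, rfl⟩)
  · intro Q η hη ξ hξ
    rw [mem_VV] at hη hξ ⊢
    refine ⟨s.cmp.sp_coh hη.1 hξ.1, fun t => ?_⟩
    have h1 : ∀ d Q', s.cmp.lv Q - s.cmp.lv Q' = d → s.cmp.sp Q η ξ Q' ∈ E0 E t Q' := by
      intro d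
      induction d with
      | zero =>
        intro Q' hd
        have hl : s.cmp.lv Q ≤ s.cmp.lv Q' := by omega
        by_cases h : s.cmp.Bel Q Q'
        · rw [s.cmp.sp_bel _ _ h]
          exact hη.2 t Q'
        · rw [s.cmp.sp_ge _ _ hl h]
          exact hξ.2 t Q'
      | succ d ih =>
        intro Q' hd
        rw [s.cmp.sp_coh hη.1 hξ.1 Q']
        refine s.join_E0 hmono hE1 t Q' fun R hR => ih R ?_
        have h3 : s.cmp.lv R = s.cmp.lv Q' + 1 := s.cmp.lv_ch _ _ hR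
        omega
    exact fun Q' => h1 _ Q' rfl
  · rintro b ⟨x, rfl⟩ 𝒰 h𝒰 ξ hξ η hη
    rw [mem_VV] at hξ ⊢
    refine ⟨lim_coh h𝒰 hη, fun t Q δ hδ => ?_⟩
    obtain ⟨m₀, hm₀⟩ := ho t x (δ / 2) (by positivity)
    refine isClosed_closure.mem_of_tendsto (hη Q) ?_
    filter_upwards [h𝒰 (eventually_ge_atTop m₀), h𝒰 (eventually_ge_atTop (s.lv Q))] with m h3 h4
    by_cases hQ : s.cmp.Bel Q (br x m)
    · have h5 := (hbr' x).eq_of_bel hQ
      have h6 := s.mg_EB hmono hE1 (hbr x) (by positivity : (0:ℝ) ≤ δ / 2) (hm₀ m h3) hξ.1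
        (fun Q => hξ.2 t Q) (m - s.lv Q) (s.lv Q) (by omega) δ (by linarith)
      have h7 : Q = br x (s.lv Q) := h5
      rw [← h7] at h6
      exact h6
    · rw [s.cmp.mg_off hξ.1 hQ]
      exact hξ.2 t Q δ hδ

/-- **RV2** -/
theorem rv2 : RV2 := by
  intro T S _ s Par _ _ _ E _ hanti hmono hE1 ξ hξ
  obtain ⟨hξc, hξE⟩ := mem_VV.1 hξ
  have hdir1 : IsDirected (Par × ℕ) (· ≤ ·) := directed_prod
  have hdir2 : IsDirected (ℕ × Finset T) (· ≤ ·) := directed_prod
  have hdir3 : IsDirected (Par × ℕ × Finset T) (· ≤ ·) := directed_prod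
  -- approximations
  have hex : ∀ i : Par × ℕ × Finset T, ∃ a : ∀ Q, S Q,
      (∀ Q, s.Rc i.2.1 a Q ∈ E i.1 (1 / ((i.2.1 : ℝ) + 1)) Q) ∧
      ∀ Q ∈ i.2.2, dist (cc (s.Rc i.2.1 a) Q) (ξ Q) < 1 / ((i.2.1 : ℝ) + 1) := by
    rintro ⟨t, n, F⟩
    obtain ⟨c, hc, hc'⟩ := s.exists_budget hmono hE1 n
      (δ := 1 / ((n : ℝ) + 1)) (by positivity)
    have h1 : ξ ∈ closure (Set.pi univ fun R =>
        (fun a : S R => (a : Completion (S R))) '' E t c R) := by
      rw [closure_pi_set]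
      exact fun R _ => hξE t R c hc
    have h2 : {y : ∀ Q, Completion (S Q) | ∀ Q ∈ F,
        dist (s.cmp.Rc n y Q) (ξ Q) < 1 / ((n : ℝ) + 1)} ∈ 𝓝 ξ := by
      refine (Filter.eventually_all_finset F).2 fun Q _ => ?_
      have h3 : Tendsto (fun y => s.cmp.Rc n y Q) (𝓝 ξ) (𝓝 (s.cmp.Rc n ξ Q)) :=
        ((continuous_apply Q).comp (s.cmp.continuous_Rc n)).tendsto ξ
      rw [s.cmp.Rc_coh hξc] at h3
      exact h3.eventually (Metric.ball_mem_nhds _ (by positivity))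
    obtain ⟨y, hy1, hy2⟩ := mem_closure_iff_nhds.1 h1 _ h2
    have h4 : ∀ R, ∃ a ∈ E t c R, (a : Completion (S R)) = y R := fun R => hy2 R (mem_univ R)
    choose a ha hay using h4
    have h5 : y = cc a := funext fun R => (hay R).symm
    refine ⟨a, hc' t a ha, fun Q hQ => ?_⟩
    have h6 := hy1 Q hQ
    rw [h5, s.cmp_Rc] at h6
    exact h6
  choose a ha hnear using hex
  obtain ⟨t₀⟩ := (inferInstance : Nonempty Par)
  refine ⟨Ultrafilter.of atTop, fun i => s.Rc i.2.1 (a i), ?_, ?_, ?_⟩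
  · intro t δ hδ Q
    obtain ⟨n, hn⟩ := exists_nat_one_div_lt hδ
    refine (Ultrafilter.of_le _) ?_
    filter_upwards [eventually_ge_atTop ((t, n, ∅) : Par × ℕ × Finset T)] with i hi
    refine hanti t i.1 hi.1 δ Q (hmono i.1 _ _ ?_ Q (ha i Q))
    refine le_trans ?_ hn.le
    apply one_div_le_one_div_of_le (by positivity)
    have h3 : n ≤ i.2.1 := hi.2.1
    have : (n : ℝ) ≤ i.2.1 := by exact_mod_cast h3
    linarith
  · intro n
    refine (Ultrafilter.of_le _) ?_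
    filter_upwards [eventually_ge_atTop ((t₀, n, ∅) : Par × ℕ × Finset T)] with i hi Q hQ
    exact s.Rc_lt _ (hQ.trans_le hi.2.1)
  · have hlim : Tendsto (fun i : Par × ℕ × Finset T => cc (s.Rc i.2.1 (a i))) atTop (𝓝 ξ) := by
      rw [tendsto_pi_nhds]
      intro Q
      rw [Metric.tendsto_nhds]
      intro ε hε
      obtain ⟨n, hn⟩ := exists_nat_one_div_lt hε
      filter_upwards [eventually_ge_atTop ((t₀, n, {Q}) : Par × ℕ × Finset T)] with i hi
      have h1 : Q ∈ i.2.2 := hi.2.2 (Finset.mem_singleton_self Q)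
      have h2 := hnear i Q h1
      have h3 : n ≤ i.2.1 := hi.2.1
      refine h2.trans_le (le_trans ?_ hn.le)
      apply one_div_le_one_div_of_le (by positivity)
      have : (n : ℝ) ≤ i.2.1 := by exact_mod_cast h3
      linarith
    exact hlim.mono_left (Ultrafilter.of_le _)

end Vale.Agent.P116.Ms
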