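import Vale.Agent.P116.Ms.Spec

/-!
The state for a measure on the space of components: the abstract theorem applied to the tree of
the nodes of `K`.
-/

open Set Filter Topology Metric Bornology MeasureTheory

namespace Vale.Agent.P116.Ms

open H906 PBC Slow

variable {K : Set ℂ} {R ρ : ℝ}

/-- structures inside `Q` with total excess at most `δ` which cover the members of `T` -/
structure EM (K : Set ℂ) (δ : ℝ) (T : Set (Set ℂ)) (Q : Set ℂ) (S : Set (Set ℂ)) : Prop where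
  ns : NS K Q S
  exc : Exc K δ S
  cov : ∀ p ∈ T, p ⊆ Q → ∃ A ∈ S, p ⊆ A

lemma EM.mono {δ δ' : ℝ} {T T' : Set (Set ℂ)} {Q : Set ℂ} {S : Set (Set ℂ)} (h : EM K δ T Q S)
    (hd : δ ≤ δ') (hT : T' ⊆ T) : EM K δ' T' Q S where
  ns := h.ns
  exc := h.exc.mono hd
  cov := fun q hq hqQ => h.cov q (hT hq) hqQ

/-- pieces of structures of small excess are in deep levels -/
lemma exc_lev {δ : ℝ} {S : Set (Set ℂ)} (h : Exc K δ S) {n : ℕ} (hn : δ ≤ lr n) {A : Set ℂ}
    (hA : A ∈ S) : A ⊆ lev K n := by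
  obtain ⟨p, e, h1, -, h3⟩ := h
  obtain ⟨hp, -, he, hAe⟩ := h1 A hA
  have h4 := h3 {A} (by simpa using hA)
  rw [Finset.sum_singleton] at h4
  refine hAe.trans ((cthickening_mono (h4.trans hn) _).trans ?_)
  exact (cthickening_subset_of_subset _ (comps_subset hp)).trans (subset_fil _)

/-- the trivial structures -/
lemma em_base {T : Set (Set ℂ)} (hT : T.Finite) (hTc : ∀ q ∈ T, q ∈ comps K ∧ q.Nontrivial)
    (Q : Set ℂ) : EM K 0 T Q {q | q ∈ T ∧ q ⊆ Q} where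
  ns :=
    { fin := hT.subset fun _ h => h.1
      pc := fun A hA => Or.inl (hTc A hA.1)
      disj := fun A hA A' hA' hne => comps_disjoint (hTc A hA.1).1 (hTc A' hA'.1).1 hne
      sub := fun _ hA => hA.2 }
  exc := ⟨id, fun _ => 0, fun A hA => ⟨(hTc A hA.1).1, Subset.rfl, le_rfl,
    self_subset_cthickening _⟩, injOn_id _, fun F _ => by simp⟩
  cov := fun q hq hqQ => ⟨q, ⟨hq, hqQ⟩, Subset.rfl⟩

/-- the trivial structure inside `q` -/
def bst {T : Set (Set ℂ)} (hT : T.Finite) (hTc : ∀ q ∈ T, q ∈ comps K ∧ q.Nontrivial)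
    (q : Tn K) : SN q := ⟨_, (em_base hT hTc q.st).ns⟩

lemma base_join (hK : IsCompact K) {T : Set (Set ℂ)} (hT : T.Finite)
    (hTc : ∀ q ∈ T, q ∈ comps K ∧ q.Nontrivial) (q : Tn K) :
    bst hT hTc q = join hK q (bst hT hTc) := by
  apply Subtype.ext
  change {p | p ∈ T ∧ p ⊆ q.st} = jn q (bst hT hTc)
  ext p
  rw [mem_jn]
  constructor
  · rintro ⟨hp, hpq⟩
    obtain ⟨r, hr, hpr⟩ := comp_subset_chs (hTc p hp).1 hpq
    exact ⟨r, hr, hp, hpr⟩
  · rintro ⟨r, hr, hp, hpr⟩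
    exact ⟨hp, hpr.trans hr.2⟩

/-- the excess of a join -/
theorem em_join (hK : IsCompact K) {T : Set (Set ℂ)} (hTc : ∀ q ∈ T, q ∈ comps K) (q : Tn K)
    {a : ∀ r : Tn K, SN r} {d : Tn K → ℝ} (h : ∀ r ∈ cht hK q, EM K (d r) T r.st (a r).1) :
    EM K (∑ r ∈ cht hK q, d r) T q.st (join hK q a).1 where
  ns := ns_jn hK q a
  exc := by
    classical
    have h1 : ∀ r : Tn K, ∃ (p : Set ℂ → Set ℂ) (e : Set ℂ → ℝ), r ∈ cht hK q →
        (∀ A ∈ (a r).1, p A ∈ comps K ∧ p A ⊆ A ∧ 0 ≤ e A ∧ A ⊆ cthickening (e A) (p A)) ∧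
        InjOn p (a r).1 ∧ ∀ F : Finset (Set ℂ), (↑F : Set (Set ℂ)) ⊆ (a r).1 →
          ∑ A ∈ F, e A ≤ d r := by
      intro r
      by_cases hr : r ∈ cht hK q
      · obtain ⟨p, e, h2⟩ := (h r hr).exc
        exact ⟨p, e, fun _ => h2⟩
      · exact ⟨id, fun _ => 0, fun h' => absurd h' hr⟩
    choose p e hpe using h1
    have h2 : ∀ A : Set ℂ, ∃ r : Tn K, A ∈ jn q a → r ∈ cht hK q ∧ A ∈ (a r).1 := by
      intro A
      by_cases hA : A ∈ jn q a
      · obtain ⟨r, hr, hAr⟩ := mem_jn.1 hA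
        exact ⟨r, fun _ => ⟨(mem_cht hK).2 hr, hAr⟩⟩
      · exact ⟨q, fun h' => absurd h' hA⟩
    choose f hf using h2
    have huniq : ∀ r ∈ cht hK q, ∀ r' ∈ cht hK q, (r.st ∩ r'.st).Nonempty → r = r' :=
      fun r hr r' hr' hne => chs_disj ((mem_cht hK).1 hr) ((mem_cht hK).1 hr') hne
    refine ⟨fun A => p (f A) A, fun A => e (f A) A, fun A hA => ?_, ?_, fun F hF => ?_⟩
    · obtain ⟨h3, h4⟩ := hf A hA
      exact (hpe _ h3).1 A h4
    · intro A hA A' hA' hAA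
      have hAA' : p (f A) A = p (f A') A' := hAA
      obtain ⟨h3, h4⟩ := hf A hA
      obtain ⟨h3', h4'⟩ := hf A' hA'
      obtain ⟨hc1, hc2, -⟩ := (hpe _ h3).1 A h4
      obtain ⟨hc1', hc2', -⟩ := (hpe _ h3').1 A' h4'
      obtain ⟨z, hz⟩ := comps_nonempty hc1
      have hff : f A = f A' := huniq _ h3 _ h3' ⟨z, (a _).2.sub A h4 (hc2 hz),
        (a _).2.sub A' h4' (hc2' (hAA' ▸ hz))⟩
      rw [← hff] at hAA' h4'
      exact (hpe _ h3).2.1 h4 h4' hAA'
    · have h3 : ∑ A ∈ F, e (f A) A = ∑ r ∈ cht hK q, ∑ A ∈ F.filter (fun A => f A = r), e r A := by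
        rw [← Finset.sum_fiberwise_of_maps_to (g := f) (t := cht hK q)
          (fun A hA => (hf A (hF hA)).1)]
        refine Finset.sum_congr rfl fun r _ => Finset.sum_congr rfl fun A hA => ?_
        rw [(Finset.mem_filter.1 hA).2]
      rw [h3]
      refine Finset.sum_le_sum fun r hr => (hpe r hr).2.2 _ fun A hA => ?_
      have hA' := Finset.mem_filter.1 (Finset.mem_coe.1 hA)
      have h4 := (hf A (hF hA'.1)).2
      rwa [hA'.2] at h4
  cov p hp hpq := by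
    obtain ⟨r, hr, hpr⟩ := comp_subset_chs (hTc p hp) hpq
    obtain ⟨A, hA, hpA⟩ := (h r ((mem_cht hK).2 hr)).cov p hp hpr
    exact ⟨A, mem_jn.2 ⟨r, hr, hA⟩, hpA⟩

/-- small nodes -/
theorem em_on (hK : IsCompact K) (hf : Full K) {T : Set (Set ℂ)} {x : ℂ} (hx : x ∈ K) {δ : ℝ}
    (hδ : 0 < δ) : ∃ m₀, ∀ m ≥ m₀, EM K δ T (Slow.br hx m).st (on (Slow.br hx m)).1 := by
  obtain ⟨m₀, hm₀⟩ := exists_nd_subset hK hf hx (W := thickening δ (connectedComponentIn K x))
    isOpen_thickening (self_subset_thickening hδ _)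
  refine ⟨m₀ + 1, fun m hm => ?_⟩
  obtain ⟨m', rfl⟩ : ∃ m', m = m' + 1 := ⟨m - 1, by omega⟩
  change EM K δ T (nd K m' x) (on (nt m' hx)).1
  rw [on_nt]
  have hm' : nd K m' x ⊆ thickening δ (connectedComponentIn K x) :=
    (nd_anti (show m₀ ≤ m' by omega)).trans hm₀
  refine ⟨⟨finite_singleton _, ?_, ?_, ?_⟩, ⟨fun _ => connectedComponentIn K x, fun _ => δ, ?_, ?_, ?_⟩,
    fun q _ hq => ⟨_, rfl, hq⟩⟩
  · rintro _ rfl
    exact Or.inr ⟨m', x, hx, rfl⟩
  · rintro _ rfl _ rfl hne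
    exact absurd rfl hne
  · rintro _ rfl
    exact Subset.rfl
  · rintro _ rfl
    exact ⟨⟨x, hx, rfl⟩, comp_subset_nd ⟨x, hx, rfl⟩ (mem_connectedComponentIn hx) _, hδ.le,
      hm'.trans (thickening_subset_cthickening _ _)⟩
  · rintro _ rfl _ rfl _
    rfl
  · intro F hF
    have hF1 : F ⊆ {nd K m' x} := fun A hA => by
      have := hF hA
      simpa using this
    calc ∑ A ∈ F, δ ≤ ∑ A ∈ {nd K m' x}, δ :=
          Finset.sum_le_sum_of_subset_of_nonneg hF1 fun _ _ _ => hδ.le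
      _ = δ := Finset.sum_singleton _ _

/-- the branch of a component -/
noncomputable def brc (c : ConnectedComponents K) : ℕ → Tn K := Slow.br (Quotient.out c : K).2

lemma brc_mk (x : K) : brc (ConnectedComponents.mk x) = Slow.br x.2 := by
  funext n
  have h1 : ConnectedComponents.mk (Quotient.out (ConnectedComponents.mk x) : K) =
      ConnectedComponents.mk x := Quotient.out_eq _
  cases n with
  | zero => rfl
  | succ n =>
    refine Tn.ext' rfl ?_
    exact (nd_eq_of_mk h1.symm n)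

lemma isOpen_brc (k : ℕ) (q : Tn K) : IsOpen {c : ConnectedComponents K | brc c k = q} := by
  rw [← ConnectedComponents.isQuotientMap_coe.isOpen_preimage]
  have h1 : (ConnectedComponents.mk : K → ConnectedComponents K) ⁻¹' {c | brc c k = q} =
      {x : K | Slow.br x.2 k = q} := by
    ext x
    change brc (ConnectedComponents.mk x) k = q ↔ _
    rw [brc_mk]
    rfl
  rw [h1, isOpen_iff_forall_mem_open]
  rintro ⟨x, hx⟩ hq
  cases k with
  | zero => exact ⟨univ, fun y _ => hq, isOpen_univ, mem_univ _⟩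
  | succ k =>
    refine ⟨{y : K | (y : ℂ) ∈ ball x (lr k)}, ?_, isOpen_ball.preimage continuous_subtype_val,
      mem_ball_self (lr_pos k)⟩
    rintro ⟨y, hy⟩ hyx
    have h1 : y ∈ nd K k x := closedBall_subset_nd hx (mem_nd hx k) (ball_subset_closedBall hyx)
    have hq' : Slow.br hx (k + 1) = q := hq
    change Slow.br hy (k + 1) = q
    rw [← hq']
    exact Tn.ext' rfl (nd_eq h1)

lemma brc_Br (h : Far K R ρ) (hne : K.Nonempty) (c : ConnectedComponents K) :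
    (sysK h hne).Br (brc c) :=
  ⟨rfl, fun k => (mem_cht h.cpt).2 (br_succ_mem _ k)⟩

/-- **the state of a measure** -/
theorem exists_stateM (h3 : AB3) (h4 : AB4) (hS : SysCnt) (h : Far K R ρ) (hne : K.Nonempty)
    [MeasurableSpace (ConnectedComponents K)] [BorelSpace (ConnectedComponents K)]
    (ν : Measure (ConnectedComponents K)) [IsFiniteMeasure ν] :
    ∃ 𝔊 : Ultrafilter Str, Fine K (𝔊 : Filter Str) ∧
      (∀ᶠ S : Str in (𝔊 : Filter Str), NS K (lev K 0) S.1) ∧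
      (∀ᵐ c ∂ν, ∀ x : K, ConnectedComponents.mk x = c → WSl K ρ (𝔊 : Filter Str) x) ∧
      (∀ δ > 0, ∀ᶠ S : Str in (𝔊 : Filter Str), Exc K δ S.1) ∧
      (∀ p ∈ comps K, p.Nontrivial → ∀ᶠ S : Str in (𝔊 : Filter Str), ∃ A ∈ S.1, p ⊆ A) := by
  classical
  set s := sysK h hne with hs
  have hdir := directed_Pr K
  have hnon := nonempty_Pr K
  obtain ⟨𝓕, a, hE, hcoh, hslow⟩ := h3 s (Par := Pr K)
    (E := fun (t : Pr K) δ q => {b : XQ h q | EM K δ (↑t.2.1) q.st b.1})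
    (tbd h) (h4 (hS h hne)) (μ := ν) (br := brc) (fun c => brc_Br h hne c)
    (fun k Q => (isOpen_brc k Q).measurableSet)
    (fun t t' htt δ q b hb => by
      have htt' : t.1 ≤ t'.1 ∧ t.2 ≤ t'.2 := htt
      exact EM.mono hb le_rfl (Finset.coe_subset.2 htt'.2))
    (fun t δ δ' hd q b hb => EM.mono hb hd Subset.rfl)
    (fun t => ⟨bst t.2.1.finite_toSet (fun q hq => t.2.2 q hq),
      fun q => base_join h.cpt t.2.1.finite_toSet (fun q hq => t.2.2 q hq) q,
      fun q => em_base t.2.1.finite_toSet (fun q hq => t.2.2 q hq) q.st⟩)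
    (fun t q a d _ ha => em_join h.cpt (fun p hp => (t.2.2 p hp).1) q ha)
    (fun t c δ hδ => em_on h.cpt h.full _ hδ)
  set Φ : Pr K × ℕ × Finset (Tn K) → Str := fun i =>
    ⟨(a i (rt K)).1, ns_adm h.cpt h.full (a i (rt K)).2⟩ with hΦ
  have hev : ∀ {p : Str → Prop}, (∀ᶠ i in (𝓕 : Filter _), p (Φ i)) →
      ∀ᶠ S in ((𝓕.map Φ : Ultrafilter Str) : Filter Str), p S := by
    intro p hp
    rw [Ultrafilter.coe_map, eventually_map]
    exact hp
  refine ⟨𝓕.map Φ, ?_, ?_, ?_, ?_, ?_⟩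
  · intro n
    refine hev ?_
    filter_upwards [hE (0, ⟨∅, by simp⟩) (lr n) (lr_pos n) (rt K)] with i hi A hA
    exact exc_lev (hi : EM K (lr n) _ _ _).exc le_rfl hA
  · exact hev (Eventually.of_forall fun i => (a i (rt K)).2)
  · filter_upwards [hslow] with c hc
    rintro ⟨x, hx⟩ rfl ε hε k₀
    obtain ⟨k, hk, hk'⟩ := hc ε hε (k₀ + 1)
    rw [brc_mk] at hk'
    obtain ⟨m, rfl⟩ : ∃ m, k = m + 1 := ⟨k - 1, by omega⟩
    refine ⟨m, by omega, hev ?_⟩
    filter_upwards [hk', hcoh (m + 1)] with i hi hci z hz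
    have h1 := mg_eq h hne hx m (a := a i) (fun q hq => hci q hq)
    have h2 := h.le_dQ (Q := lev K 0) Subset.rfl (a i (rt K))
      (s.mg (Slow.br hx) (m + 1) (a i) (rt K))
      ⟨∅, ns_empty, fun _ hP => hP.elim⟩ ⟨z, hz⟩
    have h3 : dQ K (lev K 0) ρ (a i (rt K)) (s.mg (Slow.br hx) (m + 1) (a i) (rt K)) < ε := hi
    rw [← KM_eq (Φ i)]
    change ‖KM (a i (rt K)).1 z - KM (mrg (nd K m x) (a i (rt K)).1) z‖ ≤ ε
    rw [← h1]
    simp only [empty_union] at h2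
    exact h2.trans h3.le
  · intro δ hδ
    refine hev ?_
    filter_upwards [hE (0, ⟨∅, by simp⟩) δ hδ (rt K)] with i hi
    exact (hi : EM K δ _ _ _).exc
  · intro p hp hpn
    refine hev ?_
    filter_upwards [hE (0, ⟨{p}, by
      intro q hq
      rw [Finset.mem_singleton] at hq
      subst hq
      exact ⟨hp, hpn⟩⟩) 1 one_pos (rt K)] with i hi
    refine (hi : EM K 1 _ _ _).cov p (by simp) ?_
    exact (comps_subset hp).trans (H906.subset_lev 0)

end Vale.Agent.P116.Ms
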