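import Vale.Agent.P116.Ms.SpecR

/-!
MM: the finite minimax theorem. WC: weak compactness tested on clopen sets.
-/

open Set Filter Topology Metric MeasureTheory
open scoped Classical ENNReal

namespace Vale.Agent.P116.Ms

/-- **MM** -/
theorem mm : MM := by
  intro ι Ξ _ _ _ a ha δ
  set C : Set (ι → ℝ) := convexHull ℝ (range a) with hC
  set D : Set (ι → ℝ) := {y | ∀ i, y i < δ} with hD
  have hDc : Convex ℝ D := by
    intro x hx y hy s t hs ht hst i
    have h1 : s * x i + t * y i < δ := by
      rcases hs.eq_or_lt with h | h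
      · rw [← h] at hst ⊢
        rw [zero_add] at hst
        rw [hst]
        simpa using hy i
      · calc s * x i + t * y i < s * δ + t * δ :=
              add_lt_add_of_lt_of_le (mul_lt_mul_of_pos_left (hx i) h)
                (mul_le_mul_of_nonneg_left (hy i).le ht)
          _ = δ := by rw [← add_mul, hst, one_mul]
    simpa using h1
  have hDo : IsOpen D := by
    have : D = ⋂ i, {y : ι → ℝ | y i < δ} := by
      ext y
      simp [hD]
    rw [this]
    exact isOpen_iInter_of_finite fun i => isOpen_lt (continuous_apply i) continuous_const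
  by_cases hdisj : Disjoint D C
  · right
    obtain ⟨f, u, hfD, hfC⟩ := geometric_hahn_banach_open hDc hDo (convex_convexHull ℝ _) hdisj
    have hf : ∀ y : ι → ℝ, f y = ∑ i, y i * f (Pi.single i 1) := by
      intro y
      conv_lhs => rw [pi_eq_sum_univ' y]
      rw [map_sum]
      refine Finset.sum_congr rfl fun i _ => ?_
      rw [map_smul, smul_eq_mul]
    set m : ι → ℝ := fun i => f (Pi.single i 1) with hm
    have hm0 : ∀ i, 0 ≤ m i := by
      intro i
      by_contra hi
      rw [not_le] at hi
      -- the point `(δ - 1) - t e_i`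
      have h1 : ∀ t : ℝ, 0 ≤ t → (∑ j, (δ - 1) * m j) - t * m i < u := by
        intro t ht
        have h2 := hfD (fun j => (δ - 1) - (if j = i then t else 0)) (by
          intro j
          change (δ - 1) - (if j = i then t else 0) < δ
          split_ifs <;> linarith)
        rw [hf] at h2
        have h3 : ∑ j, ((δ - 1) - (if j = i then t else 0)) * m j =
            (∑ j, (δ - 1) * m j) - t * m i := by
          simp only [sub_mul, Finset.sum_sub_distrib, ite_mul, zero_mul, Finset.sum_ite_eq',
            Finset.mem_univ, if_true]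
        rwa [← h3]
      have h4 := h1 (max 0 ((u - ∑ j, (δ - 1) * m j) / (-m i))) (le_max_left _ _)
      have h5 : (u - ∑ j, (δ - 1) * m j) / (-m i) ≤
          max 0 ((u - ∑ j, (δ - 1) * m j) / (-m i)) := le_max_right _ _
      rw [div_le_iff₀ (by linarith)] at h5
      linarith
    obtain ⟨ξ₀⟩ := (inferInstance : Nonempty Ξ)
    have hsum : 0 < ∑ i, m i := by
      refine lt_of_le_of_ne (Finset.sum_nonneg fun i _ => hm0 i) fun h => ?_
      have h0 : ∀ i, m i = 0 := fun i =>
        (Finset.sum_eq_zero_iff_of_nonneg fun i _ => hm0 i).1 h.symm i (Finset.mem_univ i)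
      have h1 := hfD (fun _ => δ - 1) (fun i => by change δ - 1 < δ; linarith)
      have h2 := hfC (a ξ₀) (subset_convexHull ℝ _ ⟨ξ₀, rfl⟩)
      rw [hf] at h1 h2
      have h3 : ∀ y : ι → ℝ, ∑ i, y i * f (Pi.single i 1) = 0 := fun y =>
        Finset.sum_eq_zero fun i _ => by
          have : f (Pi.single i 1) = 0 := h0 i
          rw [this, mul_zero]
      rw [h3] at h1 h2
      linarith
    have hu : δ * ∑ i, m i ≤ u := by
      refine le_of_forall_pos_le_add fun η hη => ?_
      have h1 := hfD (fun _ => δ - η / ∑ i, m i) (fun i => by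
        change δ - η / ∑ i, m i < δ
        have : 0 < η / ∑ i, m i := div_pos hη hsum
        linarith)
      rw [hf, ← Finset.mul_sum] at h1
      have h2 : (δ - η / ∑ i, m i) * ∑ i, m i = δ * (∑ i, m i) - η := by
        rw [sub_mul, div_mul_cancel₀ _ hsum.ne']
      have h3 : (δ - η / ∑ i, m i) * ∑ i, f (Pi.single i 1) = δ * (∑ i, m i) - η := h2
      rw [h3] at h1
      linarith
    refine ⟨fun i => m i / ∑ j, m j, fun i => div_nonneg (hm0 i) hsum.le, ?_, fun ξ => ?_⟩
    · rw [← Finset.sum_div, div_self hsum.ne']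
    · have h1 := hfC (a ξ) (subset_convexHull ℝ _ ⟨ξ, rfl⟩)
      rw [hf] at h1
      have h2 : ∑ i, m i / (∑ j, m j) * a ξ i = (∑ i, a ξ i * m i) / ∑ j, m j := by
        rw [Finset.sum_div]
        refine Finset.sum_congr rfl fun i _ => ?_
        ring
      rw [h2, le_div_iff₀ hsum]
      exact hu.trans h1
  · left
    obtain ⟨y, hyD, hyC⟩ := not_disjoint_iff.1 hdisj
    rw [hC, convexHull_range_eq_exists_affineCombination] at hyC
    obtain ⟨A, w, hw0, hw1, hw⟩ := hyC
    refine ⟨A, w, hw0, hw1, fun i => ?_⟩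
    rw [Finset.affineCombination_eq_linear_combination _ _ _ hw1] at hw
    have h1 : y i = ∑ ξ ∈ A, w ξ * a ξ i := by
      rw [← hw]
      simp
    rw [← h1]
    exact hyD i

/-- **WC** -/
theorem wc : WC := by
  intro β _ _ _ _ _ μ
  set 𝒰 : Ultrafilter ℕ := hyperfilter ℕ
  obtain ⟨μ', -, hμ'⟩ := (isCompact_univ (X := ProbabilityMeasure β)).ultrafilter_le_nhds
    (𝒰.map μ) (by simp)
  refine ⟨μ', fun C hC δ hev => ?_⟩
  have hlim : Tendsto μ (𝒰 : Filter ℕ) (𝓝 μ') := hμ'
  rw [ProbabilityMeasure.tendsto_iff_forall_integral_tendsto] at hlim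
  have hcont : Continuous (C.indicator (fun _ => (1:ℝ))) :=
    (continuous_const).indicator (by simp [hC.frontier_eq])
  have h1 := hlim (BoundedContinuousFunction.mkOfCompact ⟨_, hcont⟩)
  have h2 : ∀ ν : ProbabilityMeasure β, ∫ x, (BoundedContinuousFunction.mkOfCompact
      (⟨_, hcont⟩ : C(β, ℝ))) x ∂(ν : Measure β) = ((ν : Measure β) C).toReal := by
    intro ν
    simp only [BoundedContinuousFunction.mkOfCompact_apply, ContinuousMap.coe_mk]
    rw [integral_indicator hC.isOpen.measurableSet]
    simp [Measure.real]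
  simp only [h2] at h1
  refine ge_of_tendsto h1 ?_
  have h3 : (𝒰 : Filter ℕ) ≤ atTop := Nat.hyperfilter_le_atTop
  exact h3 hev

end Vale.Agent.P116.Ms
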