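import Vale.Agent.P116.Ms.SpecR

/-!
# Block RB: Baire category in the space of probability measures
-/

open Set Filter Topology Metric Bornology MeasureTheory
open scoped ENNReal BoundedContinuousFunction

namespace Vale.Agent.P116.Ms

namespace RBaux

variable {Ω : Type} [MeasurableSpace Ω]

/-- the measure with the weights `w i` at the points `p i` -/
noncomputable def fsm {ι : Type} [Fintype ι] (p : ι → Ω) (w : ι → ℝ≥0∞) : Measure Ω :=
  ∑ i, w i • Measure.dirac (p i)

lemma fsm_apply {ι : Type} [Fintype ι] (p : ι → Ω) (w : ι → ℝ≥0∞) {F : Set Ω}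
    (hF : MeasurableSet F) : fsm p w F = ∑ i, w i * F.indicator 1 (p i) := by
  simp [fsm, Measure.dirac_apply' _ hF]

lemma isProb {ι : Type} [Fintype ι] {p : ι → Ω} {w : ι → ℝ≥0∞} (hw : ∑ i, w i = 1) :
    IsProbabilityMeasure (fsm p w) := by
  constructor
  rw [fsm_apply p w MeasurableSet.univ]
  simpa using hw

lemma integral_fsm [TopologicalSpace Ω] [BorelSpace Ω] {ι : Type} [Fintype ι] {p : ι → Ω}
    {w : ι → ℝ≥0∞} (hw : ∑ i, w i = 1) (f : Ω →ᵇ ℝ) :
    ∫ x, f x ∂(fsm p w) = ∑ i, (w i).toReal * f (p i) := by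
  have hwt : ∀ i, w i ≠ ∞ := fun i h => by
    have : w i ≤ 1 := by
      rw [← hw]
      exact Finset.single_le_sum (f := w) (fun _ _ => zero_le) (Finset.mem_univ i)
    rw [h] at this
    exact absurd this (by simp)
  have hfm : StronglyMeasurable f := f.continuous.measurable.stronglyMeasurable
  have hint : ∀ i ∈ Finset.univ, Integrable f (w i • Measure.dirac (p i)) := by
    intro i _
    refine Integrable.smul_measure ?_ (hwt i)
    exact integrable_dirac' hfm (by simp)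
  rw [fsm, integral_finsetSum_measure hint]
  refine Finset.sum_congr rfl fun i _ => ?_
  rw [integral_smul_measure, integral_dirac' _ _ hfm, smul_eq_mul]

/-- the finitely supported probability measures -/
def DD (Ω : Type) [MeasurableSpace Ω] : Set (ProbabilityMeasure Ω) :=
  {P | ∃ (ι : Type) (_ : Fintype ι) (p : ι → Ω) (w : ι → ℝ≥0∞), ∑ i, w i = 1 ∧
    (P : Measure Ω) = fsm p w}

end RBaux

open RBaux

/-- block RB -/
theorem rb : RB := by
  intro Ω _ _ _ _ _ _ I B hcl hfin hmono hloc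
  let _ := TopologicalSpace.metrizableSpaceMetric Ω
  set c : ℕ → ℝ≥0∞ := fun n => ENNReal.ofReal (1 / ((n:ℝ) + 1)) with hc
  -- the open sets
  set W : ℕ → Set (ProbabilityMeasure Ω) := fun n =>
    {P | ∃ k, ∀ i, (P : Measure Ω) (B n k i) < c n} with hW
  have hWo : ∀ n, IsOpen (W n) := by
    intro n
    have h1 : W n = ⋃ k, ⋂ F ∈ range (B n k), {P : ProbabilityMeasure Ω | (P : Measure Ω) F < c n} := by
      ext P
      simp [hW]
    rw [h1]
    refine isOpen_iUnion fun k => (hfin n k).isOpen_biInter fun F hF => ?_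
    obtain ⟨i, rfl⟩ := hF
    rw [isOpen_iff_mem_nhds]
    intro P hP
    have h2 := ProbabilityMeasure.limsup_measure_closed_le_of_tendsto
      (μs := fun P : ProbabilityMeasure Ω => P) (L := 𝓝 P) tendsto_id (hcl n k i)
    exact eventually_lt_of_limsup_lt (h2.trans_lt hP)
  have hDne : (DD Ω).Nonempty := by
    obtain ⟨x⟩ := (inferInstance : Nonempty Ω)
    refine ⟨⟨fsm (fun _ : Unit => x) (fun _ => 1), isProb (by simp)⟩, Unit, inferInstance,
      fun _ => x, fun _ => 1, by simp, rfl⟩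
  -- density
  have hdense : ∀ n, DD Ω ⊆ closure (W n ∩ DD Ω) := by
    rintro n P ⟨ι, _, p, w, hw, hP⟩
    have hcpos : 0 < 1 / ((n:ℝ) + 1) := by positivity
    have h1 : ∀ (m : ℕ) (i : ι), ∃ (A : Finset Ω) (v : Ω → ℝ) (k : ℕ),
      (∀ ζ ∈ A, ζ ∈ ball (p i) (1 / ((m:ℝ) + 1))) ∧ (∀ ζ ∈ A, 0 ≤ v ζ) ∧ ∑ ζ ∈ A, v ζ = 1 ∧
      ∀ j (A' : Finset Ω), A' ⊆ A → (∀ ζ ∈ A', ζ ∈ B n k j) → ∑ ζ ∈ A', v ζ < 1 / ((n:ℝ) + 1) :=
      fun m i => hloc n _ isOpen_ball ⟨p i, mem_ball_self (by positivity)⟩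
    choose A v k hAU hv0 hv1 hAB using h1
    let p' : ∀ m, (Σ i : ι, {ζ // ζ ∈ A m i}) → Ω := fun m x => x.2.1
    let w' : ∀ m, (Σ i : ι, {ζ // ζ ∈ A m i}) → ℝ≥0∞ := fun m x => w x.1 * ENNReal.ofReal (v m x.1 x.2.1)
    have hv1' : ∀ m i, ∑ ζ : {ζ // ζ ∈ A m i}, ENNReal.ofReal (v m i ζ.1) = 1 := by
      intro m i
      rw [← ENNReal.ofReal_sum_of_nonneg (fun ζ _ => hv0 m i _ ζ.2), Finset.sum_coe_sort (A m i) (v m i), hv1]
      simp
    have hw' : ∀ m, ∑ x, w' m x = 1 := by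
      intro m
      rw [Fintype.sum_sigma]
      simp only [w']
      simp_rw [← Finset.mul_sum, hv1', mul_one]
      exact hw
    let Q : ℕ → ProbabilityMeasure Ω := fun m => ⟨fsm (p' m) (w' m), isProb (hw' m)⟩
    have hQ : ∀ m, ((Q m : ProbabilityMeasure Ω) : Measure Ω) = fsm (p' m) (w' m) := fun m => rfl
    refine mem_closure_of_tendsto (f := Q) (b := atTop) ?_ (Eventually.of_forall fun m => ⟨?_, ?_⟩)
    · rw [ProbabilityMeasure.tendsto_iff_forall_integral_tendsto]
      intro f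
      simp_rw [hQ, hP, integral_fsm (hw' _), integral_fsm hw]
      have h2 : ∀ m, ∑ x, (w' m x).toReal * f (p' m x) =
          ∑ i, (w i).toReal * ∑ ζ : {ζ // ζ ∈ A m i}, v m i ζ.1 * f ζ.1 := by
        intro m
        rw [Fintype.sum_sigma]
        refine Finset.sum_congr rfl fun i _ => ?_
        rw [Finset.mul_sum]
        refine Finset.sum_congr rfl fun ζ _ => ?_
        simp only [w', p', ENNReal.toReal_mul, ENNReal.toReal_ofReal (hv0 m i _ ζ.2)]
        ring
      simp_rw [h2]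
      refine tendsto_finsetSum _ fun i _ => (Tendsto.const_mul _ ?_)
      rw [Metric.tendsto_atTop]
      intro ε hε
      obtain ⟨δ, hδ, hδf⟩ := Metric.continuous_iff.1 f.continuous (p i) (ε / 2) (by positivity)
      obtain ⟨N, hN⟩ := exists_nat_one_div_lt hδ
      refine ⟨N, fun m hm => ?_⟩
      have h3 : ∑ ζ : {ζ // ζ ∈ A m i}, v m i ζ.1 = 1 := by
        rw [Finset.sum_coe_sort (A m i) (v m i), hv1]
      have h4 : ∑ ζ : {ζ // ζ ∈ A m i}, v m i ζ.1 * f ζ.1 - f (p i) =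
          ∑ ζ : {ζ // ζ ∈ A m i}, v m i ζ.1 * (f ζ.1 - f (p i)) := by
        simp_rw [mul_sub]
        rw [Finset.sum_sub_distrib, ← Finset.sum_mul, h3, one_mul]
      rw [Real.dist_eq, h4]
      refine lt_of_le_of_lt (Finset.abs_sum_le_sum_abs _ _) ?_
      have h5 : ∀ ζ : {ζ // ζ ∈ A m i}, |v m i ζ.1 * (f ζ.1 - f (p i))| ≤ v m i ζ.1 * (ε / 2) := by
        intro ζ
        rw [abs_mul, abs_of_nonneg (hv0 m i _ ζ.2)]
        refine mul_le_mul_of_nonneg_left ?_ (hv0 m i _ ζ.2)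
        have h6 := hAU m i _ ζ.2
        rw [mem_ball] at h6
        have h7 : (1:ℝ) / ((m:ℝ) + 1) ≤ 1 / ((N:ℝ) + 1) := by
          have : (N:ℝ) ≤ m := by exact_mod_cast hm
          gcongr
        have h8 := hδf ζ.1 (h6.trans (h7.trans_lt hN))
        rw [Real.dist_eq] at h8
        exact h8.le
      refine lt_of_le_of_lt (Finset.sum_le_sum fun ζ _ => h5 ζ) ?_
      rw [← Finset.sum_mul, h3]
      linarith
    · -- `Q m ∈ W n`
      obtain ⟨k₀, hk₀⟩ : ∃ k₀, ∀ i, k m i ≤ k₀ :=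
        ⟨Finset.univ.sup (k m), fun i => Finset.le_sup (Finset.mem_univ i)⟩
      refine ⟨k₀, fun j => ?_⟩
      rw [hQ, fsm_apply _ _ (hcl n k₀ j).measurableSet, Fintype.sum_sigma]
      classical
      have h2 : ∀ i, ∑ ζ : {ζ // ζ ∈ A m i}, w' m ⟨i, ζ⟩ * (B n k₀ j).indicator 1 (p' m ⟨i, ζ⟩) =
          w i * ENNReal.ofReal (∑ ζ ∈ (A m i).filter fun ζ => ζ ∈ B n k₀ j, v m i ζ) := by
        intro i
        rw [ENNReal.ofReal_sum_of_nonneg (fun ζ hζ => hv0 m i _ (Finset.mem_filter.1 hζ).1),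
          Finset.sum_filter, ← Finset.sum_coe_sort (A m i), Finset.mul_sum]
        refine Finset.sum_congr rfl fun ζ _ => ?_
        simp only [w', p', Set.indicator_apply, Pi.one_apply]
        split_ifs <;> simp
      simp_rw [h2]
      have h3 : ∀ i, ENNReal.ofReal (∑ ζ ∈ (A m i).filter fun ζ => ζ ∈ B n k₀ j, v m i ζ) < c n := by
        intro i
        rw [hc]
        refine (ENNReal.ofReal_lt_ofReal_iff hcpos).2 ?_
        refine hAB m i j _ (Finset.filter_subset _ _) fun ζ hζ => ?_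
        exact hmono n _ _ (hk₀ i) j (Finset.mem_filter.1 hζ).2
      set x : ι → ℝ≥0∞ := fun i =>
        ENNReal.ofReal (∑ ζ ∈ (A m i).filter fun ζ => ζ ∈ B n k₀ j, v m i ζ) with hx
      have hc0 : 0 < c n := ENNReal.ofReal_pos.2 hcpos
      calc ∑ i, w i * x i ≤ ∑ i, w i * Finset.univ.sup x :=
            Finset.sum_le_sum fun i _ => mul_le_mul_right (Finset.le_sup (Finset.mem_univ i)) _
        _ = Finset.univ.sup x := by rw [← Finset.sum_mul, hw, one_mul]
        _ < c n := (Finset.sup_lt_iff hc0).2 fun i _ => h3 i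
    · exact ⟨_, inferInstance, p' m, w' m, hw' m, rfl⟩
  -- Baire category in the closure of the finitely supported measures
  have hcomp : CompactSpace (closure (DD Ω)) := isCompact_iff_compactSpace.1 isClosed_closure.isCompact
  have hne : Nonempty (closure (DD Ω)) := (hDne.closure).to_subtype
  have hd : ∀ n, Dense ((fun P : closure (DD Ω) => (P : ProbabilityMeasure Ω)) ⁻¹' W n) := by
    intro n
    rw [Subtype.dense_iff]
    refine (closure_minimal (hdense n) isClosed_closure).trans (closure_mono ?_)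
    rintro P ⟨hP, hP'⟩
    exact ⟨⟨P, subset_closure hP'⟩, hP, rfl⟩
  have hbaire : Dense (⋂ n, (fun P : closure (DD Ω) => (P : ProbabilityMeasure Ω)) ⁻¹' W n) :=
    dense_iInter_of_isOpen_nat (fun n => (hWo n).preimage continuous_subtype_val) hd
  obtain ⟨P, hP⟩ := hbaire.nonempty
  rw [mem_iInter] at hP
  refine ⟨P.1, fun n => ?_⟩
  obtain ⟨k, hk⟩ := hP n
  refine ⟨k, fun i => ?_⟩
  exact ENNReal.toReal_le_of_le_ofReal (by positivity) (hk i).le

end Vale.Agent.P116.Ms
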