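import Vale.Agent.P116.Ms.SpecR
import Vale.Agent.P116.Ms.FI2

/-!
The random state of `K`: every component is almost surely good.
-/

open Set Filter Topology Metric Bornology MeasureTheory
open scoped UniformSpace

namespace Vale.Agent.P116.Ms

open H906 PBC Slow Slow.Sys

section fubini

variable {Ω β T : Type*} [MeasurableSpace Ω] [MeasurableSpace β] {P : Measure Ω} [SFinite P]

/-- Fubini: if each `x` is almost surely good then almost surely almost every `x` is good -/
lemma ae_ae_of_ae {good : Ω → β → Prop} (hm : MeasurableSet {q : Ω × β | good q.1 q.2})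
    (h : ∀ x, ∀ᵐ ω ∂P, good ω x) (ν : Measure β) [SFinite ν] : ∀ᵐ ω ∂P, ∀ᵐ x ∂ν, good ω x := by
  have h1 : ∀ᵐ q ∂(ν.prod P), good q.2 q.1 := by
    have hm' : MeasurableSet {q : β × Ω | ¬ good q.2 q.1} :=
      (hm.preimage measurable_swap).compl
    change (ν.prod P) {q : β × Ω | ¬ good q.2 q.1} = 0
    rw [Measure.measure_prod_null hm']
    exact Eventually.of_forall fun x => h x
  have h2 : ∀ᵐ q ∂(P.prod ν), good q.1 q.2 := by
    have hm' : MeasurableSet {q : β × Ω | ¬ good q.2 q.1} :=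
      (hm.preimage measurable_swap).compl
    change (P.prod ν) {q : Ω × β | ¬ good q.1 q.2} = 0
    have h3 : (ν.prod P) {q : β × Ω | ¬ good q.2 q.1} = 0 := h1
    rw [← Measure.prod_swap, Measure.map_apply measurable_swap hm'] at h3
    exact h3
  exact Measure.ae_ae_of_ae_prod h2

end fubini

variable {K : Set ℂ} {R ρ : ℝ}

/-- the compact space of limit trees is nice -/
lemma niceU_VK (hV1 : RV1) (h : Far K R ρ) (hne : K.Nonempty) :
    (sysK h hne).cmp.NiceU (range (brc (K := K))) (VK h hne) := by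
  have hdir := directed_Pr K
  have hnon := nonempty_Pr K
  exact hV1 (sysK h hne) (Par := Pr K)
    (fun (t : Pr K) δ q => {b : XQ h q | EM K δ (↑t.2.1) q.st b.1})
    (tbd h) (br := brc) (fun c => brc_Br h hne c)
    (fun t t' htt δ q b hb => by
      have htt' : t.1 ≤ t'.1 ∧ t.2 ≤ t'.2 := htt
      exact EM.mono hb le_rfl (Finset.coe_subset.2 htt'.2))
    (fun t δ δ' hd q b hb => EM.mono hb hd Subset.rfl)
    (fun t => ⟨bst t.2.1.finite_toSet (fun q hq => t.2.2 q hq),
      fun q => base_join h.cpt t.2.1.finite_toSet (fun q hq => t.2.2 q hq) q,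
      fun q => em_base t.2.1.finite_toSet (fun q hq => t.2.2 q hq) q.st⟩)
    (fun t q a d _ ha => em_join h.cpt (fun p hp => (t.2.2 p hp).1) q ha)
    (fun t c δ hδ => em_on h.cpt h.full _ hδ)

/-- a space of random states of `K`: compact metrizable, with a Borel probability measure -/
structure RSt (K : Set ℂ) (Ω : Type) [TopologicalSpace Ω] [MeasurableSpace Ω] (P : Measure Ω)
    (g : Ω → ℂ → ℂ) (𝔊 : Ω → Ultrafilter Str) : Prop where
  cpt : CompactSpace Ω
  metr : TopologicalSpace.MetrizableSpace Ω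
  borel : BorelSpace Ω
  prob : IsProbabilityMeasure P
  cont : ContinuousOn (fun p : Ω × ℂ => g p.1 p.2) (univ ×ˢ Kᶜ)
  nu : ∀ ω, NU Kᶜ (g ω)
  fine : ∀ ω, Fine K (𝔊 ω : Filter Str)
  conv : ∀ ω, TendstoLocallyUniformlyOn (kF fk) (g ω) (𝔊 ω : Filter Str) Kᶜ
  par : ∀ ω, ∀ x ∈ K, (∀ y ∈ connectedComponentIn K x, TPar K y) →
    GoodAt fk K (𝔊 ω : Filter Str) x
  good : ∀ x ∈ K, ∀ᵐ ω ∂P, GoodAt fk K (𝔊 ω : Filter Str) x
  ae : ∀ [MeasurableSpace (ConnectedComponents K)] [BorelSpace (ConnectedComponents K)]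
    (ν : Measure (ConnectedComponents K)) [SFinite ν], ∀ᵐ ω ∂P, ∀ᵐ c ∂ν,
      ∀ x : K, ConnectedComponents.mk x = c → GoodAt fk K (𝔊 ω : Filter Str) x
  res : ∀ᵐ ω ∂P, {c : ConnectedComponents K | ∀ x : K, ConnectedComponents.mk x = c →
    GoodAt fk K (𝔊 ω : Filter Str) x} ∈ residual (ConnectedComponents K)

/-- **the random state** -/
theorem exists_RSt (h2 : RK2) (hV1 : RV1) (hG : RG) (h4 : AB4) (hS : SysCnt) (h : Far K R ρ)
    (hne : K.Nonempty) : ∃ (Ω : Type) (_ : TopologicalSpace Ω) (_ : MeasurableSpace Ω)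
      (P : Measure Ω) (g : Ω → ℂ → ℂ) (𝔊 : Ω → Ultrafilter Str), RSt K Ω P g 𝔊 := by
  classical
  have hcpt : ∀ q : Tn K, CompactSpace (UniformSpace.Completion (XQ h q)) := compact_cmp (tbd h)
  have hKc : CompactSpace K := isCompact_iff_compactSpace.1 h.cpt
  set s := sysK h hne with hs
  have hbr' : ∀ c : ConnectedComponents K, s.cmp.Br (brc c) := fun c => brc_Br h hne c
  obtain ⟨V, hVV, hVc, hP⟩ := h2 (β := ConnectedComponents K) hbr' isOpen_brc (h4 (hS h hne))
    (niceU_VK hV1 h hne)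
  obtain ⟨g, hgc, hgV⟩ := hG h hne
  have hcount : Countable (Tn K) := countable_Tn h.cpt
  let _ : MeasurableSpace ↥V := borel _
  have hB : BorelSpace ↥V := ⟨rfl⟩
  obtain ⟨P, hPx⟩ := hP
  choose 𝔊 hFine hconv hNS hexc hcov hsl using fun ω : ↥V => (hgV ω.1 (hVV ω.2)).2
  have hρK : sphere (0:ℂ) ρ ⊆ Kᶜ := by
    intro z hz hzK
    have h5 := h.sub (H906.subset_lev 0 hzK)
    rw [mem_closedBall, dist_zero_right] at h5
    rw [mem_sphere, dist_zero_right] at hz
    linarith [h.lt, h.rpos]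
  -- the condition of a branch
  set gd : ↥V → ConnectedComponents K → Prop := fun ω c => ∀ ε > 0, ∀ k₀, ∃ k ≥ k₀,
    dist (ω.1 (rt K)) (s.cmp.mg (brc c) k ω.1 (rt K)) < ε with hgd
  have hwsl : ∀ (ω : ↥V) (x : K), gd ω (ConnectedComponents.mk x) →
      WSl K ρ (𝔊 ω : Filter Str) x := by
    intro ω x hx
    refine hsl ω x x.2 ?_
    have h5 := hx
    simp only [hgd, brc_mk] at h5
    exact h5
  have hws : ∀ (ω : ↥V) (x : K), WSl K ρ (𝔊 ω : Filter Str) x →
      GoodAt fk K (𝔊 ω : Filter Str) x := fun ω x hx =>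
    ws h.cpt h.full x.2 (hFine ω) (hNS ω) h.pos hρK hx (hconv ω)
  have hgood : ∀ x : K, ∀ᵐ ω ∂(P : Measure ↥V), WSl K ρ (𝔊 ω : Filter Str) x := by
    intro x
    filter_upwards [hPx (ConnectedComponents.mk x)] with ω hω
    exact hwsl ω x hω
  refine ⟨↥V, inferInstance, inferInstance, (P : Measure ↥V), fun ω => g ω.1, 𝔊,
    ⟨isCompact_iff_compactSpace.1 hVc.isCompact, ?_, hB, inferInstance, ?_,
    fun ω => (hgV _ (hVV ω.2)).1, fun ω => hFine ω, fun ω => hconv ω, ?_,
    ?_, ?_, ?_⟩⟩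
  · infer_instance
  · refine hgc.comp (f := fun p : ↥V × ℂ => (p.1.1, p.2)) ?_ ?_
    · exact ((continuous_subtype_val.comp continuous_fst).prodMk continuous_snd).continuousOn
    · rintro ⟨ω, z⟩ ⟨-, hz⟩
      exact ⟨hVV ω.2, hz⟩
  · intro ω x hx hT
    exact good_of_TPX h.cpt h.full (hFine ω) (hconv ω) hx hT
      (hexc ω) fun hn => hcov ω _ ⟨x, hx, rfl⟩ hn
  · intro x hx
    filter_upwards [hgood ⟨x, hx⟩] with ω hω using hws ω ⟨x, hx⟩ hω
  · intro _ _ ν _
    have hm : MeasurableSet {q : ↥V × ConnectedComponents K | gd q.1 q.2} := by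
      have h5 : {q : ↥V × ConnectedComponents K | gd q.1 q.2} = ⋂ (j : ℕ), ⋂ (k₀ : ℕ),
          ⋃ (k : ℕ), ⋃ (_ : k₀ ≤ k), ⋃ v : Tn K, {ω : ↥V | dist (ω.1 (rt K))
            (s.cmp.mg (fun _ => v) k ω.1 (rt K)) < 1 / ((j:ℝ) + 1)} ×ˢ
              {c : ConnectedComponents K | brc c k = v} := by
        ext ⟨ω, c⟩
        simp only [mem_iInter, mem_iUnion, mem_prod, mem_ofPred_eq]
        constructor
        · intro hq j k₀
          obtain ⟨k, hk, hd⟩ := hq (1 / ((j:ℝ) + 1)) (by positivity) k₀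
          refine ⟨k, hk, brc c k, ?_, rfl⟩
          exact hd
        · intro hq ε hε k₀
          obtain ⟨j, hj⟩ := exists_nat_one_div_lt hε
          obtain ⟨k, hk, v, hd, hv⟩ := hq j k₀
          refine ⟨k, hk, ?_⟩
          have h6 : s.cmp.mg (brc c) k ω.1 = s.cmp.mg (fun _ => v) k ω.1 := by
            unfold Sys.mg
            rw [hv]
          rw [h6]
          exact hd.trans hj
      rw [h5]
      refine MeasurableSet.iInter fun j => MeasurableSet.iInter fun k₀ => MeasurableSet.iUnion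
        fun k => MeasurableSet.iUnion fun _ => MeasurableSet.iUnion fun v => ?_
      refine MeasurableSet.prod ?_ (isOpen_brc k v).measurableSet
      refine (isOpen_lt ?_ continuous_const).measurableSet
      have h6 : Continuous fun ξ : ∀ q : Tn K, UniformSpace.Completion (XQ h q) =>
          dist (ξ (rt K)) (s.cmp.mg (fun _ => v) k ξ (rt K)) :=
        (continuous_apply _).dist ((continuous_apply _).comp (s.cmp.continuous_mg (fun _ => v) k))
      exact h6.comp continuous_subtype_val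
    filter_upwards [ae_ae_of_ae (P := (P : Measure ↥V)) hm hPx ν] with ω hω
    filter_upwards [hω] with c hc
    rintro x rfl
    exact hws ω x (hwsl ω x hc)
  · obtain ⟨D, hDc, hD⟩ := TopologicalSpace.exists_countable_dense K
    have h5 : ∀ᵐ ω ∂(P : Measure ↥V), ∀ x ∈ D, WSl K ρ (𝔊 ω : Filter Str) (x : ℂ) :=
      (ae_ball_iff hDc).2 fun x _ => hgood x
    filter_upwards [h5] with ω hω
    obtain ⟨-, h7⟩ := residual_WSl hD hω
    exact mem_of_superset h7 fun c hc x hx => hws ω x (hc x hx)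

end Vale.Agent.P116.Ms
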