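import Vale.Agent.P116.PBC.Sph

/-!
Joint continuity on the sphere of a continuous family of normalized conformal maps.
-/

open Set Filter Topology Metric Bornology OnePoint

namespace Vale.Agent.P116.Ms

open H906

/-- the maps of the sphere which extend a continuous family of normalized maps of `Kᶜ` are
jointly continuous -/
theorem rfb0 {K : Set ℂ} (hK : IsCompact K) {Ω : Type*} [TopologicalSpace Ω] {g : Ω → ℂ → ℂ}
    (hc : ContinuousOn (fun p : Ω × ℂ => g p.1 p.2) (univ ×ˢ Kᶜ)) (hn : ∀ ω, NU Kᶜ (g ω)) :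
    ContinuousOn (fun p : Ω × OnePoint ℂ => PBC.lift (g p.1) p.2)
      (univ ×ˢ (((fun z : ℂ => (z : OnePoint ℂ)) '' K)ᶜ)) := by
  rintro ⟨ω, p⟩ ⟨-, hp⟩
  refine ContinuousAt.continuousWithinAt ?_
  induction p using OnePoint.rec with
  | infty =>
    obtain ⟨b, hb⟩ := hK.isBounded.exists_norm_le
    set R : ℝ := max b 1 with hR
    have hR0 : 0 < R := lt_max_of_lt_right one_pos
    have hU : (closedBall (0:ℂ) R)ᶜ ⊆ Kᶜ := by
      refine compl_subset_compl.2 fun z hz => ?_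
      rw [mem_closedBall, dist_zero_right]
      exact (hb z hz).trans (le_max_left _ _)
    rw [ContinuousAt, nhds_prod_eq]
    change Tendsto _ (𝓝 ω ×ˢ 𝓝 ∞) (𝓝 (PBC.lift (g ω) ∞))
    rw [PBC.lift_infty]
    refine (OnePoint.hasBasis_nhds_infty (X := ℂ)).tendsto_right_iff.2 fun s hs => ?_
    obtain ⟨M, hM⟩ := hs.2.isBounded.exists_norm_le
    have h1 : (((fun z : ℂ => (z : OnePoint ℂ)) '' (closedBall (0:ℂ) (max (2 * R) (M + 12 * R)))ᶜ)
        ∪ {∞}) ∈ 𝓝 (∞ : OnePoint ℂ) :=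
      (OnePoint.hasBasis_nhds_infty (X := ℂ)).mem_of_mem (i := closedBall (0:ℂ) _)
        ⟨isClosed_closedBall, isCompact_closedBall _ _⟩
    have h2 : ∀ᶠ q : Ω × OnePoint ℂ in 𝓝 ω ×ˢ 𝓝 ∞,
        q.2 ∈ ((fun z : ℂ => (z : OnePoint ℂ)) '' (closedBall (0:ℂ) (max (2 * R) (M + 12 * R)))ᶜ)
        ∪ {∞} := (eventually_of_mem h1 fun _ h => h).prod_inr _
    filter_upwards [h2] with q hq
    rcases hq with ⟨z, hz, hzq⟩ | hq
    · left
      rw [mem_compl_iff, mem_closedBall, dist_zero_right, not_le, max_lt_iff] at hz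
      refine ⟨g q.1 z, fun hzs => ?_, ?_⟩
      · have h3 := (hn q.1).tail hR0 hU hz.1
        have h4 := hM _ hzs
        have h5 : 24 * R ^ 2 / ‖z‖ ≤ 12 * R := by
          rw [div_le_iff₀ (by linarith)]
          nlinarith
        have h6 : ‖z‖ ≤ ‖g q.1 z‖ + ‖g q.1 z - z‖ := by
          calc ‖z‖ = ‖g q.1 z - (g q.1 z - z)‖ := by congr 1; ring
            _ ≤ _ := norm_sub_le _ _
        linarith
      · rw [← hzq]
        rfl
    · right
      rw [mem_singleton_iff] at hq ⊢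
      rw [hq]
      rfl
  | coe z =>
    have hz : z ∈ Kᶜ := fun h => hp ⟨z, h, rfl⟩
    have he : IsOpenEmbedding (Prod.map (id : Ω → Ω) ((↑) : ℂ → OnePoint ℂ)) :=
      IsOpenEmbedding.id.prodMap OnePoint.isOpenEmbedding_coe
    have h1 : ContinuousAt ((fun p : Ω × OnePoint ℂ => PBC.lift (g p.1) p.2) ∘
        (Prod.map (id : Ω → Ω) ((↑) : ℂ → OnePoint ℂ))) (ω, z) := by
      have h2 : ContinuousAt (fun p : Ω × ℂ => g p.1 p.2) (ω, z) :=
        hc.continuousAt ((isOpen_univ.prod hK.isClosed.isOpen_compl).mem_nhds ⟨mem_univ _, hz⟩)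
      exact ContinuousAt.comp (g := ((↑) : ℂ → OnePoint ℂ)) (f := fun p : Ω × ℂ => g p.1 p.2)
        OnePoint.continuous_coe.continuousAt h2
    exact he.continuousAt_iff.1 h1

/-- RFb: the maps of the sphere which extend a continuous family of normalized maps of `Kᶜ` are
jointly continuous (the form used in the final file) -/
theorem rfb {K : Set ℂ} (hK : IsCompact K) (_ : IsPreconnected Kᶜ) {Ω : Type*}
    [TopologicalSpace Ω] {g : Ω → ℂ → ℂ}
    (hcont : ContinuousOn (fun p : Ω × ℂ => g p.1 p.2) (univ ×ˢ Kᶜ)) (hnu : ∀ ω, NU Kᶜ (g ω)) :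
    ContinuousOn (fun q : Ω × OnePoint ℂ => PBC.lift (g q.1) q.2)
      (univ ×ˢ ((fun z : ℂ => (z : OnePoint ℂ)) '' K)ᶜ) :=
  rfb0 hK hcont hnu

end Vale.Agent.P116.Ms
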