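import Vale.Agent.P116.Ms.AB2
import Vale.Agent.P116.Ms.SpecR

/-!
RK1: near each element of a minimal nice family there is a finitely supported random tree for which
no branch is bad with probability at least `ε`.
-/

open Set Filter Topology Metric MeasureTheory
open scoped Classical ENNReal

namespace Vale.Agent.P116.Ms

open Slow Slow.Sys

section

variable {T : Type} {X : T → Type} [∀ Q, MetricSpace (X Q)] [∀ Q, CompactSpace (X Q)]
  {s : Sys T X} {β : Type} {br : β → ℕ → T}

/-- in a minimal nice family the good trees are dense -/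
theorem dense_good [MeasurableSpace β] {μ : Measure β} [IsFiniteMeasure μ] (h1 : AB1)
    (hbr : ∀ x, s.Br (br x)) (hmeas : ∀ k Q, MeasurableSet {x | br x k = Q}) (hcnt : s.Cnt)
    {V : Set (∀ Q, X Q)} (hV : s.NiceU (range br) V)
    (hmin : ∀ W ⊆ V, s.NiceU (range br) W → W = V) (n : ℕ) :
    V ⊆ closure (V ∩ Wg s br μ n) := by
  have hne : ∀ n, (V ∩ Wg s br μ n).Nonempty := by
    intro n
    have hε : (0:ℝ) < 1 / ((n:ℝ) + 2) := by positivity
    obtain ⟨ζ, hζ, k₁, hk⟩ := h1 (μ := μ) hbr hmeas hcnt hV (s.finite_level_le n).toFinset hε n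
    refine ⟨ζ, hζ, fun Q hQ => ⟨k₁, ?_⟩⟩
    have h2 : 1 / ((n:ℝ) + 2) < 1 / ((n:ℝ) + 1) :=
      one_div_lt_one_div_of_lt (by positivity) (by linarith)
    refine (measure_mono (badS_mono h2.le le_rfl le_rfl)).trans_lt ((hk Q ?_).trans_lt ?_)
    · rwa [Set.Finite.mem_toFinset]
    · rw [ENNReal.ofReal_lt_ofReal_iff (by positivity)]
      exact h2
  have hVeq := hmin _ (fun ξ hξ => closure_minimal inter_subset_left hV.closed
    (mem_iInter.1 hξ 0)) (closure_Wg hbr hmeas hV hne)
  intro ξ hξ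
  exact mem_iInter.1 (hVeq.symm.subset hξ) n

omit [∀ Q, CompactSpace (X Q)] in
/-- being bad up to level `k₁` depends only on the node of level `k₁` -/
lemma badS_congr (hbr : ∀ x, s.Br (br x)) {x y : β} {ζ : ∀ Q, X Q} {Q : T} {ε : ℝ} {k₀ k₁ : ℕ}
    (h : br x k₁ = br y k₁) : x ∈ badS s br ζ Q ε k₀ k₁ ↔ y ∈ badS s br ζ Q ε k₀ k₁ := by
  have e : ∀ k ≤ k₁, br x k = br y k := by
    intro k hk
    have h1 : s.Bel (br x k) (br y k₁) := by
      rw [← h]
      exact (hbr x).bel hk
    have h2 := (hbr y).eq_of_bel h1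
    rwa [(hbr x).lv] at h2
  constructor
  · intro hx k hk hk'
    rw [← mg_eq_of (e k hk')]
    exact hx k hk hk'
  · intro hx k hk hk'
    rw [mg_eq_of (e k hk')]
    exact hx k hk hk'

omit [∀ Q, CompactSpace (X Q)] in
lemma isClopen_badS [TopologicalSpace β] (hbr : ∀ x, s.Br (br x))
    (ho : ∀ k Q, IsOpen {x | br x k = Q}) (ζ : ∀ Q, X Q) (Q : T) (ε : ℝ) (k₀ k₁ : ℕ) :
    IsClopen (badS s br ζ Q ε k₀ k₁) := by
  constructor
  · rw [← isOpen_compl_iff, isOpen_iff_mem_nhds]
    intro x hx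
    filter_upwards [(ho k₁ (br x k₁)).mem_nhds rfl] with y hy
    intro hy'
    exact hx ((badS_congr hbr hy).1 hy')
  · rw [isOpen_iff_mem_nhds]
    intro x hx
    filter_upwards [(ho k₁ (br x k₁)).mem_nhds rfl] with y hy
    exact (badS_congr hbr hy).2 hx

end

/-- **RK1** -/
theorem rk1 (h1 : AB1) (hMM : MM) (hWC : WC) : RK1 := by
  intro T X _ _ s β _ _ _ br hbr ho hcnt V hV hmin U hU hVU n ε hε
  let _ : MeasurableSpace β := borel β
  have : BorelSpace β := ⟨rfl⟩
  by_contra hcon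
  push Not at hcon
  -- `β` is nonempty
  have hβ : Nonempty β := by
    by_contra hβ
    rw [not_nonempty_iff] at hβ
    obtain ⟨ζ, hζ⟩ := hVU
    obtain ⟨x, -⟩ := hcon {ζ} (fun _ => 1) 0 (by simpa using hζ) (by simp) (by simp)
    exact hβ.elim x
  have hne : Nonempty ↥(V ∩ U) := hVU.to_subtype
  -- the games
  have hgame : ∀ k₁ : ℕ, ∃ μ : ProbabilityMeasure β, ∀ ζ ∈ V ∩ U,
      ε ≤ ((μ : Measure β) (badS s br ζ s.root ε n k₁)).toReal := by
    intro k₁
    set ι : Type := {v : T // ∃ x, br x k₁ = v} with hι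
    have : Finite ι := by
      refine ((s.finite_level_eq k₁).subset ?_ : ({v : T | ∃ x, br x k₁ = v}).Finite).to_subtype
      rintro v ⟨x, rfl⟩
      exact (hbr x).lv k₁
    have : Fintype ι := Fintype.ofFinite ι
    have : Nonempty ι := ⟨⟨br hβ.some k₁, hβ.some, rfl⟩⟩
    choose p hp using fun v : ι => v.2
    set a : ↥(V ∩ U) → ι → ℝ := fun ζ v =>
      if p v ∈ badS s br ζ.1 s.root ε n k₁ then 1 else 0 with ha
    have ha0 : ∀ ζ v, 0 ≤ a ζ v := by
      intro ζ v
      simp only [ha]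
      split_ifs <;> norm_num
    rcases hMM a ha0 ε with ⟨A, w, hw0, hw1, hw⟩ | ⟨m, hm0, hm1, hm⟩
    · exfalso
      set w' : (∀ Q, X Q) → ℝ := fun ζ => if h : ζ ∈ V ∩ U then w ⟨ζ, h⟩ else 0 with hw'
      have hw'e : ∀ ζ : ↥(V ∩ U), w' ζ.1 = w ζ := by
        intro ζ
        simp only [hw', dif_pos ζ.2]
      obtain ⟨x, A', hA', hbad, hge⟩ := hcon (A.map (Function.Embedding.subtype _)) w' k₁
        (by
          intro ζ hζ
          obtain ⟨ζ', -, rfl⟩ := Finset.mem_map.1 hζ
          exact ζ'.2)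
        (by
          intro ζ hζ
          obtain ⟨ζ', hζ', rfl⟩ := Finset.mem_map.1 hζ
          rw [Function.Embedding.coe_subtype, hw'e]
          exact hw0 _ hζ')
        (by
          rw [Finset.sum_map, ← hw1]
          exact Finset.sum_congr rfl fun ζ _ => hw'e ζ)
      have h2 := hw ⟨br x k₁, x, rfl⟩
      have hpx : br (p ⟨br x k₁, x, rfl⟩) k₁ = br x k₁ := hp _
      refine absurd hge (not_le.2 (lt_of_le_of_lt ?_ h2))
      calc ∑ ζ ∈ A', w' ζ ≤ ∑ ζ ∈ (A.map (Function.Embedding.subtype _)),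
            (if x ∈ badS s br ζ s.root ε n k₁ then w' ζ else 0) := by
            rw [← Finset.sum_filter]
            refine Finset.sum_le_sum_of_subset_of_nonneg ?_ ?_
            · intro ζ hζ
              exact Finset.mem_filter.2 ⟨hA' hζ, hbad ζ hζ⟩
            · intro ζ hζ _
              obtain ⟨ζ', hζ', rfl⟩ := Finset.mem_map.1 (Finset.mem_filter.1 hζ).1
              rw [Function.Embedding.coe_subtype, hw'e]
              exact hw0 _ hζ'
        _ = ∑ ζ ∈ A, w ζ * a ζ ⟨br x k₁, x, rfl⟩ := by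
            rw [Finset.sum_map]
            refine Finset.sum_congr rfl fun ζ _ => ?_
            simp only [ha, Function.Embedding.coe_subtype, hw'e]
            rw [badS_congr hbr hpx]
            split_ifs <;> simp
    · -- the optimal weights
      set μ : Measure β := ∑ v : ι, ENNReal.ofReal (m v) • Measure.dirac (p v) with hμ
      have hμu : μ univ = 1 := by
        rw [hμ, Measure.coe_finsetSum, Finset.sum_apply]
        simp only [Measure.smul_apply, measure_univ, smul_eq_mul, mul_one]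
        rw [← ENNReal.ofReal_sum_of_nonneg fun v _ => hm0 v, hm1, ENNReal.ofReal_one]
      have : IsProbabilityMeasure μ := ⟨hμu⟩
      refine ⟨⟨μ, inferInstance⟩, fun ζ hζ => ?_⟩
      refine (hm ⟨ζ, hζ⟩).trans (le_of_eq ?_)
      have hmb : MeasurableSet (badS s br ζ s.root ε n k₁) :=
        (isClopen_badS hbr ho ζ s.root ε n k₁).isOpen.measurableSet
      rw [ProbabilityMeasure.coe_mk, hμ, Measure.coe_finsetSum, Finset.sum_apply,
        ENNReal.toReal_sum (fun v _ => by
          simp only [Measure.smul_apply, smul_eq_mul]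
          exact ENNReal.mul_ne_top ENNReal.ofReal_ne_top (measure_ne_top _ _))]
      refine Finset.sum_congr rfl fun v _ => ?_
      simp only [Measure.smul_apply, smul_eq_mul, ha, ENNReal.toReal_mul,
        ENNReal.toReal_ofReal (hm0 v), Measure.dirac_apply' _ hmb]
      by_cases hb : p v ∈ badS s br ζ s.root ε n k₁
      · simp [hb]
      · simp [hb]
  choose μ hμ using hgame
  obtain ⟨μ', hμ'⟩ := hWC μ
  have hge : ∀ ζ ∈ V ∩ U, ∀ k, ε ≤ ((μ' : Measure β) (badS s br ζ s.root ε n k)).toReal := by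
    intro ζ hζ k
    refine hμ' _ (isClopen_badS hbr ho ζ s.root ε n k) ε ?_
    filter_upwards [eventually_ge_atTop k] with k₁ hk₁
    refine (hμ k₁ ζ hζ).trans ?_
    exact ENNReal.toReal_mono (measure_ne_top _ _) (measure_mono (badS_mono le_rfl le_rfl hk₁))
  -- contradiction with density
  obtain ⟨i, hi⟩ := exists_nat_one_div_lt hε
  set n' := max n i with hn'
  have hn'ε : 1 / ((n':ℝ) + 1) ≤ ε := by
    refine le_trans ?_ hi.le
    apply one_div_le_one_div_of_le (by positivity)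
    have : (i:ℝ) ≤ n' := by exact_mod_cast le_max_right _ _
    linarith
  have hmeas : ∀ k Q, MeasurableSet {x | br x k = Q} := fun k Q => (ho k Q).measurableSet
  obtain ⟨ζ₀, hζ₀V, hζ₀U⟩ := hVU
  have hcl := dense_good (μ := (μ' : Measure β)) h1 hbr hmeas hcnt hV hmin n' hζ₀V
  obtain ⟨ζ, hζU, hζV, hζW⟩ := _root_.mem_closure_iff.1 hcl U hU hζ₀U
  obtain ⟨k₁, hk₁⟩ := hζW s.root (by rw [s.lv_root]; exact Nat.zero_le _)
  have h3 := hge ζ ⟨hζV, hζU⟩ k₁
  have h4 : (μ' : Measure β) (badS s br ζ s.root ε n k₁) < ENNReal.ofReal ε :=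
    (measure_mono (badS_mono hn'ε (le_max_left _ _) le_rfl)).trans_lt
      (hk₁.trans_le (ENNReal.ofReal_le_ofReal hn'ε))
  have h5 := ENNReal.toReal_lt_of_lt_ofReal h4
  linarith

end Vale.Agent.P116.Ms
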