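import Vale.Agent.P116.Ms.RK1

/-!
RK2: the random slow tree.
-/

open Set Filter Topology Metric MeasureTheory
open scoped Classical ENNReal

namespace Vale.Agent.P116.Ms

open Slow Slow.Sys

/-- **RK2** -/
theorem rk2 (h1 : RK1) (hRB : RB) : RK2 := by
  intro T X _ _ s β _ _ _ br hbr ho hcnt V₀ h₀
  obtain ⟨V, hVV₀, hV, hmin⟩ := h₀.exists_minimal
  refine ⟨V, hVV₀, hV.closed, ?_⟩
  intro _ _
  have hT : Countable T := by
    have : (univ : Set T) = ⋃ n : ℕ, {Q : T | s.lv Q ≤ n} := by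
      ext Q
      simp only [mem_univ, mem_iUnion, true_iff]
      exact ⟨s.lv Q, le_refl (s.lv Q)⟩
    have h2 : (univ : Set T).Countable := by
      rw [this]
      exact countable_iUnion fun n => (s.finite_level_le n).countable
    exact countable_univ_iff.1 h2
  have hVc : CompactSpace V := isCompact_iff_compactSpace.1 hV.closed.isCompact
  have hVn : Nonempty V := hV.nonempty.to_subtype
  set B : ℕ → ℕ → β → Set ↥V := fun n k x =>
    {ζ | x ∈ badS s br ζ.1 s.root (1 / ((n:ℝ) + 1)) n k} with hB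
  have c1 : ∀ n k x, IsClosed (B n k x) := by
    intro n k x
    have e : B n k x = ⋂ k' ∈ Set.Icc n k, {ζ : ↥V | 1 / ((n:ℝ) + 1) ≤
        dist (ζ.1 s.root) (s.mg (br x) k' ζ.1 s.root)} := by
      ext ζ
      simp only [hB, badS, Set.mem_ofPred_eq, Set.mem_iInter, Set.mem_Icc, and_imp]
    rw [e]
    refine isClosed_biInter fun k' _ => isClosed_le continuous_const ?_
    have h2 : Continuous fun ζ : ∀ Q, X Q => dist (ζ s.root) (s.mg (br x) k' ζ s.root) :=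
      (continuous_apply s.root).dist ((continuous_apply s.root).comp (s.continuous_mg (br x) k'))
    exact h2.comp continuous_subtype_val
  have c2 : ∀ n k, (range (B n k)).Finite := by
    intro n k
    refine ((s.finite_level_eq k).image fun v => ⋃ x ∈ {x : β | br x k = v}, B n k x).subset ?_
    rintro _ ⟨x, rfl⟩
    refine ⟨br x k, (hbr x).lv k, ?_⟩
    ext ζ
    simp only [Set.mem_iUnion]
    constructor
    · rintro ⟨y, hy, hζ⟩
      exact (badS_congr hbr hy).1 hζ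
    · intro hζ
      exact ⟨x, rfl, hζ⟩
  have c3 : ∀ n k k', k ≤ k' → ∀ i, B n k' i ⊆ B n k i := by
    intro n k k' hkk' x ζ hζ
    exact badS_mono le_rfl le_rfl hkk' hζ
  have c4 : ∀ n, ∀ U : Set ↥V, IsOpen U → U.Nonempty → ∃ (A : Finset ↥V) (w : ↥V → ℝ) (k : ℕ),
      (∀ ζ ∈ A, ζ ∈ U) ∧ (∀ ζ ∈ A, 0 ≤ w ζ) ∧ ∑ ζ ∈ A, w ζ = 1 ∧
      ∀ i (A' : Finset ↥V), A' ⊆ A → (∀ ζ ∈ A', ζ ∈ B n k i) →
        ∑ ζ ∈ A', w ζ < 1 / ((n:ℝ) + 1) := by
    intro n U hU hUne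
    obtain ⟨U', hU', rfl⟩ := isOpen_induced_iff.1 hU
    have hne : (V ∩ U').Nonempty := by
      obtain ⟨ζ, hζ⟩ := hUne
      exact ⟨ζ.1, ζ.2, hζ⟩
    obtain ⟨A, w, k₁, hA, hw0, hw1, hw⟩ := h1 hbr ho hcnt hV hmin hU' hne n
      (show (0:ℝ) < 1 / ((n:ℝ) + 1) by positivity)
    refine ⟨A.subtype (· ∈ V), fun ζ => w ζ.1, k₁, ?_, ?_, ?_, ?_⟩
    · intro ζ hζ
      exact (hA _ (Finset.mem_subtype.1 hζ)).2
    · intro ζ hζ
      exact hw0 _ (Finset.mem_subtype.1 hζ)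
    · rw [← hw1, ← Finset.sum_subtype_of_mem (s := A) (p := (· ∈ V)) w fun ζ hζ => (hA ζ hζ).1]
    · intro x A' hA' hbad
      have h2 := hw x (A'.map (Function.Embedding.subtype _)) ?_ ?_
      · rwa [Finset.sum_map] at h2
      · intro ζ hζ
        obtain ⟨ζ', hζ', rfl⟩ := Finset.mem_map.1 hζ
        exact Finset.mem_subtype.1 (hA' hζ')
      · intro ζ hζ
        obtain ⟨ζ', hζ', rfl⟩ := Finset.mem_map.1 hζ
        exact hbad ζ' hζ'

  obtain ⟨P, hP⟩ := hRB B c1 c2 c3 c4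
  refine ⟨P, fun x => ?_⟩
  have hnull : ∀ (i k₀ : ℕ), (P : Measure ↥V) {ζ : ↥V | ∀ k ≥ k₀, 1 / ((i:ℝ) + 1) ≤
      dist (ζ.1 s.root) (s.mg (br x) k ζ.1 s.root)} = 0 := by
    intro i k₀
    refine le_antisymm ?_ bot_le
    have h2 : Tendsto (fun n : ℕ => ENNReal.ofReal (1 / ((n:ℝ) + 1))) atTop (𝓝 0) := by
      rw [← ENNReal.ofReal_zero]
      exact ENNReal.tendsto_ofReal tendsto_one_div_add_atTop_nhds_zero_nat
    refine ge_of_tendsto h2 ?_
    filter_upwards [eventually_ge_atTop (max i k₀)] with n hn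
    obtain ⟨k₁, hk₁⟩ := hP n
    have hk₁' : (P : Measure ↥V) (B n k₁ x) ≤ ENNReal.ofReal (1 / ((n:ℝ) + 1)) := by
      rw [ENNReal.le_ofReal_iff_toReal_le (measure_ne_top _ _) (by positivity)]
      exact hk₁ x
    refine (measure_mono fun ζ hζ k hk _ => ?_).trans hk₁'
    have h3 := hζ k ((le_max_right _ _).trans (hn.trans hk))
    refine le_trans ?_ h3
    apply one_div_le_one_div_of_le (by positivity)
    have : (i:ℝ) ≤ n := by exact_mod_cast (le_max_left _ _).trans hn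
    linarith
  have hae : ∀ᵐ ζ ∂(P : Measure ↥V), ∀ i k₀ : ℕ, ¬ ∀ k ≥ k₀, 1 / ((i:ℝ) + 1) ≤
      dist (ζ.1 s.root) (s.mg (br x) k ζ.1 s.root) := by
    rw [ae_all_iff]
    intro i
    rw [ae_all_iff]
    intro k₀
    rw [ae_iff]
    simpa using hnull i k₀
  filter_upwards [hae] with ζ hζ ε hε k₀
  obtain ⟨i, hi⟩ := exists_nat_one_div_lt hε
  have h2 := hζ i k₀
  push Not at h2
  obtain ⟨k, hk, hk'⟩ := h2
  exact ⟨k, hk, hk'.trans hi⟩

end Vale.Agent.P116.Ms
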