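import Vale.Agent.P116.Ms.All
import Vale.Agent.P116.Ms.RFa
import Vale.Agent.P116.Ms.RK1
import Vale.Agent.P116.Ms.RK2
import Vale.Agent.P116.Ms.RB
import Vale.Agent.P116.Ms.MMWC
import Vale.Agent.P116.Ms.RV
import Vale.Agent.P116.Ms.RG
import Vale.Agent.P116.Ms.RFb

/-!
All the blocks of the random version together.
-/

open Set Filter Topology Metric Bornology MeasureTheory

namespace Vale.Agent.P116.Ms

open H906 PBC Slow

/-- the random state of `K` -/
theorem exists_RSt_all {K : Set ℂ} {R ρ : ℝ} (h : Far K R ρ) (hne : K.Nonempty) :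
    ∃ (Ω : Type) (_ : TopologicalSpace Ω) (_ : MeasurableSpace Ω)
      (P : Measure Ω) (g : Ω → ℂ → ℂ) (𝔊 : Ω → Ultrafilter Str), RSt K Ω P g 𝔊 :=
  exists_RSt (rk2 (rk1 ab1 mm wc) rb) rv1 (rg rv2) ab4 sysCnt_all h hne

end Vale.Agent.P116.Ms
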