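import Vale.Agent.P116.Ms.Spec
import Vale.Agent.P116.FK.V

/-!
# From the energy to the values
-/

open Set Metric Filter Topology Complex MeasureTheory Bornology
open scoped Real ENNReal

namespace Vale.Agent.P116.Ms

/-- the mean value property for the square over a disk -/
theorem mean_ball {f : ℂ → ℂ} (hfm : Measurable f) {z : ℂ} {δ : ℝ} (hδ : 0 < δ)
    (hd : DifferentiableOn ℂ f (ball z δ)) :
    ENNReal.ofReal (π * δ ^ 2 * ‖f z‖ ^ 2) ≤ ∫⁻ w in ball z δ, ‖f w‖ₑ ^ 2 := by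
  have hball : IsOpen (ball z δ) := isOpen_ball
  set F : ℂ → ℝ≥0∞ := (ball z δ).indicator fun w => ‖f w‖ₑ ^ 2 with hF
  have hFm : Measurable F := (hfm.enorm.pow_const 2).indicator hball.measurableSet
  rw [← lintegral_indicator hball.measurableSet, FK.v_polar z hFm]
  have h1 : ∀ r ∈ Ioo 0 δ, ENNReal.ofReal (r * (2 * π * ‖f z‖ ^ 2)) ≤
      ∫⁻ θ in Ioo (-π) π, ENNReal.ofReal r * F (circleMap z r θ) := by
    intro r hr
    have e1 : ∀ θ, F (circleMap z r θ) = ‖f (circleMap z r θ)‖ₑ ^ 2 := by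
      intro θ
      rw [hF, indicator_of_mem]
      rw [mem_ball, dist_eq_norm, circleMap_sub_center, norm_circleMap_zero, abs_of_pos hr.1]
      exact hr.2
    simp only [e1]
    rw [lintegral_const_mul' _ _ ENNReal.ofReal_ne_top, ENNReal.ofReal_mul hr.1.le]
    refine mul_le_mul_right ?_ _
    refine le_trans (le_of_eq ?_) (FK.v_mean hd hr.1 hr.2)
    rw [ENNReal.ofReal_mul (by positivity), ENNReal.ofReal_pow (norm_nonneg _), ofReal_norm]
  have h2 : ∫⁻ r in Ioo 0 δ, ENNReal.ofReal (r * (2 * π * ‖f z‖ ^ 2)) =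
      ENNReal.ofReal (π * δ ^ 2 * ‖f z‖ ^ 2) := by
    have hint : IntegrableOn (fun r : ℝ => r * (2 * π * ‖f z‖ ^ 2)) (Ioo 0 δ) := by
      have : IntervalIntegrable (fun r : ℝ => r * (2 * π * ‖f z‖ ^ 2)) volume 0 δ :=
        (by fun_prop : Continuous fun r : ℝ => r * (2 * π * ‖f z‖ ^ 2)).intervalIntegrable _ _
      rw [intervalIntegrable_iff_integrableOn_Ioo_of_le hδ.le] at this
      exact this
    rw [← ofReal_integral_eq_lintegral_ofReal hint]
    · congr 1
      rw [← integral_Ioc_eq_integral_Ioo, ← intervalIntegral.integral_of_le hδ.le,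
        intervalIntegral.integral_mul_const, integral_id]
      ring
    · rw [EventuallyLE, ae_restrict_iff' measurableSet_Ioo]
      refine Eventually.of_forall fun r hr => ?_
      have := hr.1
      simp only [Pi.zero_apply]
      positivity
  rw [← h2]
  calc _ ≤ ∫⁻ r in Ioo 0 δ, ∫⁻ θ in Ioo (-π) π, ENNReal.ofReal r * F (circleMap z r θ) :=
        setLIntegral_mono' measurableSet_Ioo h1
    _ ≤ _ := lintegral_mono_set fun r hr => hr.1

/-- the Bochner form -/
theorem mean_ball' {f : ℂ → ℂ} (hfm : Measurable f) {z : ℂ} {δ : ℝ} (hδ : 0 < δ)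
    (hd : DifferentiableOn ℂ f (ball z δ)) (hi : IntegrableOn (fun w => ‖f w‖ ^ 2) (ball z δ)) :
    π * δ ^ 2 * ‖f z‖ ^ 2 ≤ ∫ w in ball z δ, ‖f w‖ ^ 2 := by
  have h1 := mean_ball hfm hδ hd
  have h2 : ∫⁻ w in ball z δ, ‖f w‖ₑ ^ 2 = ENNReal.ofReal (∫ w in ball z δ, ‖f w‖ ^ 2) := by
    rw [ofReal_integral_eq_lintegral_ofReal hi (Eventually.of_forall fun w => by positivity)]
    refine lintegral_congr fun w => ?_
    rw [ENNReal.ofReal_pow (norm_nonneg _), ofReal_norm]
  rw [h2] at h1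
  exact (ENNReal.ofReal_le_ofReal_iff (integral_nonneg fun w => by positivity)).1 h1

/-- EN6 -/
theorem en6 : EN6 := by
  intro B hB h hh hlim E₀ hE z hz
  have hE0 : 0 ≤ E₀ := by
    have := hE ∅ MeasurableSet.empty isBounded_empty (fun z hz => hz.elim)
    simpa using this
  have hUo : IsOpen {z : ℂ | B < ‖z‖} := isOpen_lt continuous_const continuous_norm
  set f : ℂ → ℂ := fun w => deriv h w - 1 with hf
  have hfm : Measurable f := (measurable_deriv h).sub_const 1
  have hfd : DifferentiableOn ℂ f {z : ℂ | B < ‖z‖} := (hh.deriv hUo).sub_const 1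
  -- the bound on the circle
  have hcirc : ∀ ζ : ℂ, ‖ζ‖ = 2 * B + 2 → π * (B + 1) ^ 2 * ‖f ζ‖ ^ 2 ≤ E₀ := by
    intro ζ hζ
    have hnorm : ∀ w ∈ closedBall ζ (B + 1), B + 1 ≤ ‖w‖ := by
      intro w hw
      rw [mem_closedBall, dist_eq_norm] at hw
      have h1 : ‖ζ‖ ≤ ‖w‖ + ‖w - ζ‖ := by
        have := norm_sub_norm_le ζ w
        rw [← norm_neg (ζ - w), neg_sub] at this
        linarith
      linarith
    have hsub : closedBall ζ (B + 1) ⊆ {z : ℂ | B < ‖z‖} := fun w hw => by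
      have := hnorm w hw
      change B < ‖w‖
      linarith
    have hi : IntegrableOn (fun w => ‖f w‖ ^ 2) (ball ζ (B + 1)) := by
      refine IntegrableOn.mono_set ?_ ball_subset_closedBall
      exact ((hfd.continuousOn.mono hsub).norm.pow 2).integrableOn_compact
        (isCompact_closedBall _ _)
    have h1 := mean_ball' hfm (by linarith : (0 : ℝ) < B + 1)
      (hfd.mono (ball_subset_closedBall.trans hsub)) hi
    exact h1.trans (hE _ measurableSet_ball isBounded_ball fun w hw =>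
      hnorm w (ball_subset_closedBall hw))
  -- inversion
  set g : ℂ → ℂ := Function.update (fun u => h u⁻¹ - u⁻¹) 0 0 with hg
  have hgne : ∀ u : ℂ, u ≠ 0 → g u = h u⁻¹ - u⁻¹ := fun u hu => Function.update_of_ne hu _ _
  have hg0 : g 0 = 0 := Function.update_self _ _ _
  have hgev : ∀ u : ℂ, u ≠ 0 → g =ᶠ[𝓝 u] fun u => h u⁻¹ - u⁻¹ := fun u hu => by
    filter_upwards [isOpen_ne.mem_nhds hu] with v hv
    exact hgne v hv
  have hder : ∀ u : ℂ, u ≠ 0 → B < ‖u⁻¹‖ → HasDerivAt g (f u⁻¹ * (-(u ^ 2)⁻¹)) u := by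
    intro u hu hB'
    have h1 : HasDerivAt (fun w => h w - w) (f u⁻¹) u⁻¹ := by
      have := (hh.differentiableAt (hUo.mem_nhds hB')).hasDerivAt
      exact this.sub (hasDerivAt_id _)
    have h2 : HasDerivAt (fun u : ℂ => u⁻¹) (-(u ^ 2)⁻¹) u := hasDerivAt_inv hu
    have h3 : HasDerivAt (fun u => h u⁻¹ - u⁻¹) (f u⁻¹ * (-(u ^ 2)⁻¹)) u := h1.comp u h2
    exact h3.congr_of_eventuallyEq (hgev u hu)
  have hgcont : ContinuousAt g 0 := by
    rw [hg, continuousAt_update_same]
    exact hlim.comp tendsto_inv₀_nhdsNE_zero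
  set ρ : ℝ := (2 * B + 2)⁻¹ with hρ
  have hρ0 : 0 < ρ := by positivity
  have hinvB : ∀ u : ℂ, u ≠ 0 → ‖u‖ < B⁻¹ → B < ‖u⁻¹‖ := by
    intro u hu hu2
    rw [norm_inv]
    have := (inv_lt_inv₀ (by positivity) (norm_pos_iff.2 hu)).2 hu2
    rwa [inv_inv] at this
  have hgd : DifferentiableOn ℂ g (ball 0 B⁻¹) := by
    have h0 : DifferentiableAt ℂ g 0 := by
      refine (Complex.analyticAt_of_differentiable_on_punctured_nhds_of_continuousAt ?_
        hgcont).differentiableAt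
      have hnb : ball (0 : ℂ) B⁻¹ ∈ 𝓝 (0 : ℂ) := ball_mem_nhds _ (by positivity)
      filter_upwards [self_mem_nhdsWithin, nhdsWithin_le_nhds hnb] with u hu hu2
      exact (hder u hu (hinvB u hu (by simpa using hu2))).differentiableAt
    intro u hu
    by_cases h : u = 0
    · subst h
      exact h0.differentiableWithinAt
    · exact (hder u h (hinvB u h (by simpa using hu))).differentiableAt.differentiableWithinAt
  have hρB : ρ < B⁻¹ := by
    rw [hρ]
    exact (inv_lt_inv₀ (by positivity) hB).2 (by linarith)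
  set C : ℝ := 4 * (B + 1) * Real.sqrt (E₀ / π) with hC
  have hC0 : 0 ≤ C := by positivity
  have hgb : ∀ u ∈ closedBall (0 : ℂ) ρ, ‖deriv g u‖ ≤ C := by
    have hdc : DiffContOnCl ℂ (deriv g) (ball (0 : ℂ) ρ) := by
      refine DifferentiableOn.diffContOnCl_ball (U := ball 0 B⁻¹) (hgd.deriv isOpen_ball) ?_
      exact closedBall_subset_ball hρB
    intro u hu
    refine Complex.norm_le_of_forall_mem_frontier_norm_le isBounded_ball hdc ?_ ?_
    · intro v hv
      rw [frontier_ball _ hρ0.ne', mem_sphere_zero_iff_norm] at hv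
      have hv0 : v ≠ 0 := by
        rw [← norm_pos_iff, hv]; exact hρ0
      have hvi : ‖v⁻¹‖ = 2 * B + 2 := by rw [norm_inv, hv, hρ, inv_inv]
      rw [(hder v hv0 (by rw [hvi]; linarith)).deriv, norm_mul, norm_neg, norm_inv, norm_pow, hv]
      have h1 := hcirc v⁻¹ hvi
      have h2 : ‖f v⁻¹‖ ≤ Real.sqrt (E₀ / π) / (B + 1) := by
        rw [le_div_iff₀ (by positivity)]
        apply Real.le_sqrt_of_sq_le
        rw [le_div_iff₀ Real.pi_pos]
        nlinarith
      have h3 : (ρ ^ 2)⁻¹ = 4 * (B + 1) ^ 2 := by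
        rw [hρ, inv_pow, inv_inv]; ring
      rw [h3]
      calc ‖f v⁻¹‖ * (4 * (B + 1) ^ 2) ≤ Real.sqrt (E₀ / π) / (B + 1) * (4 * (B + 1) ^ 2) :=
            mul_le_mul_of_nonneg_right h2 (by positivity)
        _ = C := by
            rw [hC]
            field_simp
    · rw [closure_ball _ hρ0.ne']
      exact hu
  -- conclusion
  have hz0 : z ≠ 0 := by
    rw [← norm_pos_iff]; linarith
  have hzi : ‖z⁻¹‖ ≤ (4 * B + 4)⁻¹ := by
    rw [norm_inv]
    exact inv_anti₀ (by positivity) hz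
  have hzi' : z⁻¹ ∈ closedBall (0 : ℂ) ρ := by
    rw [mem_closedBall_zero_iff]
    refine hzi.trans ?_
    rw [hρ]
    exact inv_anti₀ (by positivity) (by linarith)
  have hmv := (convex_closedBall (0 : ℂ) ρ).norm_image_sub_le_of_norm_deriv_le
    (f := g) (C := C) (fun u hu => (hgd.differentiableAt
      (isOpen_ball.mem_nhds (closedBall_subset_ball hρB hu)))) hgb
    (mem_closedBall_self hρ0.le) hzi'
  rw [hg0, sub_zero, sub_zero, hgne _ (inv_ne_zero hz0), inv_inv] at hmv
  have h5 : ‖h z - z‖ ≤ Real.sqrt (E₀ / π) := by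
    refine hmv.trans ((mul_le_mul_of_nonneg_left hzi hC0).trans (le_of_eq ?_))
    rw [hC]
    field_simp
  calc ‖h z - z‖ ^ 2 ≤ Real.sqrt (E₀ / π) ^ 2 := pow_le_pow_left₀ (norm_nonneg _) h5 2
    _ = E₀ / π := Real.sq_sqrt (by positivity)
    _ ≤ 4 * E₀ := by
        rw [div_le_iff₀ Real.pi_pos]
        nlinarith [Real.pi_gt_three]

end Vale.Agent.P116.Ms
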