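import Vale.Agent.P116.Ms.EN1
import Vale.Agent.P116.Ms.EN3
import Vale.Agent.P116.Ms.EN4
import Vale.Agent.P116.Ms.EN5
import Vale.Agent.P116.Ms.EN6

/-!
# The energy inequality
-/

open Set Filter Topology Metric Bornology MeasureTheory

namespace Vale.Agent.P116.Ms

/-- the displacement of the normalized map far away, from EN5 and EN6 -/
theorem energy : Energy := by
  intro n c r L h B H i₀ c' r' hL w₀ D hD hLi z hz
  have hfar : DifferentiableOn ℂ h {z | B < ‖z‖} := by
    refine H.diff.mono fun z hz => ?_
    rw [mem_compl_iff, mem_iUnion, not_exists]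
    intro k hk
    have := H.sub k hk
    rw [mem_closedBall, dist_zero_right] at this
    rw [mem_ofPred_eq] at hz
    linarith
  have h1 := en6 H.pos hfar H.norm (fun W hW hWb hWB =>
    en5 en1 en2 en3 en4 H i₀ hL hD hLi hW hWb hWB) hz
  have hr := H.rpos i₀
  have h2 : 4 * (2 * Real.pi * r i₀ * D) ≤ 100 * r i₀ * D := by
    have h3 := Real.pi_lt_d2
    have h4 : 0 < r i₀ * D := mul_pos hr hD
    nlinarith
  exact h1.trans h2

end Vale.Agent.P116.Ms
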